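import Vale.Agent.P146.H615.Gg
import Vale.Agent.P146.H347.Mod6

/-!
P146, the near end: the two moment inputs of the Bessel bound of H586.

With `M j = cx K ⟨a σ_j⟩`, `ms = ∑ j ∈ S, M j * σ j`, `Y = τ |M|^2 + v`, `X = (τ ms + v) / √Y`:

* `dl2_le` : `cx K ⟨(X - √Y)^2⟩ ≤ 3/2 τ √RKg + 4 η^2 Y`;
* `x4_le` : `cx K ⟨X^4⟩ ≤ 8 (τ^2 √Q4g + v^2)`;
* `y2_le` : `Y^2 ≤ 11 (τ^2 √Q4g + v^2)`;
* `ne_in` : the mean of the product, by Cauchy-Schwarz.

`Q4g` is the sum of the squares of the four point functions given the frozen coordinates.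
-/

open MeasureTheory ProbabilityTheory

namespace Vale.Agent.P146.H463

open Vale.Agent.P146.H196 Vale.Agent.P146.H646 Vale.Agent.P146.H615

set_option linter.unusedSectionVars false

section gm

variable {κ s : Type} [Fintype κ] [DecidableEq κ] [Fintype s] [DecidableEq s]
variable {Ω : Type} [MeasurableSpace Ω] {m : Measure Ω} {M0 : ℝ} {E : κ → Ω → ℝ}
variable {σ : s → Ω → ℝ} {a : Ω → ℝ}

/-- the sum of the squares of the two point functions of a family -/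
noncomputable def F2 {J : Type} (m : Measure Ω) (E : κ → Ω → ℝ) (x : ℝ) (K : Finset κ)
    (f : J → Ω → ℝ) (A : Finset J) (z : κ → ℝ) : ℝ :=
  ∑ p ∈ A, ∑ q ∈ A,
    cx (H347.g1 κ) K (Zxm m 1 E x) (avm m 1 E fun ω => f p ω * f q ω) z ^ 2

/-- the sum of the squares of the four point functions -/
noncomputable def Q4g (m : Measure Ω) (E : κ → Ω → ℝ) (x : ℝ) (K : Finset κ)
    (σ : s → Ω → ℝ) (S : Finset s) (z : κ → ℝ) : ℝ :=
  F2 m E x K (fun p : s × s => fun ω => σ p.1 ω * σ p.2 ω) (S ×ˢ S) z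

lemma F2_nonneg {J : Type} (x : ℝ) (K : Finset κ) (f : J → Ω → ℝ) (A : Finset J) (z : κ → ℝ) :
    0 ≤ F2 m E x K f A z :=
  Finset.sum_nonneg fun _ _ => Finset.sum_nonneg fun _ _ => sq_nonneg _

lemma Q4g_nonneg (x : ℝ) (K : Finset κ) (S : Finset s) (z : κ → ℝ) :
    0 ≤ Q4g m E x K σ S z := F2_nonneg x K _ _ z

lemma dep_F2 {J : Type} (x : ℝ) (K : Finset κ) (f : J → Ω → ℝ) (A : Finset J) :
    Dep K (F2 m E x K f A) :=
  Dep.sum A fun _ _ => Dep.sum A fun _ _ => Dep.sq (dep_cx K)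

lemma dep_Q4g (x : ℝ) (K : Finset κ) (S : Finset s) : Dep K (Q4g m E x K σ S) :=
  dep_F2 x K _ _

lemma dep_RKg (x : ℝ) (K : Finset κ) (S : Finset s) : Dep K (RKg m E x K σ S) := by
  intro z z'
  unfold RKg
  refine Finset.sum_congr rfl fun j _ => Finset.sum_congr rfl fun l _ => ?_
  unfold Cg
  rw [dep_cx (μ := H347.g1 κ) (w := Zxm m 1 E x) K z z',
    dep_cx (μ := H347.g1 κ) (w := Zxm m 1 E x) (Ψ := avm m 1 E (σ j)) K z z',
    dep_cx (μ := H347.g1 κ) (w := Zxm m 1 E x) (Ψ := avm m 1 E (σ l)) K z z']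

variable (hG : GM m E M0)
include hG

lemma bm_F2 {J : Type} (x : ℝ) (K : Finset κ) {f : J → Ω → ℝ} (hf : ∀ p, Bd (f p))
    (A : Finset J) : BM (F2 m E x K f A) :=
  BM.sum A fun p _ => BM.sum A fun q _ =>
    bsq ((H347.wt hG 1 x).bm_cx K ((av_gm hG 1).bm ((hf p).mul (hf q))))

lemma bm_Q4g (x : ℝ) (K : Finset κ) (hs : ∀ j, Bd (σ j)) (S : Finset s) :
    BM (Q4g m E x K σ S) :=
  bm_F2 hG x K (f := fun p : s × s => fun ω => σ p.1 ω * σ p.2 ω)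
    (fun p => (hs p.1).mul (hs p.2)) _

/-- the mean of the square of a linear combination -/
lemma quad_eq {J : Type} (x : ℝ) (K : Finset κ) {f : J → Ω → ℝ} (hf : ∀ p, Bd (f p))
    (A : Finset J) (c : J → ℝ) (z : κ → ℝ) :
    cx (H347.g1 κ) K (Zxm m 1 E x) (avm m 1 E fun ω => (∑ p ∈ A, c p * f p ω) ^ 2) z =
      ∑ p ∈ A, c p * ∑ q ∈ A, c q *
        cx (H347.g1 κ) K (Zxm m 1 E x) (avm m 1 E fun ω => f p ω * f q ω) z := by
  have hw := H347.wt hG 1 x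
  have hA := av_gm hG 1
  have e5 : (avm m 1 E fun ω => (∑ p ∈ A, c p * f p ω) ^ 2) = fun z => ∑ p ∈ A, c p *
      ∑ q ∈ A, c q * avm m 1 E (fun ω => f p ω * f q ω) z := by
    funext z
    have e6 : (fun ω => (∑ p ∈ A, c p * f p ω) ^ 2) = fun ω => ∑ p ∈ A, c p *
        ∑ q ∈ A, c q * (f p ω * f q ω) := by
      funext ω
      rw [sq, Finset.sum_mul]
      refine Finset.sum_congr rfl fun p _ => ?_
      rw [Finset.mul_sum, Finset.mul_sum]
      exact Finset.sum_congr rfl fun q _ => by ring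
    rw [e6, hA.sum A fun p _ => (Bd.sum A fun q _ => ((hf p).mul (hf q)).cmul _).cmul _]
    refine Finset.sum_congr rfl fun p _ => ?_
    rw [hA.smul, hA.sum A fun q _ => ((hf p).mul (hf q)).cmul _]
    congr 1
    exact Finset.sum_congr rfl fun q _ => hA.smul _ _ _
  rw [e5, cx_sum hw A fun p _ => (BM.const _).mul (BM.sum A fun q _ =>
    (BM.const _).mul (hA.bm ((hf p).mul (hf q))))]
  refine Finset.sum_congr rfl fun p _ => ?_
  rw [cx_const_mul hw, cx_sum hw A fun q _ => (BM.const _).mul (hA.bm ((hf p).mul (hf q)))]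
  congr 1
  exact Finset.sum_congr rfl fun q _ => by rw [cx_const_mul hw]

/-- the mean of the square of a linear combination, Cauchy-Schwarz -/
lemma quad_cs {J : Type} (x : ℝ) (K : Finset κ) {f : J → Ω → ℝ} (hf : ∀ p, Bd (f p))
    (A : Finset J) (c : J → ℝ) (z : κ → ℝ) :
    cx (H347.g1 κ) K (Zxm m 1 E x) (avm m 1 E fun ω => (∑ p ∈ A, c p * f p ω) ^ 2) z ≤
      (∑ p ∈ A, c p ^ 2) * √(F2 m E x K f A z) := by
  rw [quad_eq hG x K hf A c z]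
  set C : J → J → ℝ := fun p q =>
    cx (H347.g1 κ) K (Zxm m 1 E x) (avm m 1 E fun ω => f p ω * f q ω) z with hC
  have e2 : (∑ p ∈ A, c p * ∑ q ∈ A, c q * C p q) =
      ∑ r ∈ A ×ˢ A, (c r.1 * c r.2) * C r.1 r.2 := by
    rw [Finset.sum_product]
    refine Finset.sum_congr rfl fun p _ => ?_
    rw [Finset.mul_sum]
    exact Finset.sum_congr rfl fun q _ => by ring
  have e3 : ∑ r ∈ A ×ˢ A, (c r.1 * c r.2) ^ 2 = (∑ p ∈ A, c p ^ 2) ^ 2 := by
    rw [Finset.sum_product, sq, Finset.sum_mul]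
    refine Finset.sum_congr rfl fun p _ => ?_
    rw [Finset.mul_sum]
    exact Finset.sum_congr rfl fun q _ => by ring
  have e4 : ∑ r ∈ A ×ˢ A, C r.1 r.2 ^ 2 = F2 m E x K f A z := by
    rw [Finset.sum_product]; rfl
  have h3 := Finset.sum_mul_sq_le_sq_mul_sq (A ×ˢ A) (fun r => c r.1 * c r.2)
    (fun r => C r.1 r.2)
  rw [e3, e4, ← e2] at h3
  have h4 := (le_abs_self _).trans (Real.abs_le_sqrt h3)
  rwa [Real.sqrt_mul (sq_nonneg _),
    Real.sqrt_sq (Finset.sum_nonneg fun _ _ => sq_nonneg _)] at h4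

/-- the mean of the fourth power of a linear combination of the spins -/
lemma four_cs (x : ℝ) (K : Finset κ) (hs : ∀ j, Bd (σ j)) (S : Finset s) (c : s → ℝ)
    (z : κ → ℝ) :
    cx (H347.g1 κ) K (Zxm m 1 E x) (avm m 1 E fun ω => (∑ j ∈ S, c j * σ j ω) ^ 4) z ≤
      (∑ j ∈ S, c j ^ 2) ^ 2 * √(Q4g m E x K σ S z) := by
  have h1 := quad_cs hG x K (f := fun p : s × s => fun ω => σ p.1 ω * σ p.2 ω)
    (fun p => (hs p.1).mul (hs p.2)) (S ×ˢ S) (fun p => c p.1 * c p.2) z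
  have e1 : (fun ω => (∑ p ∈ S ×ˢ S, (c p.1 * c p.2) * (σ p.1 ω * σ p.2 ω)) ^ 2) =
      fun ω => (∑ j ∈ S, c j * σ j ω) ^ 4 := by
    funext ω
    have e2 : ∑ p ∈ S ×ˢ S, (c p.1 * c p.2) * (σ p.1 ω * σ p.2 ω) =
        (∑ j ∈ S, c j * σ j ω) ^ 2 := by
      rw [Finset.sum_product, sq, Finset.sum_mul]
      refine Finset.sum_congr rfl fun p _ => ?_
      rw [Finset.mul_sum]
      exact Finset.sum_congr rfl fun q _ => by ring
    rw [e2]; ring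
  have e3 : ∑ p ∈ S ×ˢ S, (c p.1 * c p.2) ^ 2 = (∑ j ∈ S, c j ^ 2) ^ 2 := by
    rw [Finset.sum_product, sq, Finset.sum_mul]
    refine Finset.sum_congr rfl fun p _ => ?_
    rw [Finset.mul_sum]
    exact Finset.sum_congr rfl fun q _ => by ring
  rw [e1, e3] at h1
  exact h1

/-- Jensen for the conditional mean of a thermal average -/
lemma cxav_sq_le (x : ℝ) (K : Finset κ) {h : Ω → ℝ} (hh : Bd h) (z : κ → ℝ) :
    cx (H347.g1 κ) K (Zxm m 1 E x) (avm m 1 E h) z ^ 2 ≤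
      cx (H347.g1 κ) K (Zxm m 1 E x) (avm m 1 E fun ω => h ω ^ 2) z := by
  have hw := H347.wt hG 1 x
  have hA := av_gm hG 1
  refine (cx_sq_le hw (hA.bm hh) z).trans ?_
  exact cx_mono hw (bsq (hA.bm hh)) (hA.bm hh.sq) (fun y => hA.sq_le hh y) z

lemma cxav_mono (x : ℝ) (K : Finset κ) {h g : Ω → ℝ} (hh : Bd h) (hg : Bd g)
    (hle : ∀ ω, h ω ≤ g ω) (z : κ → ℝ) :
    cx (H347.g1 κ) K (Zxm m 1 E x) (avm m 1 E h) z ≤
      cx (H347.g1 κ) K (Zxm m 1 E x) (avm m 1 E g) z := by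
  have hw := H347.wt hG 1 x
  have hA := av_gm hG 1
  exact cx_mono hw (hA.bm hh) (hA.bm hg) (fun y => hA.mono hh hg hle y) z

lemma cxav_cmul (x : ℝ) (K : Finset κ) (c : ℝ) (h : Ω → ℝ) (z : κ → ℝ) :
    cx (H347.g1 κ) K (Zxm m 1 E x) (avm m 1 E fun ω => c * h ω) z =
      c * cx (H347.g1 κ) K (Zxm m 1 E x) (avm m 1 E h) z := by
  have hw := H347.wt hG 1 x
  have hA := av_gm hG 1
  have e : (avm m 1 E fun ω => c * h ω) = fun z => c * avm m 1 E h z := by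
    funext y; exact hA.smul c h y
  rw [e, cx_const_mul hw]

lemma cxav_add (x : ℝ) (K : Finset κ) {h g : Ω → ℝ} (hh : Bd h) (hg : Bd g) (z : κ → ℝ) :
    cx (H347.g1 κ) K (Zxm m 1 E x) (avm m 1 E fun ω => h ω + g ω) z =
      cx (H347.g1 κ) K (Zxm m 1 E x) (avm m 1 E h) z +
        cx (H347.g1 κ) K (Zxm m 1 E x) (avm m 1 E g) z := by
  have hw := H347.wt hG 1 x
  have hA := av_gm hG 1
  have e : (avm m 1 E fun ω => h ω + g ω) = fun z => avm m 1 E h z + avm m 1 E g z := by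
    funext y; exact hA.add hh hg y
  rw [e, cx_add hw (hA.bm hh) (hA.bm hg)]

lemma cxav_const (x : ℝ) (K : Finset κ) (c : ℝ) (z : κ → ℝ) :
    cx (H347.g1 κ) K (Zxm m 1 E x) (avm m 1 E fun _ => c) z = c := by
  have hw := H347.wt hG 1 x
  have hA := av_gm hG 1
  have e : (avm m 1 E fun _ => c) = fun _ => c * 1 := by
    funext y; rw [hA.const, mul_one]
  rw [e, cx_const_mul hw, cx_one hw, mul_one]

/-- `|M|^2` is the mean of `a ms` -/
lemma m2_eq (x : ℝ) (K : Finset κ) (ha : Bd a) (hs : ∀ j, Bd (σ j)) (S : Finset s)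
    (z : κ → ℝ) :
    m2 S (Mg m E x K a σ) z = cx (H347.g1 κ) K (Zxm m 1 E x)
      (avm m 1 E fun ω => a ω * ∑ j ∈ S, Mg m E x K a σ j z * σ j ω) z := by
  have hw := H347.wt hG 1 x
  have hA := av_gm hG 1
  have e1 : (avm m 1 E fun ω => a ω * ∑ j ∈ S, Mg m E x K a σ j z * σ j ω) = fun y =>
      ∑ j ∈ S, Mg m E x K a σ j z * avm m 1 E (fun ω => a ω * σ j ω) y := by
    funext y
    have e2 : (fun ω => a ω * ∑ j ∈ S, Mg m E x K a σ j z * σ j ω) = fun ω =>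
        ∑ j ∈ S, Mg m E x K a σ j z * (a ω * σ j ω) := by
      funext ω
      rw [Finset.mul_sum]
      exact Finset.sum_congr rfl fun j _ => by ring
    rw [e2, hA.sum S fun j _ => (ha.mul (hs j)).cmul _]
    exact Finset.sum_congr rfl fun j _ => hA.smul _ _ _
  rw [e1, cx_sum hw S fun j _ => (BM.const _).mul (hA.bm (ha.mul (hs j)))]
  unfold m2
  refine Finset.sum_congr rfl fun j _ => ?_
  rw [cx_const_mul hw, sq]
  rfl

/-- `|M|^4 ≤ (1+η)^4 √Q4g` -/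
lemma m2_sq_le {η : ℝ} (hη : 0 ≤ η) (x : ℝ) (K : Finset κ) (ha : Bd a)
    (hs : ∀ j, Bd (σ j)) (haη : ∀ ω, |a ω - 1| ≤ η) (S : Finset s) (z : κ → ℝ) :
    m2 S (Mg m E x K a σ) z ^ 2 ≤ (1 + η) ^ 4 * √(Q4g m E x K σ S z) := by
  set M := Mg m E x K a σ with hM
  set q := m2 S M z with hq
  have hq0 : 0 ≤ q := m2_nonneg z
  set L : Ω → ℝ := fun ω => ∑ j ∈ S, M j z * σ j ω with hL
  have hLb : Bd L := Bd.sum S fun j _ => (hs j).cmul _
  have e1 : q = cx (H347.g1 κ) K (Zxm m 1 E x) (avm m 1 E fun ω => a ω * L ω) z :=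
    m2_eq hG x K ha hs S z
  have h1 : q ^ 2 ≤ (1 + η) ^ 2 *
      cx (H347.g1 κ) K (Zxm m 1 E x) (avm m 1 E fun ω => L ω ^ 2) z := by
    rw [e1, ← cxav_cmul hG]
    refine (cxav_sq_le hG x K (ha.mul hLb) z).trans ?_
    refine cxav_mono hG x K (ha.mul hLb).sq (hLb.sq.cmul _) (fun ω => ?_) z
    rw [mul_pow]
    refine mul_le_mul_of_nonneg_right ?_ (sq_nonneg _)
    have h2 := abs_le.1 (haη ω)
    have h3 : |a ω| ≤ 1 + η := by
      rw [abs_le]; constructor <;> linarith [h2.1, h2.2]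
    calc a ω ^ 2 = |a ω| ^ 2 := (sq_abs _).symm
      _ ≤ (1 + η) ^ 2 := pow_le_pow_left₀ (abs_nonneg _) h3 2
  have h2 : cx (H347.g1 κ) K (Zxm m 1 E x) (avm m 1 E fun ω => L ω ^ 2) z ^ 2 ≤
      q ^ 2 * √(Q4g m E x K σ S z) := by
    refine (cxav_sq_le hG x K hLb.sq z).trans ?_
    have h3 := four_cs hG x K hs S (fun j => M j z) z
    have e3 : (fun ω => (L ω ^ 2) ^ 2) = fun ω => (∑ j ∈ S, M j z * σ j ω) ^ 4 := by
      funext ω
      simp only [hL]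
      ring
    rw [e3]
    exact h3
  have h4 : (q ^ 2) ^ 2 ≤ (1 + η) ^ 4 * (q ^ 2 * √(Q4g m E x K σ S z)) := by
    calc (q ^ 2) ^ 2 ≤ ((1 + η) ^ 2 *
          cx (H347.g1 κ) K (Zxm m 1 E x) (avm m 1 E fun ω => L ω ^ 2) z) ^ 2 :=
          pow_le_pow_left₀ (sq_nonneg _) h1 2
      _ = (1 + η) ^ 4 *
          cx (H347.g1 κ) K (Zxm m 1 E x) (avm m 1 E fun ω => L ω ^ 2) z ^ 2 := by ring
      _ ≤ _ := mul_le_mul_of_nonneg_left h2 (by positivity)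
  rcases eq_or_lt_of_le hq0 with h5 | h5
  · rw [← h5]
    have : 0 ≤ (1 + η) ^ 4 * √(Q4g m E x K σ S z) :=
      mul_nonneg (by positivity) (Real.sqrt_nonneg _)
    simpa using this
  · have h6 : 0 < q ^ 2 := by positivity
    have h7 : q ^ 2 * q ^ 2 ≤ q ^ 2 * ((1 + η) ^ 4 * √(Q4g m E x K σ S z)) := by
      calc q ^ 2 * q ^ 2 = (q ^ 2) ^ 2 := by ring
        _ ≤ _ := h4
        _ = _ := by ring
    exact le_of_mul_le_mul_left h7 h6

/-- the variance of `ms` around `|M|^2`, pointwise in the frozen coordinates -/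
lemma vt_le {η : ℝ} (hη : 0 ≤ η) (hη1 : η ≤ 1 / 2) (x : ℝ) (K : Finset κ) (ha : Bd a)
    (hs : ∀ j, Bd (σ j)) (haη : ∀ ω, |a ω - 1| ≤ η) (S : Finset s) (z : κ → ℝ) :
    cx (H347.g1 κ) K (Zxm m 1 E x) (avm m 1 E fun ω =>
        ((∑ j ∈ S, Mg m E x K a σ j z * σ j ω) - m2 S (Mg m E x K a σ) z) ^ 2) z ≤
      3 / 2 * (m2 S (Mg m E x K a σ) z * √(RKg m E x K σ S z)) +
        4 * η ^ 2 * m2 S (Mg m E x K a σ) z ^ 2 := by
  have hw := H347.wt hG 1 x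
  have hA := av_gm hG 1
  refine le_trans (le_of_eq ?_) (quad_le hG hη hη1 x K ha hs haη S z)
  set M := Mg m E x K a σ with hM
  set q := m2 S M z with hq
  set L : Ω → ℝ := fun ω => ∑ j ∈ S, M j z * σ j ω with hL
  have hLb : Bd L := Bd.sum S fun j _ => (hs j).cmul _
  have e1 : (fun ω => (L ω - q) ^ 2) = fun ω => (L ω ^ 2 + (-(2 * q)) * L ω) + q ^ 2 := by
    funext ω; ring
  have e2 : (fun ω => ((∑ j ∈ S, M j z * σ j ω) - q) ^ 2) = fun ω => (L ω - q) ^ 2 := rfl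
  rw [e2, e1, cxav_add hG x K (hLb.sq.add (hLb.cmul _)) (Bd.const _),
    cxav_add hG x K hLb.sq (hLb.cmul _), cxav_cmul hG, cxav_const hG]
  have e3 : cx (H347.g1 κ) K (Zxm m 1 E x) (avm m 1 E fun ω => L ω ^ 2) z =
      ∑ j ∈ S, M j z * ∑ l ∈ S, M l z * Cg m E x K σ j l z :=
    quad_eq hG x K hs S (fun j => M j z) z
  have e4 : cx (H347.g1 κ) K (Zxm m 1 E x) (avm m 1 E L) z =
      ∑ j ∈ S, M j z * cx (H347.g1 κ) K (Zxm m 1 E x) (avm m 1 E (σ j)) z := by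
    have e5 : avm m 1 E L = fun y => ∑ j ∈ S, M j z * avm m 1 E (σ j) y := by
      funext y
      rw [hL, hA.sum S fun j _ => (hs j).cmul _]
      exact Finset.sum_congr rfl fun j _ => hA.smul _ _ _
    rw [e5, cx_sum hw S fun j _ => (BM.const _).mul (hA.bm (hs j))]
    exact Finset.sum_congr rfl fun j _ => by rw [cx_const_mul hw]
  rw [e3, e4]
  ring

/-! ### the normalised direction -/

omit hG in
/-- the normalised direction -/
lemma bd_X (hs : ∀ j, Bd (σ j)) (S : Finset s) (M : s → (κ → ℝ) → ℝ) (τ v : ℝ) (z : κ → ℝ) :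
    Bd fun ω => (τ * ms S M σ z ω + v) / √(Yf S M τ v z) := by
  have h1 : Bd (ms S M σ z) := Bd.sum S fun j _ => (hs j).cmul _
  have h2 := ((h1.cmul τ).add (Bd.const v)).cmul ((√(Yf S M τ v z))⁻¹)
  have e : (fun ω => (τ * ms S M σ z ω + v) / √(Yf S M τ v z)) =
      fun ω => (√(Yf S M τ v z))⁻¹ * (τ * ms S M σ z ω + v) := by
    funext ω
    rw [div_eq_inv_mul]
  rw [e]
  exact h2

/-- **the first moment input**, pointwise in the frozen coordinates -/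
theorem dl2_le {η τ v : ℝ} (hη : 0 ≤ η) (hη1 : η ≤ 1 / 2) (hτ : 0 ≤ τ) (hv : 0 ≤ v) (x : ℝ)
    (K : Finset κ) (ha : Bd a) (hs : ∀ j, Bd (σ j)) (haη : ∀ ω, |a ω - 1| ≤ η)
    (S : Finset s) (z : κ → ℝ) :
    cx (H347.g1 κ) K (Zxm m 1 E x) (avm m 1 E fun ω =>
        ((τ * ms S (Mg m E x K a σ) σ z ω + v) / √(Yf S (Mg m E x K a σ) τ v z) -
          √(Yf S (Mg m E x K a σ) τ v z)) ^ 2) z ≤
      3 / 2 * (τ * √(RKg m E x K σ S z)) + 4 * η ^ 2 * Yf S (Mg m E x K a σ) τ v z := by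
  set M := Mg m E x K a σ with hM
  set Y := Yf S M τ v z with hY
  set q := m2 S M z with hq
  have hq0 : 0 ≤ q := m2_nonneg z
  have hYq : Y = τ * q + v := rfl
  have hY0 : 0 ≤ Y := by rw [hYq]; positivity
  set R := √(RKg m E x K σ S z) with hR
  have hR0 : 0 ≤ R := Real.sqrt_nonneg _
  rcases eq_or_lt_of_le hY0 with h0 | h0
  · have e1 : (fun ω => ((τ * ms S M σ z ω + v) / √Y - √Y) ^ 2) = fun _ => (0 : ℝ) := by
      funext ω
      rw [← h0, Real.sqrt_zero, div_zero]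
      ring
    rw [e1, cxav_const hG]
    positivity
  · have hsq : √Y * √Y = Y := Real.mul_self_sqrt hY0
    have hs0 : 0 < √Y := Real.sqrt_pos.2 h0
    have e1 : (fun ω => ((τ * ms S M σ z ω + v) / √Y - √Y) ^ 2) = fun ω => (τ ^ 2 / Y) *
        ((∑ j ∈ S, M j z * σ j ω) - q) ^ 2 := by
      funext ω
      have e2 : (τ * ms S M σ z ω + v) / √Y - √Y =
          (τ * ((∑ j ∈ S, M j z * σ j ω) - q)) / √Y := by
        have e3 : ms S M σ z ω = ∑ j ∈ S, M j z * σ j ω := rfl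
        rw [e3, eq_div_iff hs0.ne', sub_mul, div_mul_cancel₀ _ hs0.ne', hsq, hYq]
        ring
      rw [e2, div_pow, sq (√Y), hsq]
      ring
    rw [e1, cxav_cmul hG]
    have h1 := vt_le hG hη hη1 x K ha hs haη S z
    rw [← hM, ← hq, ← hR] at h1
    have h2 : τ ^ 2 / Y * cx (H347.g1 κ) K (Zxm m 1 E x) (avm m 1 E fun ω =>
        ((∑ j ∈ S, M j z * σ j ω) - q) ^ 2) z ≤
        τ ^ 2 / Y * (3 / 2 * (q * R) + 4 * η ^ 2 * q ^ 2) :=
      mul_le_mul_of_nonneg_left h1 (by positivity)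
    refine h2.trans ?_
    rw [div_mul_eq_mul_div, div_le_iff₀ h0]
    have h3 : τ * q ≤ Y := by rw [hYq]; linarith
    have h4 : 0 ≤ τ * q := mul_nonneg hτ hq0
    have h5 : (τ * q) ^ 2 ≤ Y ^ 2 := pow_le_pow_left₀ h4 h3 2
    have h6 : (τ * R) * (τ * q) ≤ (τ * R) * Y :=
      mul_le_mul_of_nonneg_left h3 (mul_nonneg hτ hR0)
    have h7 : η ^ 2 * (τ * q) ^ 2 ≤ η ^ 2 * Y ^ 2 :=
      mul_le_mul_of_nonneg_left h5 (sq_nonneg _)
    calc τ ^ 2 * (3 / 2 * (q * R) + 4 * η ^ 2 * q ^ 2)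
        = 3 / 2 * ((τ * R) * (τ * q)) + 4 * (η ^ 2 * (τ * q) ^ 2) := by ring
      _ ≤ 3 / 2 * ((τ * R) * Y) + 4 * (η ^ 2 * Y ^ 2) := by linarith
      _ = _ := by ring

/-- **the second moment input**, pointwise in the frozen coordinates -/
theorem x4_le {τ v : ℝ} (hτ : 0 ≤ τ) (hv : 0 ≤ v) (x : ℝ) (K : Finset κ)
    (hs : ∀ j, Bd (σ j)) (S : Finset s) (z : κ → ℝ) :
    cx (H347.g1 κ) K (Zxm m 1 E x) (avm m 1 E fun ω =>
        ((τ * ms S (Mg m E x K a σ) σ z ω + v) / √(Yf S (Mg m E x K a σ) τ v z)) ^ 4) z ≤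
      8 * (τ ^ 2 * √(Q4g m E x K σ S z) + v ^ 2) := by
  set M := Mg m E x K a σ with hM
  set Y := Yf S M τ v z with hY
  set q := m2 S M z with hq
  have hq0 : 0 ≤ q := m2_nonneg z
  have hYq : Y = τ * q + v := rfl
  have hY0 : 0 ≤ Y := by rw [hYq]; positivity
  set R := √(Q4g m E x K σ S z) with hR
  have hR0 : 0 ≤ R := Real.sqrt_nonneg _
  rcases eq_or_lt_of_le hY0 with h0 | h0
  · have e1 : (fun ω => ((τ * ms S M σ z ω + v) / √Y) ^ 4) = fun _ => (0 : ℝ) := by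
      funext ω
      rw [← h0, Real.sqrt_zero, div_zero]
      ring
    rw [e1, cxav_const hG]
    positivity
  · have hsq : √Y ^ 4 = Y ^ 2 := by
      have : √Y ^ 2 = Y := Real.sq_sqrt hY0
      calc √Y ^ 4 = (√Y ^ 2) ^ 2 := by ring
        _ = _ := by rw [this]
    have hLb : Bd (ms S M σ z) := Bd.sum S fun j _ => (hs j).cmul _
    have hL4 : Bd fun ω => ms S M σ z ω ^ 4 := by
      have e : (fun ω => ms S M σ z ω ^ 4) = fun ω => (ms S M σ z ω ^ 2) ^ 2 := by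
        funext ω; ring
      rw [e]; exact hLb.sq.sq
    have hX := bd_X (κ := κ) hs S M τ v z
    have h1 : cx (H347.g1 κ) K (Zxm m 1 E x) (avm m 1 E fun ω =>
        ((τ * ms S M σ z ω + v) / √Y) ^ 4) z ≤
        cx (H347.g1 κ) K (Zxm m 1 E x) (avm m 1 E fun ω =>
          (8 * τ ^ 4 / Y ^ 2) * ms S M σ z ω ^ 4 + 8 * v ^ 4 / Y ^ 2) z := by
      refine cxav_mono hG x K ?_ ((hL4.cmul _).add (Bd.const _)) (fun ω => ?_) z
      · have e : (fun ω => ((τ * ms S M σ z ω + v) / √Y) ^ 4) =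
            fun ω => (((τ * ms S M σ z ω + v) / √Y) ^ 2) ^ 2 := by funext ω; ring
        rw [e]; exact hX.sq.sq
      · rw [div_pow, hsq]
        have h2 : (τ * ms S M σ z ω + v) ^ 4 ≤ 8 * τ ^ 4 * ms S M σ z ω ^ 4 + 8 * v ^ 4 := by
          have h3 : (τ * ms S M σ z ω + v) ^ 2 ≤ 2 * (τ * ms S M σ z ω) ^ 2 + 2 * v ^ 2 := by
            nlinarith [sq_nonneg (τ * ms S M σ z ω - v)]
          have h4 : ((τ * ms S M σ z ω + v) ^ 2) ^ 2 ≤
              (2 * (τ * ms S M σ z ω) ^ 2 + 2 * v ^ 2) ^ 2 :=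
            pow_le_pow_left₀ (sq_nonneg _) h3 2
          nlinarith [sq_nonneg ((τ * ms S M σ z ω) ^ 2 - v ^ 2)]
        have h5 : 0 < Y ^ 2 := by positivity
        calc (τ * ms S M σ z ω + v) ^ 4 / Y ^ 2
            ≤ (8 * τ ^ 4 * ms S M σ z ω ^ 4 + 8 * v ^ 4) / Y ^ 2 :=
              div_le_div_of_nonneg_right h2 h5.le
          _ = _ := by ring
    refine h1.trans ?_
    rw [cxav_add hG x K (hL4.cmul _) (Bd.const _), cxav_cmul hG, cxav_const hG]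
    have h6 : cx (H347.g1 κ) K (Zxm m 1 E x) (avm m 1 E fun ω => ms S M σ z ω ^ 4) z ≤
        q ^ 2 * R := four_cs hG x K hs S (fun j => M j z) z
    have h5 : 0 < Y ^ 2 := by positivity
    have h7 : 8 * τ ^ 4 / Y ^ 2 *
        cx (H347.g1 κ) K (Zxm m 1 E x) (avm m 1 E fun ω => ms S M σ z ω ^ 4) z ≤
        8 * τ ^ 4 / Y ^ 2 * (q ^ 2 * R) := mul_le_mul_of_nonneg_left h6 (by positivity)
    have h3 : τ * q ≤ Y := by rw [hYq]; linarith
    have h4 : 0 ≤ τ * q := mul_nonneg hτ hq0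
    have h8 : (τ * q) ^ 2 ≤ Y ^ 2 := pow_le_pow_left₀ h4 h3 2
    have h9 : v ^ 2 ≤ Y ^ 2 := pow_le_pow_left₀ hv (by rw [hYq]; linarith) 2
    have h10 : 8 * τ ^ 4 / Y ^ 2 * (q ^ 2 * R) ≤ 8 * (τ ^ 2 * R) := by
      rw [div_mul_eq_mul_div, div_le_iff₀ h5]
      calc 8 * τ ^ 4 * (q ^ 2 * R) = 8 * (τ ^ 2 * R) * (τ * q) ^ 2 := by ring
        _ ≤ 8 * (τ ^ 2 * R) * Y ^ 2 := mul_le_mul_of_nonneg_left h8 (by positivity)
    have h11 : 8 * v ^ 4 / Y ^ 2 ≤ 8 * v ^ 2 := by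
      rw [div_le_iff₀ h5]
      calc 8 * v ^ 4 = 8 * v ^ 2 * v ^ 2 := by ring
        _ ≤ 8 * v ^ 2 * Y ^ 2 := mul_le_mul_of_nonneg_left h9 (by positivity)
    linarith

/-- the size of `Y`, pointwise in the frozen coordinates -/
theorem y2_le {η τ v : ℝ} (hη : 0 ≤ η) (hη1 : η ≤ 1 / 2) (_hτ : 0 ≤ τ) (_hv : 0 ≤ v) (x : ℝ)
    (K : Finset κ) (ha : Bd a) (hs : ∀ j, Bd (σ j)) (haη : ∀ ω, |a ω - 1| ≤ η)
    (S : Finset s) (z : κ → ℝ) :
    Yf S (Mg m E x K a σ) τ v z ^ 2 ≤ 11 * (τ ^ 2 * √(Q4g m E x K σ S z) + v ^ 2) := by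
  set M := Mg m E x K a σ with hM
  set q := m2 S M z with hq
  set R := √(Q4g m E x K σ S z) with hR
  have hR0 : 0 ≤ R := Real.sqrt_nonneg _
  have h1 : q ^ 2 ≤ (1 + η) ^ 4 * R := m2_sq_le hG hη x K ha hs haη S z
  have h2 : (1 + η) ^ 4 ≤ 11 / 2 := by
    have h3 : (1 + η) ^ 2 ≤ 9 / 4 := by nlinarith
    calc (1 + η) ^ 4 = ((1 + η) ^ 2) ^ 2 := by ring
      _ ≤ (9 / 4) ^ 2 := pow_le_pow_left₀ (sq_nonneg _) h3 2
      _ ≤ 11 / 2 := by norm_num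
  have h4 : q ^ 2 ≤ 11 / 2 * R := h1.trans (mul_le_mul_of_nonneg_right h2 hR0)
  have h5 : τ ^ 2 * q ^ 2 ≤ τ ^ 2 * (11 / 2 * R) := mul_le_mul_of_nonneg_left h4 (sq_nonneg _)
  have e : Yf S M τ v z = τ * q + v := rfl
  rw [e]
  nlinarith [sq_nonneg (τ * q - v), sq_nonneg v]


/-- **the product of the two inputs**, pointwise in the frozen coordinates (the constants are
those of `H586.avR_diff`) -/
theorem prod_le {η τ v : ℝ} (hη : 0 ≤ η) (hη1 : η ≤ 1 / 2) (hτ : 0 ≤ τ) (hv : 0 ≤ v) (x : ℝ)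
    (K : Finset κ) (ha : Bd a) (hs : ∀ j, Bd (σ j)) (haη : ∀ ω, |a ω - 1| ≤ η)
    (S : Finset s) (z : κ → ℝ) :
    cx (H347.g1 κ) K (Zxm m 1 E x) (avm m 1 E fun ω =>
        ((τ * ms S (Mg m E x K a σ) σ z ω + v) / √(Yf S (Mg m E x K a σ) τ v z) -
          √(Yf S (Mg m E x K a σ) τ v z)) ^ 2) z *
      (19208 * cx (H347.g1 κ) K (Zxm m 1 E x) (avm m 1 E fun ω =>
        ((τ * ms S (Mg m E x K a σ) σ z ω + v) / √(Yf S (Mg m E x K a σ) τ v z)) ^ 4) z +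
        162 * Yf S (Mg m E x K a σ) τ v z ^ 2) ≤
      155446 * ((3 / 2 * (τ * √(RKg m E x K σ S z)) +
        4 * η ^ 2 * Yf S (Mg m E x K a σ) τ v z) * (τ ^ 2 * √(Q4g m E x K σ S z) + v ^ 2)) := by
  have h1 := dl2_le hG hη hη1 hτ hv x K ha hs haη S z
  have h2 := x4_le (a := a) hG hτ hv x K hs S z
  have h3 := y2_le hG hη hη1 hτ hv x K ha hs haη S z
  have hX := bd_X (κ := κ) hs S (Mg m E x K a σ) τ v z
  have h4 : 0 ≤ cx (H347.g1 κ) K (Zxm m 1 E x) (avm m 1 E fun ω =>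
        ((τ * ms S (Mg m E x K a σ) σ z ω + v) / √(Yf S (Mg m E x K a σ) τ v z)) ^ 4) z := by
    have h5 := cxav_mono hG x K (Bd.const 0) (by
      have e : (fun ω => ((τ * ms S (Mg m E x K a σ) σ z ω + v) /
          √(Yf S (Mg m E x K a σ) τ v z)) ^ 4) = fun ω =>
          (((τ * ms S (Mg m E x K a σ) σ z ω + v) /
          √(Yf S (Mg m E x K a σ) τ v z)) ^ 2) ^ 2 := by funext ω; ring
      rw [e]; exact hX.sq.sq) (fun ω => by positivity) z (h := fun _ => 0)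
      (g := fun ω => ((τ * ms S (Mg m E x K a σ) σ z ω + v) /
          √(Yf S (Mg m E x K a σ) τ v z)) ^ 4)
    rwa [cxav_const hG] at h5
  have hW : 0 ≤ τ ^ 2 * √(Q4g m E x K σ S z) + v ^ 2 := by positivity
  have hY0 : 0 ≤ Yf S (Mg m E x K a σ) τ v z := Y_nonneg hτ hv z
  have h6 : 0 ≤ 3 / 2 * (τ * √(RKg m E x K σ S z)) +
      4 * η ^ 2 * Yf S (Mg m E x K a σ) τ v z := by positivity
  calc _ ≤ (3 / 2 * (τ * √(RKg m E x K σ S z)) + 4 * η ^ 2 * Yf S (Mg m E x K a σ) τ v z) *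
        (19208 * (8 * (τ ^ 2 * √(Q4g m E x K σ S z) + v ^ 2)) +
          162 * (11 * (τ ^ 2 * √(Q4g m E x K σ S z) + v ^ 2))) := by
        refine mul_le_mul h1 ?_ (by positivity) h6
        linarith
    _ = _ := by ring

/-- **the mean of the right side of `prod_le`** -/
theorem ex_prod_le {η τ v : ℝ} (hτ : 0 ≤ τ) (x : ℝ)
    (K : Finset κ) (ha : Bd a) (hs : ∀ j, Bd (σ j)) (S : Finset s)
    {φ : (κ → ℝ) → ℝ} (hφb : BM φ) (hφ0 : ∀ z, 0 ≤ φ z) :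
    ex (H347.g1 κ) (Zxm m 1 E x) (fun z => φ z * ((3 / 2 * (τ * √(RKg m E x K σ S z)) +
        4 * η ^ 2 * Yf S (Mg m E x K a σ) τ v z) *
          (τ ^ 2 * √(Q4g m E x K σ S z) + v ^ 2))) ≤
      (3 / 2 * (τ * √(ex (H347.g1 κ) (Zxm m 1 E x) (fun z => φ z * RKg m E x K σ S z))) +
        4 * η ^ 2 * √(ex (H347.g1 κ) (Zxm m 1 E x)
          (fun z => φ z * Yf S (Mg m E x K a σ) τ v z ^ 2))) *
      √(2 * τ ^ 4 * ex (H347.g1 κ) (Zxm m 1 E x) (fun z => φ z * Q4g m E x K σ S z) +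
        2 * v ^ 4 * ex (H347.g1 κ) (Zxm m 1 E x) φ) := by
  have hw := H347.wt hG 1 x
  have hA := av_gm hG 1
  set w := Zxm m 1 E x with hwd
  set M := Mg m E x K a σ with hMdef
  have hM : ∀ j, BM (M j) := bm_Mg hG x K ha hs
  have bY : BM (Yf S M τ v) := bm_Y (S := S) hA hs hM τ v
  have bR := bm_RKg hG x K hs S
  have bRs : BM fun z => √(RKg m E x K σ S z) := bm_sqrt bR
  have bQ := bm_Q4g hG x K hs S
  have bQs : BM fun z => √(Q4g m E x K σ S z) := bm_sqrt bQ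
  have bW : BM fun z => τ ^ 2 * √(Q4g m E x K σ S z) + v ^ 2 := (bcm _ bQs).add (BM.const _)
  have e1 : ex (H347.g1 κ) w (fun z => φ z * ((3 / 2 * (τ * √(RKg m E x K σ S z)) +
        4 * η ^ 2 * Yf S M τ v z) * (τ ^ 2 * √(Q4g m E x K σ S z) + v ^ 2))) =
      3 / 2 * τ * ex (H347.g1 κ) w (fun z => φ z * (√(RKg m E x K σ S z) *
          (τ ^ 2 * √(Q4g m E x K σ S z) + v ^ 2))) +
        4 * η ^ 2 * ex (H347.g1 κ) w (fun z => φ z * (Yf S M τ v z *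
          (τ ^ 2 * √(Q4g m E x K σ S z) + v ^ 2))) := by
    rw [← ex_cmul, ← ex_cmul, ← ex_add hw (bcm _ (hφb.mul (bRs.mul bW)))
      (bcm _ (hφb.mul (bY.mul bW)))]
    congr 1
    funext z
    ring
  have h1 := (le_abs_self _).trans (abs_ex_wmul_le hw hφb hφ0 bRs bW)
  have h2 := (le_abs_self _).trans (abs_ex_wmul_le hw hφb hφ0 bY bW)
  have e2 : (fun z => φ z * √(RKg m E x K σ S z) ^ 2) = fun z => φ z * RKg m E x K σ S z := by
    funext z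
    rw [Real.sq_sqrt (RKg_nonneg z S)]
  rw [e2] at h1
  have h3 : ex (H347.g1 κ) w (fun z => φ z * (τ ^ 2 * √(Q4g m E x K σ S z) + v ^ 2) ^ 2) ≤
      2 * τ ^ 4 * ex (H347.g1 κ) w (fun z => φ z * Q4g m E x K σ S z) +
        2 * v ^ 4 * ex (H347.g1 κ) w φ := by
    rw [← ex_cmul, ← ex_cmul, ← ex_add hw (bcm _ (hφb.mul bQ)) (bcm _ hφb)]
    refine ex_mono hw (hφb.mul (bsq bW)) ((bcm _ (hφb.mul bQ)).add (bcm _ hφb)) fun z => ?_
    have h4 : √(Q4g m E x K σ S z) ^ 2 = Q4g m E x K σ S z := Real.sq_sqrt (Q4g_nonneg x K S z)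
    have h5 : (τ ^ 2 * √(Q4g m E x K σ S z) + v ^ 2) ^ 2 ≤
        2 * τ ^ 4 * Q4g m E x K σ S z + 2 * v ^ 4 := by
      have h7 : (τ ^ 2 * √(Q4g m E x K σ S z)) ^ 2 = τ ^ 4 * Q4g m E x K σ S z := by
        rw [mul_pow, h4]; ring
      have h8 : (v ^ 2) ^ 2 = v ^ 4 := by ring
      have h9 := sq_nonneg (τ ^ 2 * √(Q4g m E x K σ S z) - v ^ 2)
      nlinarith
    calc φ z * (τ ^ 2 * √(Q4g m E x K σ S z) + v ^ 2) ^ 2
        ≤ φ z * (2 * τ ^ 4 * Q4g m E x K σ S z + 2 * v ^ 4) :=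
          mul_le_mul_of_nonneg_left h5 (hφ0 z)
      _ = _ := by ring
  have h6 := Real.sqrt_le_sqrt h3
  set B := √(2 * τ ^ 4 * ex (H347.g1 κ) w (fun z => φ z * Q4g m E x K σ S z) +
        2 * v ^ 4 * ex (H347.g1 κ) w φ) with hB
  rw [e1]
  have g1 := h1.trans (mul_le_mul_of_nonneg_left h6 (Real.sqrt_nonneg _))
  have g2 := h2.trans (mul_le_mul_of_nonneg_left h6 (Real.sqrt_nonneg _))
  have g3 := mul_le_mul_of_nonneg_left g1 (show 0 ≤ 3 / 2 * τ by positivity)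
  have g4 := mul_le_mul_of_nonneg_left g2 (show 0 ≤ 4 * η ^ 2 by positivity)
  refine (add_le_add g3 g4).trans (le_of_eq ?_)
  ring

end gm

end Vale.Agent.P146.H463
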