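import Vale.Agent.P146.H122.UpB
import Vale.Agent.P146.H412.UpU
import Vale.Agent.P146.H442.N7U

/-!
# P146: `KampUp` for the second choice of the modulated field, from three inputs

* `RowUp2F`, `N7F`: the second regime and the near end, eventually, for `s² = n^(-80q) V`;
* `kampUp_two`;
* `NeFinE`, `n7F_of`: the near end from the literal of `H442.U.n7_fin`;
* `kampUp_B`: the three inputs `RowUp1E`, `RowUp2F`, `NeFinE`.
-/

open MeasureTheory ProbabilityTheory Filter Set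

namespace Vale.Agent.P146.H463

open Vale.Agent.P146.H418 Vale.Agent.P146.H317 Vale.Agent.P146.H529 Vale.Agent.P146.H178
  Vale.Agent.P146.H122

/-- **second regime**, eventually, for `s² = n^(-80q) V` -/
def RowUp2F (a0 b₁ q A b : ℝ) : Prop := ∀ᶠ n : ℕ in atTop, ∀ y V al s lam η a : ℝ,
  KW a0 b₁ q A b n y V al s lam η → WA q A n y al a → s ^ 2 = (n : ℝ) ^ (-(80 * q)) * V →
    RowUp2 q b n y V al s lam η

/-- **near end**, eventually, for `s² = n^(-80q) V`, the modulated field revealed -/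
def N7F (a0 b₁ q A b : ℝ) : Prop := ∀ᶠ n : ℕ in atTop, ∀ y V al s lam η a : ℝ,
  KW a0 b₁ q A b n y V al s lam η → WA q A n y al a → s ^ 2 = (n : ℝ) ^ (-(80 * q)) * V →
    H412.U.N7g q b n y V al s lam η

lemma sB_sq (q : ℝ) (n : ℕ) (y : ℝ) {V : ℝ} (hV : 0 ≤ V) :
    sB q n y V ^ 2 = (n : ℝ) ^ (-(80 * q)) * V :=
  Real.sq_sqrt (by positivity)

/-- **`KampUp` for the second choice**: `s² = n^(-80q) V`, `a0 ≤ 1/6`. -/
theorem kampUp_two {β b₁ e q a0 : ℝ} (hβ : 0 < β) (hq : 0 < q)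
    (ha0 : a0 ≤ 1 / 6) (hb₁ : 100 * q < b₁) (he : 1 / 6 - a0 + 1000 * q ≤ e)
    (h1 : ∀ A : ℝ, 1 ≤ A → RowUp1E a0 b₁ q A β) (h2 : ∀ A : ℝ, 1 ≤ A → RowUp2F a0 b₁ q A β)
    (h7 : ∀ A : ℝ, 1 ≤ A → N7F a0 b₁ q A β) :
    KampUp β b₁ e (q / 2) (10 * q) (11 * q) (24 * q) q (Kam β (sB q) (lA q) (hA q)) := by
  intro A hA
  filter_upwards [kw_two (b := β) (b₁ := b₁) hq ha0 hA,
    H412.U.kup_kwU (b₁ := b₁) hβ hq ha0 hb₁.le hA, h1 A hA, h2 A hA, h7 A hA,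
    eventually_ge_atTop 1] with n k1 k2 k3 k4 k5 hn
  intro y hy hyu V hVl hVu a hal hau a0' hsg haa hap
  have hn1 : (1 : ℝ) ≤ n := by exact_mod_cast hn
  have hn0 : (0 : ℝ) < n := by linarith
  have hy2 : (n : ℝ) ^ (-a0 + 1000 * q) ≤ A * y :=
    (Real.rpow_le_rpow_of_exponent_le hn1 (by linarith)).trans hy
  have hkw := k1 y V a0' hy2 hyu hVl hVu hsg hap
  have hwa : WA q A n y a0' a := ⟨hal, hau, haa⟩
  have hs2 : s2F q n V ^ 2 = (n : ℝ) ^ (-(80 * q)) * V := sB_sq q n y hkw.V0.le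
  have hy0 := hkw.y0
  have ha : 0 < a := by
    have h : 0 < (n : ℝ) ^ (-(11 * q)) * y ^ 2 := by positivity
    exact pos_of_mul_pos_right (h.trans_le hal) (by linarith)
  have h := k2 y V a0' _ _ _ a hkw ha hau (k3 _ _ _ _ _ _ _ hkw hwa)
    (k4 _ _ _ _ _ _ _ hkw hwa hs2) (k5 _ _ _ _ _ _ _ hkw hwa hs2)
  rw [Kam_lawOf]
  have e1 : -(24 * q + 11 * q + q) = -(36 * q) := by ring
  rw [e1]
  exact h

/-- the near end with hidden sites and hidden fields, for `s² ≥ n^(-80q) V / A`: the input of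
`H442.U.n7_fin` -/
def NeFinE (a0 b₁ q A b : ℝ) : Prop := ∀ᶠ n : ℕ in atTop, ∀ y V al s lam η : ℝ,
  KW a0 b₁ q A b n y V al s lam η → (n : ℝ) ^ (-(80 * q)) * V ≤ A * s ^ 2 →
    ∀ T, (n : ℝ) ^ (-(37 * q)) * y ^ 4 ≤ T → T ≤ (n : ℝ) ^ (-(70 * q)) * y ^ 2 →
      T * (lawOf n b y V al s lam η).rrg (Sn n (2 * ⌈(n : ℝ) ^ (-(40 * q)) * (n * T)⌉₊))
        (1 - T / 2) (1 - ((n : ℝ) ^ (-(37 * q)) * y ^ 4 +
          (n : ℝ) ^ (-(38 * q)) * y ^ 2 * √T) / (V - s ^ 2))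
        (max 0 (1 - (n : ℝ) ^ (-(38 * q)) * y ^ 2 * √T / s ^ 2)) ≤
          1 / 2 * ((n : ℝ) ^ (-(37 * q)) * y ^ 4)

theorem n7F_of {a0 b₁ q A b : ℝ} (hq : 0 < q) (hb : 0 < b) (hA : 1 ≤ A) (ha0 : a0 ≤ 1 / 6)
    (hb₁ : 100 * q < b₁) (h : NeFinE a0 b₁ q A b) : N7F a0 b₁ q A b := by
  filter_upwards [H442.U.n7_fin hq hb hA ha0 hb₁ h] with n k
  intro y V al s lam η a hK _ hs T hT
  refine k y V al s lam η hK ?_ T hT.1 hT.2
  rw [hs]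
  have hV := hK.V0
  have : 0 ≤ (n : ℝ) ^ (-(80 * q)) * V := by positivity
  nlinarith

/-- **`KampUp` for the second choice**, from the first regime, the second regime and the near end
with hidden sites. -/
theorem kampUp_B {β b₁ e q a0 : ℝ} (hβ : 0 < β) (hq : 0 < q)
    (ha0 : a0 ≤ 1 / 6) (hb₁ : 100 * q < b₁) (he : 1 / 6 - a0 + 1000 * q ≤ e)
    (h1 : ∀ A : ℝ, 1 ≤ A → RowUp1E a0 b₁ q A β) (h2 : ∀ A : ℝ, 1 ≤ A → RowUp2F a0 b₁ q A β)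
    (h7 : ∀ A : ℝ, 1 ≤ A → NeFinE a0 b₁ q A β) :
    KampUp β b₁ e (q / 2) (10 * q) (11 * q) (24 * q) q (Kam β (sB q) (lA q) (hA q)) :=
  kampUp_two hβ hq ha0 hb₁ he h1 h2 fun A hA => n7F_of hq hβ hA ha0 hb₁ (h7 A hA)

end Vale.Agent.P146.H463
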