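import Vale.Agent.P146.H463.SizeU
import Vale.Agent.P146.H412.MomU1
import Vale.Agent.P146.H698.SkelU
import Vale.Agent.P146.H615.NumU
import Vale.Agent.P146.H646.I2fU

/-!
A-priori numbers in the ensemble `U` on the window `KW`, any level system.

* `alL`, `muL`, `enL` : amplitudes, base measure and energies of the law `L`, `gnL` its gain;
* `gnL_ev` : the gain is at most `n ^ (1 + q) y ^ 6`;
* `apK_num`, `q4_sys`, `stk_eq` : n-level;
* `ApK` : the numbers of one block, `apU_ev` : all blocks `Kset S1 BL FL` with the revealed bond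
  share `1 - T`, the four point number, the stuck number.
-/

open MeasureTheory ProbabilityTheory Filter Topology Set

namespace Vale.Agent.P146.H463.Ap

open Vale.Agent.P157.Lv hiding Dep
open Vale.Agent.P146.H646 Vale.Agent.P146.H196 Vale.Agent.P146.H246
  Vale.Agent.P146.H475 Vale.Agent.P146.H325 Vale.Agent.P146.H281.U
open Vale.Agent.P146.H347 (Co Kset Xs bd fd gd g1)
open Vale.Agent.P146.H412 (gs prs Bst disj_Bst tB tB_nonneg gain gain_lm Cp)
open Vale.Agent.P146.H412.G (eG cG CCg Qg sR Bds tail_ccg mom_ccg tail_Qg mom_Qg CCg_nonneg)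
open Vale.Agent.P146.H698 (nuL_fin nuL_ne amU_L)
open Vale.Agent.P146.H698.Br (αb VFb ub φu emb_unit mp_unit tr_lzm bridge_unit gr)
open Vale.Agent.P146.H418 Vale.Agent.P146.H320 Vale.Agent.P146.H615 Vale.Agent.P146.H470
  Vale.Agent.P146.H529

set_option linter.unusedSectionVars false

/-- the amplitudes of the two classes -/
noncomputable abbrev alL (L : Law) (k : Bool) (θ : Unit → ℝ) : ℝ := αb L.η k (θ ())

/-- the base measure -/
noncomputable abbrev muL (L : Law) : Measure ((Unit → ℝ) × Xs L.n) := muU L.nuL L.n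

/-- the energies of a level system -/
noncomputable abbrev enL (L : Law) {LB LF : Type} [Fintype LB] [DecidableEq LB] [Fintype LF]
    [DecidableEq LF] (cB : LB → ℝ) (cF : LF → ℝ) (κ : LF → Bool) :
    Co L.n LB LF → (Unit → ℝ) × Xs L.n → ℝ := SU L.b cB cF fun l => alL L (κ l)

/-- the gain of the doubled exponent -/
noncomputable def gnL (L : Law) : ℝ :=
  U.gnU L.nuL L.n L.b (VFb L.vp L.s) (alL L) L.x

/-- the gain in the letters of the amplitude on the line -/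
lemma gnL_eq {L : Law} (hl : 0 < L.lam) (hη : 0 ≤ L.η) (hx : 0 < L.x) :
    gnL L = gain (muA (Xs L.n) L.lam L.η L.c) 1 L.x
      (SU L.b (fun _ : Unit => 1) (fun k => √(VFb L.vp L.s k)) fun k : Bool => αb L.η (id k) :
        Co L.n Unit Bool → ℝ × Xs L.n → ℝ) := by
  unfold gnL U.gnU
  have e : (fun (e : Co L.n Unit Bool) (w : (Unit → ℝ) × Xs L.n) =>
      (SU L.b (fun _ : Unit => 1) (fun k => √(VFb L.vp L.s k)) fun k : Bool => αb L.η (id k) :
        Co L.n Unit Bool → ℝ × Xs L.n → ℝ) e (φu L.n w)) =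
      H698.SUb L.n L.b (VFb L.vp L.s) (alL L) := by
    funext e w
    rcases e with (⟨p, l⟩ | ⟨i, k⟩) | j <;> rfl
  rw [gain_lm _ _ _ hx, gain_lm _ _ _ hx, ← e]
  have h := tr_lzm (mp_unit (n := L.n) hl hη L.c) (emb_unit L.n) 1
    (SU L.b (fun _ : Unit => 1) (fun k => √(VFb L.vp L.s k)) fun k : Bool => αb L.η (id k) :
        Co L.n Unit Bool → ℝ × Xs L.n → ℝ)
  rw [h]
  rfl

lemma VFb_nn {vp s : ℝ} (hv : 0 ≤ vp) (k : Bool) : 0 ≤ VFb vp s k := by
  cases k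
  · exact hv
  · exact sq_nonneg s

lemma VFb_pos {vp s : ℝ} (hv : 0 < vp) (hs : 0 < s) (k : Bool) : 0 < VFb vp s k := by
  cases k
  · exact hv
  · exact sq_pos_of_pos hs

lemma sum_root {vp s : ℝ} (hv : 0 ≤ vp) (k : Bool) :
    ∑ l : Bool with id l = k, √(VFb vp s l) ^ 2 = VFb vp s k := by
  have e : (Finset.univ.filter fun l : Bool => id l = k) = {k} := by
    ext l
    simp
  rw [e, Finset.sum_singleton, Real.sq_sqrt (VFb_nn hv k)]

/-- **The gain, eventually.** -/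
theorem gnL_ev {b e s0 s1 : ℝ} (hb : 0 < b) (he : 0 < e) (hs0 : 0 ≤ s0) (hs : s0 < s1) :
    ∀ᶠ n : ℕ in atTop, ∀ (vp s lam η y V a : ℝ), H516.Par1 b s0 e n vp s lam η y V a → 0 < vp →
      gnL ⟨n, b, vp, s, lam, η, cc n b s a, y⟩ ≤ (n : ℝ) ^ (1 + s1) * y ^ 6 := by
  filter_upwards [H412.U.gnU_ev1 hb he hs0 hs, eventually_ge_atTop 1] with n g1 g2
  intro vp s lam η y V a h hv
  have hn0 : (0 : ℝ) < n := by exact_mod_cast g2
  have hy0 : 0 < y := lt_of_lt_of_le (Real.rpow_pos_of_pos hn0 _) h.y0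
  have hl : 0 < lam := by linarith [h.lam1]
  rw [gnL_eq (L := ⟨n, b, vp, s, lam, η, cc n b s a, y⟩) hl h.η0.le hy0]
  exact g1 vp s lam η y V a h hv Unit Bool (fun _ => 1) (fun k => √(VFb vp s k)) id (by simp)
    fun k => sum_root h.vp0 k

/-- the numbers of one block -/
structure ApK (q D : ℝ) (L : Law) (T : ℝ) {LB LF : Type} [Fintype LB] [DecidableEq LB]
    [Fintype LF] [DecidableEq LF] (κ : LF → Bool) (cB : LB → ℝ) (cF : LF → ℝ)
    (K : Finset (Co L.n LB LF)) (S : Finset (Fin L.n)) : Prop where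
  m1 : eG (muL L) (enL L cB cF κ) L.x (CCg (muL L) (enL L cB cF κ) L.x Prod.snd K S) ≤
    Uq q L.n L.x T ^ 2
  m2 : eG (muL L) (enL L cB cF κ) L.x (fun z => CCg (muL L) (enL L cB cF κ) L.x Prod.snd K S z ^ 2)
    ≤ Uq q L.n L.x T ^ 4
  tC : eG (muL L) (enL L cB cF κ) L.x (H317.ind (Uq q L.n L.x T ^ 2)
    (CCg (muL L) (enL L cB cF κ) L.x Prod.snd K S)) ≤ (L.n : ℝ) ^ (-D)
  tQ : ∀ h : (Unit → ℝ) × Xs L.n → ℝ, H615.Bd h → (∀ w, |h w| ≤ 2) →
    eG (muL L) (enL L cB cF κ) L.x (H317.ind (Uq q L.n L.x T)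
      (Qg (muL L) (enL L cB cF κ) L.x Prod.snd h K S)) ≤ (L.n : ℝ) ^ (-D)

section level

variable {L : Law} {LB LF : Type} [Fintype LB] [DecidableEq LB] [Fintype LF] [DecidableEq LF]
  {κ : LF → Bool} {cB : LB → ℝ} {cF : LF → ℝ} {BL : Finset LB} {FL : Finset LF}

lemma gmL (hA : Adm L) (cB : LB → ℝ) (cF : LF → ℝ) (κ : LF → Bool) :
    GM (muL L) (enL L cB cF κ) (MU L.n L.b cB cF L.η) :=
  gmU (n := L.n) L.b cB cF L.η (nuL_fin L hA.lam0 hA.η0) (nuL_ne L hA.lam0 hA.η0)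
    (amU_L L hA.η0 κ)

/-- the gain of every level system with the right totals -/
lemma gain_sys (hA : Adm L) (hs : 0 < L.s) (hx : 0 < L.x) (hB : ∑ l, cB l ^ 2 = 1)
    (hF : ∀ k, ∑ l with κ l = k, cF l ^ 2 = VFb L.vp L.s k) :
    gain (muL L) 1 L.x (enL L cB cF κ) = gnL L := by
  have h : H698.ShU κ cB cF (∅ : Finset LB) (∅ : Finset LF) (VFb L.vp L.s) 0 (fun _ => 0) :=
    ⟨hB, hF, by simp, fun k => by simp⟩
  exact U.gain_levelsU (nuL_fin L hA.lam0 hA.η0) (nuL_ne L hA.lam0 hA.η0)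
    (amU_L L hA.η0 id) hx (VFb_pos hA.vp0 hs) h

/-- **The stuck number does not depend on the level system.** -/
theorem stk_eq (hA : Adm L) (hs : 0 < L.s) (hB : ∑ l, cB l ^ 2 = 1)
    (hF : ∀ k, ∑ l with κ l = k, cF l ^ 2 = VFb L.vp L.s k) :
    stk L.n L.nuL L.b cB cF (fun l => alL L (κ l)) L.η L.x () =
      ex (g1 (Co L.n Bool Bool)) (Zxm (muA (Xs L.n) L.lam L.η L.c) 1
        (H347.Sm L.b (H418.cb 0) (H418.cf L.vp 0) L.s L.η) L.x)
        (avm (muA (Xs L.n) L.lam L.η L.c) 1 (H347.Sm L.b (H418.cb 0) (H418.cf L.vp 0) L.s L.η)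
          fun p => 1 - ins L.η p.1) := by
  have hη := hA.η0
  have bi : Bm fun p : ℝ × Xs L.n => 1 - ins L.η p.1 :=
    (Bm.const 1).sub ⟨(measurable_ins L.η).comp measurable_fst, 1, zero_le_one, fun p => by
      rw [abs_of_nonneg (ins_nonneg _ _)]; exact ins_le _ _⟩
  have bi' : Bm fun w : (Unit → ℝ) × Xs L.n => 1 - ins L.η (w.1 ()) :=
    (Bm.const 1).sub ⟨(measurable_ins L.η).comp ((measurable_pi_apply ()).comp measurable_fst),
      1, zero_le_one, fun p => by rw [abs_of_nonneg (ins_nonneg _ _)]; exact ins_le _ _⟩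
  have hsh : H9.U.ShU κ cB cF (∅ : Finset LB) (∅ : Finset LF) (VFb L.vp L.s) 0
      (ub 0 (gr false)) :=
    ⟨hB, hF, by simp, fun k => by cases k <;> simp [ub, gr]⟩
  have h1 : ∑ l ∈ ({true} : Finset Bool), H418.cb 0 l ^ 2 = 0 := by
    rw [Finset.sum_singleton]
    simp [H418.cb]
  have h2 : ∑ l ∈ ({true} : Finset Bool), H418.cf L.vp 0 l ^ 2 = 0 * L.vp := by
    rw [Finset.sum_singleton]
    simp [H418.cf, H418.cb]
  have h := bridge_unit (J := Unit) (b := L.b) (c := L.c) hA.lam0 hη hA.vp0 hs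
    (sum_cb le_rfl zero_le_one) (sum_cf hA.vp0.le le_rfl zero_le_one) h2 h1 false hsh
    (∅ : Finset (Fin L.n)) L.x (f := fun _ p => 1 - ins L.η p.1) (fun _ => bi)
    (Φ := fun v => v ()) (measurable_pi_apply ()) (fun C => ⟨C, fun v hv => hv ()⟩)
  obtain ⟨M0, hM⟩ := H412.gm_sk (n := L.n) hA.lam0 hη L.c L.b (H418.cb 0) (H418.cf L.vp 0) L.s
  have hG := gmL hA cB cF κ
  have e1 : ∀ K : Finset (Co L.n Bool Bool),
      ex (g1 (Co L.n Bool Bool)) (Zxm (muA (Xs L.n) L.lam L.η L.c) 1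
        (H347.Sm L.b (H418.cb 0) (H418.cf L.vp 0) L.s L.η) L.x)
        (cx (g1 (Co L.n Bool Bool)) K (Zxm (muA (Xs L.n) L.lam L.η L.c) 1
          (H347.Sm L.b (H418.cb 0) (H418.cf L.vp 0) L.s L.η) L.x)
          (avm (muA (Xs L.n) L.lam L.η L.c) 1 (H347.Sm L.b (H418.cb 0) (H418.cf L.vp 0) L.s L.η)
            fun p => 1 - ins L.η p.1)) =
      ex (g1 (Co L.n Bool Bool)) (Zxm (muA (Xs L.n) L.lam L.η L.c) 1
        (H347.Sm L.b (H418.cb 0) (H418.cf L.vp 0) L.s L.η) L.x)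
        (avm (muA (Xs L.n) L.lam L.η L.c) 1 (H347.Sm L.b (H418.cb 0) (H418.cf L.vp 0) L.s L.η)
          fun p => 1 - ins L.η p.1) := fun K =>
    ex_cx' (hM.wt 1 L.x) (H347.bm hM 1 bi)
  have e2 : ∀ K : Finset (Co L.n LB LF),
      ex (g1 (Co L.n LB LF)) (Zxm (muL L) 1 (enL L cB cF κ) L.x)
        (cx (g1 (Co L.n LB LF)) K (Zxm (muL L) 1 (enL L cB cF κ) L.x)
          (avm (muL L) 1 (enL L cB cF κ) fun w => 1 - ins L.η (w.1 ()))) =
      ex (g1 (Co L.n LB LF)) (Zxm (muL L) 1 (enL L cB cF κ) L.x)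
          (avm (muL L) 1 (enL L cB cF κ) fun w => 1 - ins L.η (w.1 ())) := fun K =>
    ex_cx' (hG.wt 1 L.x) (H347.bm hG 1 bi')
  rw [← e1]
  exact (e2 _).symm.trans h.symm

/-- the numbers of one block from the gain -/
theorem apK_num {q D T G : ℝ} (hA : Adm L) (hs : 0 < L.s) (hx : 0 < L.x) (hB : ∑ l, cB l ^ 2 = 1)
    (hF : ∀ k, ∑ l with κ l = k, cF l ^ 2 = VFb L.vp L.s k) (hyb : L.x ^ 2 * L.b ^ 2 ≤ 4)
    (hg : gnL L ≤ G) (hG1 : 1 ≤ G) (hT : 0 < T) (hT1 : T ≤ 1) (hBL : ∑ l ∈ BL, cB l ^ 2 = 1 - T)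
    (hmid : (Cp 1 + 1) * (Cp 2 + 1) * (4 * G / (L.x ^ 2 * L.b ^ 2 * T * L.n)) ≤
      Uq q L.n L.x T ^ 2)
    (hkey : Real.exp (G + 1 - L.x ^ 2 * L.b ^ 2 * T * L.n / 4 * (Uq q L.n L.x T / 4) ^ 2) ≤
      (L.n : ℝ) ^ (-D)) (FL : Finset LF) (S1 S : Finset (Fin L.n)) :
    ApK q D L T κ cB cF (Kset S1 BL FL) S := by
  have hn : (0 : ℝ) < L.n := by exact_mod_cast hA.n0
  have hM := gmL hA cB cF κ
  have hE : Bds (enL L cB cF κ) L.b cB fun p w => SkS p w.2 := U.bdsU L.b cB cF (alL L) κ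
  have hgain : gain (muL L) 1 L.x (enL L cB cF κ) ≤ G := by
    rw [gain_sys hA hs hx hB hF]
    exact hg
  have hdj : Disjoint (Kset S1 BL FL) (Bst LF S BLᶜ) := by
    rw [Finset.disjoint_left]
    intro e he he'
    rcases e with (⟨p, l⟩ | ⟨j, l⟩) | j
    · rw [H347.bd_memK] at he
      rw [H412.bd_memB] at he'
      exact Finset.mem_compl.1 he'.2 he.2
    · exact H412.fd_memB j l he'
    · exact H412.gd_memB j he'
  have hTc : T = ∑ l ∈ BLᶜ, cB l ^ 2 := by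
    have := Finset.sum_add_sum_compl BL fun l => cB l ^ 2
    rw [hB, hBL] at this
    linarith
  have hU : 0 < Uq q L.n L.x T := Uq_pos hn hx hT
  have hCp : ∀ p, 0 < Cp p := fun p => by
    unfold Cp
    positivity
  have hc1 := hCp 1
  have hc2 := hCp 2
  have hb := hA.b0
  have hG0 : 0 < G := by linarith
  set X := 4 * G / (L.x ^ 2 * L.b ^ 2 * T * L.n) with hX
  have hX0 : 0 ≤ X := by
    rw [hX]
    positivity
  have hkey' : ∀ r : ℝ, L.x ^ 2 * L.b ^ 2 * T * L.n / 4 * (Uq q L.n L.x T / 4) ^ 2 ≤ r →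
      Real.exp (G + 1 - r) ≤ (L.n : ℝ) ^ (-D) := fun r hr =>
    (Real.exp_le_exp.2 (by linarith)).trans hkey
  refine ⟨?_, ?_, ?_, fun h hh hC => ?_⟩
  · have g := H412.U.mom_num (S := S) (K := Kset S1 BL FL) (BL1 := BLᶜ) (T := T)
      hM measurable_snd hE hx hA.n0 hb.ne' hdj hTc hT hT1 hyb hgain hG1 1
    simp only [pow_one] at g
    refine g.trans (le_trans ?_ hmid)
    refine mul_le_mul_of_nonneg_right ?_ hX0
    nlinarith
  · have g := H412.U.mom_num (S := S) (K := Kset S1 BL FL) (BL1 := BLᶜ) (T := T)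
      hM measurable_snd hE hx hA.n0 hb.ne' hdj hTc hT hT1 hyb hgain hG1 2
    refine g.trans ?_
    have h6 := pow_le_pow_left₀ (by positivity) hmid 2
    have e2 : (Uq q L.n L.x T ^ 2) ^ 2 = Uq q L.n L.x T ^ 4 := by ring
    rw [← e2]
    refine le_trans ?_ h6
    rw [mul_pow ((Cp 1 + 1) * (Cp 2 + 1))]
    refine mul_le_mul_of_nonneg_right ?_ (sq_nonneg _)
    have h7 : 1 ≤ (Cp 1 + 1) := by linarith
    have h8 : Cp 2 + 1 ≤ (Cp 1 + 1) * (Cp 2 + 1) := by nlinarith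
    nlinarith
  · refine (H412.U.tail_num (S := S) (K := Kset S1 BL FL) (BL1 := BLᶜ) (T := T)
      hM measurable_snd hE hx hA.n0 hdj hTc hT1 hyb hgain (Uq q L.n L.x T ^ 2)).trans
      (hkey' _ (mul_le_mul_of_nonneg_left ?_ (by positivity)))
    nlinarith
  · exact (H412.U.tail_numQ (S := S) (K := Kset S1 BL FL) (BL1 := BLᶜ) (T := T)
      hM measurable_snd hE hx hA.n0 hdj hTc hT1 hyb hgain hh hC hU.le).trans
      (hkey' _ le_rfl)

/-- the four point number of every level system with the right totals -/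
theorem q4_sys {T G : ℝ} (hA : Adm L) (hs : 0 < L.s) (hx : 0 < L.x)
    (hB : ∑ l, cB l ^ 2 = 1) (hF : ∀ k, ∑ l with κ l = k, cF l ^ 2 = VFb L.vp L.s k)
    (hyb : L.x ^ 2 * L.b ^ 2 ≤ 4) (hg : gnL L ≤ G) (hG1 : 1 ≤ G) (hT : 0 < T)
    (hBL : ∑ l ∈ BL, cB l ^ 2 = 1 - T) (FL : Finset LF) (S : Finset (Fin L.n)) :
    eG (muL L) (enL L cB cF κ) L.x (Q4g (muL L) (enL L cB cF κ) L.x (Kset S BL FL)
      (sR Prod.snd) S) ≤ (L.n : ℝ) ^ 4 * (43 * G / (L.x ^ 2 * L.b ^ 2 * T * L.n)) ^ 2 := by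
  have hV := VFb_pos hA.vp0 hs
  have h : H698.ShU κ cB cF BL FL (VFb L.vp L.s) (1 - T)
      (fun k => (∑ l ∈ FL with κ l = k, cF l ^ 2) / VFb L.vp L.s k) :=
    ⟨hB, hF, hBL, fun k => by rw [div_mul_cancel₀ _ (hV k).ne']⟩
  have h1 := U.q4_canU (nuL_fin L hA.lam0 hA.η0) (nuL_ne L hA.lam0 hA.η0)
    (amU_L L hA.η0 id) hx hA.x1 hA.n0 hA.b0.ne' hyb hV h (by linarith) S
    (show U.gnU L.nuL L.n L.b (VFb L.vp L.s) (fun k (θ : Unit → ℝ) => αb L.η (id k) (θ ())) L.x ≤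
      G from hg) hG1
  have e : 1 - (1 - T) = T := by ring
  rw [e] at h1
  exact h1

end level

/-- the scalar conditions of `apK_num` -/
lemma ap_scal {q D b n y T : ℝ} (hb : 0 < b) (hn1 : 1 ≤ n) (hy : 0 < y)
    (hT : 0 < T) (hnq : 4 * (Cp 1 + 1) * (Cp 2 + 1) / b ^ 2 ≤ n ^ q)
    (g3 : 64 * 3 / b ^ 2 ≤ n ^ (2 * q - q))
    (hD : (1 + |D|) * (1 + Real.log n) ≤ n ^ (1 + q) * y ^ 6) {U : ℝ}
    (hU : U ^ 2 = (n ^ q * y ^ 2) ^ 2 / T) :
    (Cp 1 + 1) * (Cp 2 + 1) * (4 * (n ^ (1 + q) * y ^ 6) / (y ^ 2 * b ^ 2 * T * n)) ≤ U ^ 2 ∧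
    Real.exp (n ^ (1 + q) * y ^ 6 + 1 - y ^ 2 * b ^ 2 * T * n / 4 * (U / 4) ^ 2) ≤ n ^ (-D) := by
  have hn : 0 < n := by linarith
  have hlog : 0 ≤ Real.log n := Real.log_nonneg hn1
  have eX : 4 * (n ^ (1 + q) * y ^ 6) / (y ^ 2 * b ^ 2 * T * n) =
      4 * (n ^ q * y ^ 4) / (b ^ 2 * T) := by
    rw [Real.rpow_add hn, Real.rpow_one]
    field_simp
  have hUT : U ^ 2 * T = (n ^ q * y ^ 2) ^ 2 := by
    rw [hU, div_mul_cancel₀ _ hT.ne']
  constructor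
  · rw [eX, hU]
    calc (Cp 1 + 1) * (Cp 2 + 1) * (4 * (n ^ q * y ^ 4) / (b ^ 2 * T))
        = 4 * (Cp 1 + 1) * (Cp 2 + 1) / b ^ 2 * (n ^ q * y ^ 4 / T) := by
          field_simp
      _ ≤ n ^ q * (n ^ q * y ^ 4 / T) :=
          mul_le_mul_of_nonneg_right hnq (by positivity)
      _ = (n ^ q * y ^ 2) ^ 2 / T := by ring
  · set G := n ^ (1 + q) * y ^ 6 with hG
    have h3 : 3 * G ≤ y ^ 2 * b ^ 2 * T * n / 4 * (U / 4) ^ 2 := by
      have h4 : y ^ 2 * b ^ 2 * T * n / 4 * (U / 4) ^ 2 =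
          y ^ 2 * b ^ 2 * n / 64 * (U ^ 2 * T) := by ring
      rw [h4, hUT]
      have e1 : y ^ 2 * b ^ 2 * n / 64 * (n ^ q * y ^ 2) ^ 2 =
          b ^ 2 / 64 * (n * (n ^ q) ^ 2 * y ^ 6) := by ring
      have e2 : n * (n ^ q) ^ 2 = n ^ (1 + q) * n ^ (2 * q - q) := by
        rw [← Real.rpow_natCast, ← Real.rpow_mul hn.le, ← Real.rpow_add hn]
        nth_rewrite 1 [← Real.rpow_one n]
        rw [← Real.rpow_add hn]
        congr 1
        push_cast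
        ring
      rw [e1, e2]
      have h6 : 3 ≤ b ^ 2 / 64 * n ^ (2 * q - q) := by
        rw [div_le_iff₀ (by positivity)] at g3
        linarith
      have h7 := mul_le_mul_of_nonneg_right h6 (show 0 ≤ n ^ (1 + q) * y ^ 6 by positivity)
      rw [hG]
      linarith
    rw [Real.rpow_def_of_pos hn]
    refine Real.exp_le_exp.2 ?_
    have h8 : -|D| * Real.log n ≤ Real.log n * -D := by
      have := le_abs_self D
      nlinarith
    have h9 : (1 + |D|) * (1 + Real.log n) = 1 + |D| + Real.log n + |D| * Real.log n := by ring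
    have h10 : 0 ≤ |D| := abs_nonneg D
    nlinarith

/-- **The a-priori numbers of the ensemble `U` on the window.** -/
theorem apU_ev {a0 b₁ q A b : ℝ} (D : ℝ) (hq : 0 < q) (hb : 0 < b) (hA : 1 ≤ A)
    (ha0 : a0 ≤ 1 / 6) (hb₁ : 100 * q < b₁) :
    ∀ᶠ n : ℕ in atTop, ∀ y V al s lam η : ℝ, KW a0 b₁ q A b n y V al s lam η →
      NW a0 b₁ q A b n y V al s lam η ∧
      gnL (lawOf n b y V al s lam η) ≤ (n : ℝ) ^ (1 + q) * y ^ 6 ∧
      ∀ (LB LF : Type) [Fintype LB] [DecidableEq LB] [Fintype LF] [DecidableEq LF]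
        (κ : LF → Bool) (cB : LB → ℝ) (cF : LF → ℝ) (BL : Finset LB), ∑ l, cB l ^ 2 = 1 →
        (∀ k, ∑ l with κ l = k, cF l ^ 2 = VFb (V - s ^ 2) s k) →
        stk n (lawOf n b y V al s lam η).nuL b cB cF
          (fun l => alL (lawOf n b y V al s lam η) (κ l)) η y () ≤ (n : ℝ) ^ (-D) ∧
        ∀ T, 0 < T → T ≤ 1 → ∑ l ∈ BL, cB l ^ 2 = 1 - T → ∀ (FL : Finset LF)
          (S1 S : Finset (Fin n)),
          ApK q D (lawOf n b y V al s lam η) T κ cB cF (Kset S1 BL FL) S ∧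
          eG (muL (lawOf n b y V al s lam η)) (enL (lawOf n b y V al s lam η) cB cF κ) y
            (Q4g (muL (lawOf n b y V al s lam η)) (enL (lawOf n b y V al s lam η) cB cF κ) y
              (Kset S BL FL) (sR Prod.snd) S) ≤ (n : ℝ) ^ 4 * Uq q n y T ^ 4 := by
  filter_upwards [nw_ev (a0 := a0) (b₁ := b₁) hq hb hA ha0 hb₁,
    gnL_ev (b := b) (e := 999 * q) (s0 := q / 2) (s1 := q) hb (by positivity) (by positivity)
      (by linarith),
    tail_ap (b := b) (D := D) hq hb,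
    ev_log (θ := q) hq (Real.log (4 * (Cp 1 + 1) * (Cp 2 + 1) / b ^ 2)),
    H178.ev_pow (show 0 < 2 * q - q by linarith) (64 * 3 / b ^ 2),
    H178.ev_log (show 0 < 6 * (999 * q) by positivity) (1 + |D|), eventually_ge_atTop 1]
    with n h1 h2 h4 h5 g3 g4 g5
  intro y V al s lam η hkw
  have hw := h1 y V al s lam η hkw
  obtain ⟨k1, k2, k3, k4, k5, k6, k7, k8⟩ := hw.bd
  have hn := hw.env.n0
  have hn1 : (1 : ℝ) ≤ n := by exact_mod_cast g5
  have hy := hw.env.y0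
  have hV := hw.env.V0
  have hpar := hw.par
  have hs0 := hkw.s0
  have hvp : 0 < V - s ^ 2 := by linarith
  have hg := h2 (V - s ^ 2) s lam η y V al hpar hvp
  refine ⟨hw, hg, fun LB LF _ _ _ _ κ cB cF BL hB hF => ?_⟩
  have hadm : Adm (lawOf n b y V al s lam η) := hw.adm.1
  refine ⟨?_, fun T hT hT1 hBL FL S1 S => ?_⟩
  · refine (stk_eq (L := lawOf n b y V al s lam η) hadm hs0 hB hF).trans_le ?_
    refine h4 Bool Bool (H418.cb 0) (H418.cf (V - s ^ 2) 0) lam s η y V al ?_ ?_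
      (by linarith) hkw.s0 k6 hkw.η0 (by linarith) hkw.ll hy (by linarith) hkw.sg
    · exact sum_cb le_rfl zero_le_one
    · rw [sum_cf (by linarith) le_rfl zero_le_one]
      ring
  · have hyb : y ^ 2 * b ^ 2 ≤ 4 := by nlinarith [sq_nonneg (y * b)]
    have hnq : 4 * (Cp 1 + 1) * (Cp 2 + 1) / b ^ 2 ≤ (n : ℝ) ^ q := by
      have hCp : ∀ p, 0 < Cp p := fun p => by
        unfold Cp
        positivity
      have hc1 := hCp 1
      have hc2 := hCp 2
      refine le_of_log (by positivity) (by positivity) ?_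
      rw [Real.log_rpow hn]
      exact h5
    have hGe : (n : ℝ) ^ (6 * (999 * q)) ≤ (n : ℝ) ^ (1 + q) * y ^ 6 :=
      H412.U.G_ge (e := 999 * q) (s1 := q) hq.le g5 k8
    have hG1 : 1 ≤ (n : ℝ) ^ (1 + q) * y ^ 6 :=
      (Real.one_le_rpow hn1 (by positivity)).trans hGe
    obtain ⟨s1, s2⟩ := ap_scal (U := Uq q n y T) hb hn1 hy hT hnq g3 (g4.trans hGe) (Uq_sq hT)
    refine ⟨apK_num (L := lawOf n b y V al s lam η) hadm hs0 hy hB hF hyb hg hG1 hT hT1 hBL s1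
      s2 FL S1 S, (q4_sys (L := lawOf n b y V al s lam η) hadm hs0 hy hB hF hyb hg hG1 hT hBL FL
      S).trans (mul_le_mul_of_nonneg_left ?_ (by positivity))⟩
    have e4 : Uq q n y T ^ 4 = (Uq q n y T ^ 2) ^ 2 := by ring
    rw [e4]
    refine pow_le_pow_left₀ (by positivity) (le_trans ?_ s1) 2
    have c1 : Cp 1 = 3 := by norm_num [Cp, Nat.factorial]
    have c2 : Cp 2 = 14 := by norm_num [Cp, Nat.factorial]
    rw [c1, c2]
    show 43 * ((n : ℝ) ^ (1 + q) * y ^ 6) / (y ^ 2 * b ^ 2 * T * n) ≤ _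
    rw [← mul_div_assoc]
    refine div_le_div_of_nonneg_right ?_ (by positivity)
    have : 0 ≤ (n : ℝ) ^ (1 + q) * y ^ 6 := by positivity
    nlinarith

end Vale.Agent.P146.H463.Ap
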