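import Vale.Agent.P146.H463.NeInSK
import Vale.Agent.P146.H412.K8S
import Vale.Agent.P146.H9.MonoSK

/-!
P146, the near end: the mean of the four point number at the canonical two-level point of
`H418.Skel` (bond share `t`, share `u` of the plain field), from the four point bound of `H412`
at a three-level system and the congruence of `H9`.

* `q4_can` : `ex' t u Q4g ≤ n ^ 4 (43 g / (x² b² (1 - t) n))²` for any `g ≥ gn L t u`, `g ≥ 1`;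
* `q4_ev` : eventually `≤ n ^ 4 (43 n ^ s1 y ^ 4 / (b² (1 - t)))²`.
-/

open MeasureTheory ProbabilityTheory Filter Topology Set

namespace Vale.Agent.P146.H463

open Vale.Agent.P157.Lv Vale.Agent.P146.H425 Vale.Agent.P146.H646 Vale.Agent.P146.H196
  Vale.Agent.P146.H475 Vale.Agent.P146.H325 Vale.Agent.P146.H317 Vale.Agent.P146.H615
  Vale.Agent.P146.H418 Vale.Agent.P146.H9 Vale.Agent.P146.H529 Vale.Agent.P146.H347
  Vale.Agent.P146.H412 Vale.Agent.P146.H246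

set_option linter.unusedSectionVars false

/-- three bond levels: `0` revealed, `1` and `2` hidden -/
noncomputable def cb3 (t : ℝ) : Fin 3 → ℝ :=
  ![√t, √((1 - t) / 2), √((1 - t) / 2)]

lemma cb3_sq {t : ℝ} (h0 : 0 ≤ t) (h1 : t ≤ 1) :
    cb3 t 0 ^ 2 = t ∧ cb3 t 1 ^ 2 = (1 - t) / 2 ∧ cb3 t 2 ^ 2 = (1 - t) / 2 := by
  have h2 : 0 ≤ (1 - t) / 2 := by linarith
  exact ⟨Real.sq_sqrt h0, Real.sq_sqrt h2, Real.sq_sqrt h2⟩

lemma sum_cb3 {t : ℝ} (h0 : 0 ≤ t) (h1 : t ≤ 1) : ∑ l, cb3 t l ^ 2 = 1 := by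
  obtain ⟨e0, e1, e2⟩ := cb3_sq h0 h1
  rw [Fin.sum_univ_three, e0, e1, e2]
  ring

/-- the shares of the three-level system -/
lemma sh3 {t u v : ℝ} (h0 : 0 ≤ t) (h1 : t ≤ 1) (hv : 0 ≤ v) (hu : 0 ≤ u) (hu1 : u ≤ 1) :
    Sh (cb3 t) (cf v u) {0} {true} 1 (√v) t u := by
  obtain ⟨e0, -, -⟩ := cb3_sq h0 h1
  refine ⟨?_, ?_, ?_, ?_⟩
  · rw [sum_cb3 h0 h1, one_pow]
  · rw [sum_cf hv hu hu1, Real.sq_sqrt hv]
  · rw [Finset.sum_singleton, e0]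
    ring
  · rw [Finset.sum_singleton]
    unfold H418.cf
    rw [mul_pow]
    simp [H418.cb, Real.sq_sqrt hu]
    ring

/-- the shares of the two-level system -/
lemma sh2 {t u v : ℝ} (h0 : 0 ≤ t) (h1 : t ≤ 1) (hv : 0 ≤ v) (hu : 0 ≤ u) (hu1 : u ≤ 1) :
    Sh (cb t) (cf v u) {true} {true} 1 (√v) t u := by
  refine ⟨?_, ?_, ?_, ?_⟩
  · rw [sum_cb h0 h1, one_pow]
  · rw [sum_cf hv hu hu1, Real.sq_sqrt hv]
  · rw [Finset.sum_singleton]
    simp [H418.cb, Real.sq_sqrt h0]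
  · rw [Finset.sum_singleton]
    unfold H418.cf
    rw [mul_pow]
    simp [H418.cb, Real.sq_sqrt hu]
    ring

variable {L : Law}

/-- the gain depends on the total shares only -/
lemma gain_levels (hl : 0 < L.lam) (hη : 0 ≤ L.η) (hx : 0 < L.x) (hv : 0 < L.vp) {t u : ℝ}
    (h0 : 0 ≤ t) (h1 : t ≤ 1) (hu : 0 ≤ u) (hu1 : u ≤ 1) :
    gain (muA (Xs L.n) L.lam L.η L.c) 1 L.x
      (Sm (LB := Fin 3) (LF := Bool) L.b (cb3 t) (cf L.vp u) L.s L.η) = gn L t u := by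
  have hG := gmA (n := L.n) L.b (fun _ : Unit => (1 : ℝ)) (fun _ : Unit => √L.vp) L.s hl hη L.c
  have hF : 0 < √L.vp := Real.sqrt_pos.2 hv
  have e3 := sh3 h0 h1 hv.le hu hu1
  have e2 := sh2 h0 h1 hv.le hu hu1
  unfold gn
  rw [gain_lm _ _ _ hx, gain_lm _ _ _ hx,
    lm_levels hG one_pos hF e3.totB e3.totF, lm_levels hG one_pos hF e3.totB e3.totF,
    lm_levels hG one_pos hF e2.totB e2.totF, lm_levels hG one_pos hF e2.totB e2.totF]

/-- the four point sums of the two-level system are those of the three-level system -/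
lemma q4_congr (hl : 0 < L.lam) (hη : 0 ≤ L.η) (hv : 0 < L.vp) {t u : ℝ}
    (h0 : 0 ≤ t) (h1 : t ≤ 1) (hu : 0 ≤ u) (hu1 : u ≤ 1) (S : Finset (Fin L.n)) :
    L.ex' t u (fun z => ∑ p ∈ prs S, ∑ q ∈ prs S, cxS L.n L.b (cb t) (cf L.vp u) L.s L.η L.lam
        L.c L.x (Kset S {true} {true}) (av4 L.b (cb t) (cf L.vp u) L.s L.η L.lam L.c p q) z ^ 2) =
      exS L.n L.b (cb3 t) (cf L.vp u) L.s L.η L.lam L.c L.x (fun z => ∑ p ∈ prs S,
        ∑ q ∈ prs S, cxS L.n L.b (cb3 t) (cf L.vp u) L.s L.η L.lam L.c L.x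
          (Kset S {0} {true}) (av4 L.b (cb3 t) (cf L.vp u) L.s L.η L.lam L.c p q) z ^ 2) := by
  have hG := gmA (n := L.n) L.b (fun _ : Unit => (1 : ℝ)) (fun _ : Unit => √L.vp) L.s hl hη L.c
  have hF : 0 < √L.vp := Real.sqrt_pos.2 hv
  have hf : ∀ a : Pair L.n × Pair L.n, Bm fun w : ℝ × Xs L.n => SkS a.1 w.2 * SkS a.2 w.2 :=
    fun a => (H9.bm_SkS a.1).mul (H9.bm_SkS a.2)
  have h2 := sk_congr (A := Pair L.n × Pair L.n) (b := L.b) (s := L.s) (η := L.η) hG one_pos hF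
    (sh2 h0 h1 hv.le hu hu1) (sh3 h0 h1 hv.le hu hu1) S L.x hf
    (Φ := fun v => ∑ p ∈ prs S, ∑ q ∈ prs S, v (p, q) ^ 2)
    (Finset.measurable_sum _ fun p _ => Finset.measurable_sum _ fun q _ =>
      (measurable_pi_apply (p, q)).pow_const 2)
    (fun C => ⟨∑ _p ∈ prs S, ∑ _q ∈ prs S, C ^ 2, fun v hv' => by
      rw [abs_of_nonneg (Finset.sum_nonneg fun _ _ => Finset.sum_nonneg fun _ _ => sq_nonneg _)]
      refine Finset.sum_le_sum fun p _ => Finset.sum_le_sum fun q _ => ?_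
      rw [← sq_abs]
      exact pow_le_pow_left₀ (abs_nonneg _) (hv' (p, q)) 2⟩)
  exact h2

/-- the arithmetic of `q4_can` -/
lemma q4_arith {n S D g gn x b T : ℝ} (hn : 0 < n) (hS0 : 0 ≤ S) (hS : S ≤ n) (hT : 0 < T)
    (hT1 : T ≤ 1) (hx : 0 < x) (hb : 0 < b ^ 2) (hxb : x ^ 2 * b ^ 2 ≤ 4)
    (hD : D = x ^ 2 * b ^ 2 * T * n) (hg : gn ≤ g) (hg0 : 0 ≤ gn) (hg1 : 1 ≤ g) :
    2 * S ^ 2 + 8 * (4 * (gn + 1) / (x ^ 4 * (b ^ 2 / n * (T / 2) * (b ^ 2 / n * (T / 2)))) +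
      16 * (gn ^ 2 + 2) / (x ^ 4 * (b ^ 2 / n * (T / 2)) ^ 2)) ≤
      n ^ 4 * (43 * g / D) ^ 2 := by
  have hD0 : 0 < D := by rw [hD]; positivity
  have hD1 : D ≤ 4 * n := by
    rw [hD]
    have : x ^ 2 * b ^ 2 * T ≤ 4 * 1 := mul_le_mul hxb hT1 hT.le (by norm_num)
    nlinarith
  have e5 : x ^ 4 * (b ^ 2 / n * (T / 2) * (b ^ 2 / n * (T / 2))) = D ^ 2 / (4 * n ^ 4) := by
    rw [hD]
    field_simp
    ring
  have e6 : x ^ 4 * (b ^ 2 / n * (T / 2)) ^ 2 = D ^ 2 / (4 * n ^ 4) := by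
    rw [← e5]; ring
  rw [e5, e6]
  have e7 : ∀ a : ℝ, a / (D ^ 2 / (4 * n ^ 4)) = 4 * (n ^ 4 / D ^ 2) * a := by
    intro a
    field_simp
  rw [e7, e7]
  have e8 : n ^ 4 * (43 * g / D) ^ 2 = n ^ 4 / D ^ 2 * (1849 * g ^ 2) := by
    rw [div_pow]
    ring
  rw [e8]
  set N := n ^ 4 / D ^ 2 with hN
  have hN0 : 0 < N := by rw [hN]; positivity
  have h6 : 2 * S ^ 2 ≤ N * 32 := by
    have h7 : S ^ 2 ≤ n ^ 2 := pow_le_pow_left₀ hS0 hS 2
    have h8 : n ^ 2 ≤ N * 16 := by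
      rw [hN, div_mul_eq_mul_div, le_div_iff₀ (by positivity)]
      have h9 : D ^ 2 ≤ (4 * n) ^ 2 := pow_le_pow_left₀ hD0.le hD1 2
      calc n ^ 2 * D ^ 2 ≤ n ^ 2 * (4 * n) ^ 2 := mul_le_mul_of_nonneg_left h9 (sq_nonneg n)
        _ = n ^ 4 * 16 := by ring
    linarith
  have h13 : (1 : ℝ) ≤ g ^ 2 := one_le_pow₀ hg1
  have h11 : 4 * (gn + 1) ≤ 8 * g ^ 2 := by
    have : g ≤ g ^ 2 := by nlinarith
    linarith
  have h12 : 16 * (gn ^ 2 + 2) ≤ 48 * g ^ 2 := by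
    have : gn ^ 2 ≤ g ^ 2 := pow_le_pow_left₀ hg0 hg 2
    linarith
  have h14 : 4 * N * (4 * (gn + 1)) ≤ 4 * N * (8 * g ^ 2) :=
    mul_le_mul_of_nonneg_left h11 (by positivity)
  have h15 : 4 * N * (16 * (gn ^ 2 + 2)) ≤ 4 * N * (48 * g ^ 2) :=
    mul_le_mul_of_nonneg_left h12 (by positivity)
  have h16 : N * 32 ≤ N * (32 * g ^ 2) := mul_le_mul_of_nonneg_left (by linarith) hN0.le
  have h17 : 0 ≤ N * g ^ 2 := by positivity
  have e9 : N * (1849 * g ^ 2) = 1849 * (N * g ^ 2) := by ring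
  have e10 : N * (32 * g ^ 2) = 32 * (N * g ^ 2) := by ring
  have e11 : 4 * N * (8 * g ^ 2) = 32 * (N * g ^ 2) := by ring
  have e12 : 4 * N * (48 * g ^ 2) = 192 * (N * g ^ 2) := by ring
  rw [e11] at h14
  rw [e12] at h15
  rw [e10] at h16
  rw [e9]
  linarith

/-- **The four point number at the canonical point.** -/
theorem q4_can (hl : 0 < L.lam) (hη : 0 ≤ L.η) (hx : 0 < L.x) (hx1 : L.x ≤ 1) (hn : 0 < L.n)
    (hb : L.b ≠ 0) (hv : 0 < L.vp) {t u : ℝ} (h0 : 0 ≤ t) (h1 : t < 1) (hu : 0 ≤ u)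
    (hu1 : u ≤ 1) (hxb : L.x ^ 2 * L.b ^ 2 ≤ 4) (S : Finset (Fin L.n)) {g : ℝ}
    (hg : gn L t u ≤ g) (hg1 : 1 ≤ g) :
    L.ex' t u (Q4g (muA (Xs L.n) L.lam L.η L.c) (Sm L.b (cb t) (cf L.vp u) L.s L.η) L.x
      (Kt L.n S) (spR L.n) S) ≤
      (L.n : ℝ) ^ 4 * (43 * g / (L.x ^ 2 * L.b ^ 2 * (1 - t) * L.n)) ^ 2 := by
  have hw := wtL (L := L) hl hη t u
  have hG := gmA (n := L.n) L.b (cb t) (cf L.vp u) L.s hl hη L.c
  have hn0 : (0 : ℝ) < L.n := by exact_mod_cast hn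
  have ht : 0 < 1 - t := by linarith
  have hb2 : 0 < L.b ^ 2 := by positivity
  obtain ⟨e0, e1, e2⟩ := cb3_sq h0 h1.le
  -- the three level system
  have t1 : tB L.n L.b (cb3 t) (({0, 1} : Finset (Fin 3)) \ {0}) = L.b ^ 2 / L.n * ((1 - t) / 2) := by
    have : (({0, 1} : Finset (Fin 3)) \ {0}) = {1} := by decide
    rw [this]
    unfold tB
    rw [Finset.sum_singleton, e1]
  have t2 : tB L.n L.b (cb3 t) ({2} : Finset (Fin 3)) = L.b ^ 2 / L.n * ((1 - t) / 2) := by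
    unfold tB
    rw [Finset.sum_singleton, e2]
  have hpos : 0 < L.b ^ 2 / L.n * ((1 - t) / 2) := by positivity
  have h3 := mom4_num (n := L.n) (BL := ({0} : Finset (Fin 3))) (BL' := ({0, 1} : Finset (Fin 3)))
    (BL1 := ({2} : Finset (Fin 3))) hl hη L.c L.b (cb3 t) (cf L.vp u) L.s hx hx1
    (by decide) (by decide) S ({true} : Finset Bool) (by rw [t1]; exact hpos)
    (by rw [t2]; exact hpos)
  rw [t1, t2, gain_levels hl hη hx hv h0 h1.le hu hu1] at h3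
  rw [← q4_congr hl hη hv h0 h1.le hu hu1 S] at h3
  -- the two level system
  have bsp : ∀ j : Fin L.n, Bd (spR L.n j) := by
    intro j
    have := dmx L.n
    refine ⟨(measurable_of_finite (fun σ : Xs L.n => sp σ j)).comp measurable_snd, 1,
      zero_le_one, fun w => abs_sp_le w.2 j⟩
  have bQ := bm_Q4g hG L.x (Kt L.n S) bsp S
  have bP : BM (fun z => ∑ p ∈ prs S, ∑ q ∈ prs S, cxS L.n L.b (cb t) (cf L.vp u) L.s L.η L.lam
        L.c L.x (Kset S {true} {true}) (av4 L.b (cb t) (cf L.vp u) L.s L.η L.lam L.c p q) z ^ 2) := by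
    refine BM.sum _ fun p _ => BM.sum _ fun q _ => bsq (hw.bm_cx _ ?_)
    have b2 : Bd fun w : ℝ × Xs L.n => SkS p w.2 * SkS q w.2 :=
      (((bsp p.1.1).mul (bsp p.1.2))).mul ((bsp q.1.1).mul (bsp q.1.2))
    exact (av_gm hG 1).bm b2
  have h4 := ex_mono hw bQ ((BM.const (2 * (S.card : ℝ) ^ 2)).add (bcm 8 bP))
    fun z => q4_pairs hl hη _ S z
  rw [H615.ex_add hw (BM.const _) (bcm _ bP), ex_const hw, H615.ex_cmul] at h4
  refine h4.trans ?_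
  have h5 : 8 * ex (g1 _) (L.wt t u) (fun z => ∑ p ∈ prs S, ∑ q ∈ prs S, cxS L.n L.b (cb t)
      (cf L.vp u) L.s L.η L.lam L.c L.x (Kset S {true} {true})
      (av4 L.b (cb t) (cf L.vp u) L.s L.η L.lam L.c p q) z ^ 2) ≤ 8 * _ :=
    mul_le_mul_of_nonneg_left h3 (by norm_num)
  refine (add_le_add_right h5 _).trans ?_
  have hS : (S.card : ℝ) ≤ L.n := by
    have := Finset.card_le_univ S
    rw [Fintype.card_fin] at this
    exact_mod_cast this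
  exact q4_arith hn0 (Nat.cast_nonneg _) hS ht (by linarith) hx hb2 hxb rfl hg
    (gn_nonneg hl hη hx t u) hg1

/-- **The four point number at the canonical point, eventually.** -/
theorem q4_ev {b e s0 s1 : ℝ} (hb : 0 < b) (he : 0 < e) (hs0 : 0 ≤ s0) (hs : s0 < s1) :
    ∀ᶠ n : ℕ in atTop, ∀ (vp s lam η y V a : ℝ), Par b s0 e n vp s lam η y V a → 0 < vp →
      y ^ 2 * b ^ 2 ≤ 4 → ∀ t : ℝ, 0 ≤ t → t < 1 → ∀ u ∈ Icc (0 : ℝ) 1,
      ∀ (S : Finset (Fin n)),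
      Law.ex' ⟨n, b, vp, s, lam, η, cc n b s a, y⟩ t u
        (Q4g (muA (Xs n) lam η (cc n b s a)) (Sm b (cb t) (cf vp u) s η) y (Kt n S) (spR n) S) ≤
      (n : ℝ) ^ 4 * (43 * ((n : ℝ) ^ s1 * y ^ 4) / (b ^ 2 * (1 - t))) ^ 2 := by
  filter_upwards [gn_ev hb he hs0 hs, eventually_ge_atTop 1] with n g1 g2
  intro vp s lam η y V a h hvp hyb t ht0 ht1 u hu S
  have hn1 : (1 : ℝ) ≤ n := by exact_mod_cast g2
  have hn0 : (0 : ℝ) < n := by linarith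
  have hy0 : 0 < y := lt_of_lt_of_le (Real.rpow_pos_of_pos hn0 _) h.y0
  have hg := g1 vp s lam η y V a h.vp0 h.hV h.V1 h.s0' h.lam1 h.η0 h.η1 h.lamη h.y0 h.y1 h.ap
    h.ap2 h.sg t ⟨ht0, ht1.le⟩ u hu
  have h1 : 1 ≤ (n : ℝ) ^ (1 + s1) * y ^ 6 := by
    have h2 := ypow g2 h.y0
    calc (1 : ℝ) ≤ (n : ℝ) ^ (s1 + 6 * e) := Real.one_le_rpow hn1 (by linarith)
      _ = (n : ℝ) ^ (1 + s1) * (n : ℝ) ^ (-1 + 6 * e) := by
          rw [← Real.rpow_add hn0]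
          congr 1
          ring
      _ ≤ _ := by gcongr
  have ht : 0 < 1 - t := by linarith
  have h3 := q4_can (L := ⟨n, b, vp, s, lam, η, cc n b s a, y⟩) (by
    show 0 < lam
    linarith [h.lam1]) h.η0.le hy0 (by show y ≤ 1; linarith [h.y1]) (by show 0 < n; omega)
    hb.ne' hvp ht0 ht1 hu.1 hu.2 hyb S hg h1
  refine h3.trans (le_of_eq ?_)
  congr 2
  show 43 * ((n : ℝ) ^ (1 + s1) * y ^ 6) / (y ^ 2 * b ^ 2 * (1 - t) * n) = _
  rw [Real.rpow_add hn0, Real.rpow_one]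
  field_simp

end Vale.Agent.P146.H463
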