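import Vale.Agent.P146.H463.Q4can
import Vale.Agent.P146.H412.MomG
import Vale.Agent.P146.H698.MonoU
import Vale.Agent.P146.H347.ModU

/-!
A-priori sizes in the ensemble `U`, for any level system with the shares `H698.ShU κ cB cF BL FL VF
t u` (`t < 1`), `K = Kset S BL FL` (plain and modulated field levels may be revealed).

* `gnU` : the gain of the doubled exponent (it depends on the totals only), `gain_levelsU`;
* `tail_CCU`, `mom_CCU`, `tail_QU`, `mom_QU`;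
* `q4_canU` : `E Q4g ≤ n ^ 4 (43 g / (x² b² (1 - t) n))²`.
-/

open MeasureTheory ProbabilityTheory

namespace Vale.Agent.P146.H463.U

open Vale.Agent.P157.Lv hiding Dep
open Vale.Agent.P146.H646 Vale.Agent.P146.H196
  Vale.Agent.P146.H475 Vale.Agent.P146.H325 Vale.Agent.P146.H281.U
open Vale.Agent.P146.H347 (Co Kset Xs bd fd gd g1)
open Vale.Agent.P146.H412 (gs prs Bst disj_Bst tB tB_nonneg gain gain_lm Cp)
open Vale.Agent.P146.H412.G (eG cG CCg Qg sR Bds tail_ccg mom_ccg tail_Qg mom_Qg q4_prs num4_g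
  bd_of bd_sR CCg_nonneg)
open Vale.Agent.P146.H698 (ShU SUb lm_levelsU skU_congr amU_comp)

set_option linter.unusedSectionVars false

variable {n : ℕ} {Th A LB LF : Type} [MeasurableSpace Th] [Fintype A] [DecidableEq A]
  [Fintype LB] [DecidableEq LB] [Fintype LF] [DecidableEq LF]
variable {ν : Measure Th} {b x η t : ℝ} {cB : LB → ℝ} {cF : LF → ℝ} {κ : LF → A} {VF : A → ℝ}
  {α : A → Th → ℝ} {u : A → ℝ} {BL : Finset LB} {FL : Finset LF}

/-- the gain of the doubled exponent, as a function of the total variances -/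
noncomputable def gnU (ν : Measure Th) (n : ℕ) (b : ℝ) (VF : A → ℝ) (α : A → Th → ℝ)
    (x : ℝ) : ℝ := gain (muU ν n) 1 x (SUb n b VF α)

/-- the energies of a level system -/
noncomputable abbrev EU (n : ℕ) (b : ℝ) (cB : LB → ℝ) (cF : LF → ℝ) (α : A → Th → ℝ)
    (κ : LF → A) : Co n LB LF → Th × Xs n → ℝ := SU b cB cF fun l => α (κ l)

lemma bdsU (b : ℝ) (cB : LB → ℝ) (cF : LF → ℝ) (α : A → Th → ℝ) (κ : LF → A) :
    Bds (EU n b cB cF α κ) b cB fun p w => SkS p w.2 := fun _ _ => rfl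

lemma tB_compl (hs : ShU κ cB cF BL FL VF t u) :
    tB n b cB BLᶜ = b ^ 2 / n * (1 - t) := by
  have h1 : ∑ l ∈ BL, cB l ^ 2 + ∑ l ∈ BLᶜ, cB l ^ 2 = ∑ l, cB l ^ 2 :=
    Finset.sum_add_sum_compl BL _
  rw [hs.totB, hs.shB] at h1
  unfold tB
  congr 1
  linarith

lemma dj_Bst (S : Finset (Fin n)) : Disjoint (Kset S BL FL) (Bst LF S BLᶜ) :=
  disj_Bst (disjoint_compl_right)

section main

variable (hν : IsFiniteMeasure ν) (h0 : ν ≠ 0) (hA : AmU α η)
include hν h0 hA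

lemma gmE (b : ℝ) (cB : LB → ℝ) (cF : LF → ℝ) (κ : LF → A) :
    GM (muU ν n) (EU n b cB cF α κ) (MU n b cB cF η) :=
  gmU b cB cF η hν h0 (amU_comp hA κ)

/-- **the gain depends on the total variances only** -/
lemma gain_levelsU (hx : 0 < x) (hV : ∀ k, 0 < VF k) (hs : ShU κ cB cF BL FL VF t u) :
    gain (muU ν n) 1 x (EU n b cB cF α κ) = gnU ν n b VF α x := by
  unfold gnU
  rw [gain_lm _ _ _ hx, gain_lm _ _ _ hx, lm_levelsU hν h0 hA hV hs.totB hs.totF,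
    lm_levelsU hν h0 hA hV hs.totB hs.totF]

lemma gnU_nonneg (hx : 0 < x) : 0 ≤ gnU ν n b VF α x :=
  H412.gain_nonneg (gmU (n := n) b (fun _ : Unit => (1 : ℝ)) (fun k => √(VF k)) η hν h0 hA) 1 hx

/-- **Tail of the second moment of the overlap.** -/
theorem tail_CCU (hx : 0 < x) (hn : 0 < n) (hxb : x ^ 2 * b ^ 2 ≤ 4) (hV : ∀ k, 0 < VF k)
    (hs : ShU κ cB cF BL FL VF t u) (S : Finset (Fin n)) (r : ℝ) :
    eG (muU ν n) (EU n b cB cF α κ) x (H317.ind r (CCg (muU ν n) (EU n b cB cF α κ) x Prod.snd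
      (Kset S BL FL) S)) ≤
      Real.exp (gnU ν n b VF α x + 1 - x ^ 2 * b ^ 2 * (1 - t) * n / 4 * r) := by
  have hn0 : (0 : ℝ) < n := by exact_mod_cast hn
  have h2 := tail_ccg (S := S) (gmE (n := n) hν h0 hA b cB cF κ) measurable_snd
    (bdsU b cB cF α κ) hx hn (dj_Bst (BL := BL) (FL := FL) S) r
  rw [tB_compl hs, gain_levelsU hν h0 hA hx hV hs] at h2
  refine h2.trans (Real.exp_le_exp.2 ?_)
  have hS : (S.card : ℝ) ≤ n := by
    have := Finset.card_le_univ S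
    rw [Fintype.card_fin] at this
    exact_mod_cast this
  have ht1 := hs.t1
  have ht0 := hs.t0
  have h3 : x ^ 2 / 4 * (b ^ 2 / n * (1 - t) * S.card) ≤ 1 := by
    have h4 : b ^ 2 / n * (1 - t) * S.card ≤ b ^ 2 / n * 1 * n := by
      have h5 : 0 ≤ 1 - t := by linarith
      gcongr
      linarith
    have h6 : b ^ 2 / n * 1 * (n : ℝ) = b ^ 2 := by field_simp
    rw [h6] at h4
    have h7 := mul_le_mul_of_nonneg_left h4 (show 0 ≤ x ^ 2 / 4 by positivity)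
    linarith
  have h8 : x ^ 2 / 4 * (b ^ 2 / n * (1 - t) * (n : ℝ) ^ 2) * r =
      x ^ 2 * b ^ 2 * (1 - t) * n / 4 * r := by
    field_simp
  rw [h8]
  linarith

/-- **Powers of the second moment of the overlap.** -/
theorem mom_CCU (hx : 0 < x) (hn : 0 < n) (hb : b ≠ 0) (hxb : x ^ 2 * b ^ 2 ≤ 4)
    (hV : ∀ k, 0 < VF k) (hs : ShU κ cB cF BL FL VF t u) (ht : t < 1) (S : Finset (Fin n))
    {g : ℝ} (hg : gnU ν n b VF α x ≤ g) (hg1 : 1 ≤ g) (p : ℕ) :
    eG (muU ν n) (EU n b cB cF α κ) x (fun z => CCg (muU ν n) (EU n b cB cF α κ) x Prod.snd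
      (Kset S BL FL) S z ^ p) ≤
      Cp p * (4 * g / (x ^ 2 * b ^ 2 * (1 - t) * n)) ^ p := by
  have hn0 : (0 : ℝ) < n := by exact_mod_cast hn
  have hb2 : 0 < b ^ 2 := by positivity
  have ht0 := hs.t0
  have h1t : 0 < 1 - t := by linarith
  have hB : 0 < tB n b cB BLᶜ := by
    rw [tB_compl hs]
    positivity
  have h2 := mom_ccg (S := S) (gmE (n := n) hν h0 hA b cB cF κ) measurable_snd
    (bdsU b cB cF α κ) hx hn (dj_Bst (BL := BL) (FL := FL) S) hB p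
  rw [tB_compl hs, gain_levelsU hν h0 hA hx hV hs] at h2
  refine h2.trans ?_
  have hS : (S.card : ℝ) ≤ n := by
    have := Finset.card_le_univ S
    rw [Fintype.card_fin] at this
    exact_mod_cast this
  set D := x ^ 2 * b ^ 2 * (1 - t) * n with hD
  have hD0 : 0 < D := by rw [hD]; positivity
  have e1 : x ^ 2 / 4 * (b ^ 2 / n * (1 - t) * (n : ℝ) ^ 2) = D / 4 := by
    rw [hD]
    field_simp
  have h3 : x ^ 2 / 4 * (b ^ 2 / n * (1 - t) * S.card) ≤ g := by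
    refine le_trans ?_ hg1
    have h4 : b ^ 2 / n * (1 - t) * S.card ≤ b ^ 2 / n * 1 * n := by
      gcongr
      linarith
    have h6 : b ^ 2 / n * 1 * (n : ℝ) = b ^ 2 := by field_simp
    rw [h6] at h4
    have h7 := mul_le_mul_of_nonneg_left h4 (show 0 ≤ x ^ 2 / 4 by positivity)
    linarith
  have h5 : 0 ≤ x ^ 2 / 4 * (b ^ 2 / n * (1 - t) * (S.card : ℝ)) := by positivity
  have h6 : gnU ν n b VF α x ^ p ≤ g ^ p :=
    pow_le_pow_left₀ (gnU_nonneg hν h0 hA hx) hg p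
  have h7 : (1 : ℝ) ≤ g ^ p := one_le_pow₀ hg1
  have h8 : (p.factorial : ℝ) ≤ p.factorial * g ^ p :=
    le_mul_of_one_le_right (by positivity) h7
  have h9 : (x ^ 2 / 4 * (b ^ 2 / n * (1 - t) * (S.card : ℝ))) ^ p ≤ g ^ p :=
    pow_le_pow_left₀ h5 h3 p
  rw [e1]
  calc 2 ^ (p - 1) * (2 ^ (p - 1) * (gnU ν n b VF α x ^ p + p.factorial) +
        (x ^ 2 / 4 * (b ^ 2 / n * (1 - t) * (S.card : ℝ))) ^ p) / (D / 4) ^ p
      ≤ 2 ^ (p - 1) * (2 ^ (p - 1) * (g ^ p + p.factorial * g ^ p) + g ^ p) / (D / 4) ^ p := by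
        gcongr
    _ = Cp p * (4 * g / D) ^ p := by
        have e2 : 4 * g / D = g / (D / 4) := by
          field_simp
        unfold Cp
        rw [e2, div_pow g]
        generalize (D / 4) ^ p = W
        ring

/-- **Tail of `Q`**, any weight. -/
theorem tail_QU (hx : 0 < x) (hn : 0 < n) (hxb : x ^ 2 * b ^ 2 ≤ 4) (hV : ∀ k, 0 < VF k)
    (hs : ShU κ cB cF BL FL VF t u) (S : Finset (Fin n)) {h : Th × Xs n → ℝ} (hh : H615.Bd h)
    {C : ℝ} (hC : ∀ w, |h w| ≤ C) (hC0 : 0 < C) {r : ℝ} (hr : 0 ≤ r) :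
    eG (muU ν n) (EU n b cB cF α κ) x (H317.ind (C ^ 2 * r) (Qg (muU ν n) (EU n b cB cF α κ) x
      Prod.snd h (Kset S BL FL) S)) ≤
      Real.exp (gnU ν n b VF α x + 1 - x ^ 2 * b ^ 2 * (1 - t) * n / 4 * r ^ 2) := by
  have hn0 : (0 : ℝ) < n := by exact_mod_cast hn
  have h2 := tail_Qg (S := S) (gmE (n := n) hν h0 hA b cB cF κ) measurable_snd
    (bdsU b cB cF α κ) hx hn (dj_Bst (BL := BL) (FL := FL) S) hh hC hC0 hr
  rw [tB_compl hs, gain_levelsU hν h0 hA hx hV hs] at h2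
  refine h2.trans (Real.exp_le_exp.2 ?_)
  have hS : (S.card : ℝ) ≤ n := by
    have := Finset.card_le_univ S
    rw [Fintype.card_fin] at this
    exact_mod_cast this
  have ht1 := hs.t1
  have ht0 := hs.t0
  have h3 : x ^ 2 / 4 * (b ^ 2 / n * (1 - t) * S.card) ≤ 1 := by
    have h4 : b ^ 2 / n * (1 - t) * S.card ≤ b ^ 2 / n * 1 * n := by
      have h5 : 0 ≤ 1 - t := by linarith
      gcongr
      linarith
    have h6 : b ^ 2 / n * 1 * (n : ℝ) = b ^ 2 := by field_simp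
    rw [h6] at h4
    have h7 := mul_le_mul_of_nonneg_left h4 (show 0 ≤ x ^ 2 / 4 by positivity)
    linarith
  have h8 : x ^ 2 / 4 * (b ^ 2 / n * (1 - t) * (n : ℝ) ^ 2) * r ^ 2 =
      x ^ 2 * b ^ 2 * (1 - t) * n / 4 * r ^ 2 := by
    field_simp
  rw [h8]
  linarith

/-- **Powers of `Q`**, any weight. -/
theorem mom_QU (hx : 0 < x) (hn : 0 < n) (hb : b ≠ 0) (hxb : x ^ 2 * b ^ 2 ≤ 4)
    (hV : ∀ k, 0 < VF k) (hs : ShU κ cB cF BL FL VF t u) (ht : t < 1) (S : Finset (Fin n))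
    {h : Th × Xs n → ℝ} (hh : H615.Bd h) {C : ℝ} (hC : ∀ w, |h w| ≤ C) (hC0 : 0 ≤ C)
    {g : ℝ} (hg : gnU ν n b VF α x ≤ g) (hg1 : 1 ≤ g) (p : ℕ) :
    eG (muU ν n) (EU n b cB cF α κ) x (fun z => Qg (muU ν n) (EU n b cB cF α κ) x Prod.snd h
      (Kset S BL FL) S z ^ (2 * p)) ≤
      C ^ (4 * p) * (Cp p * (4 * g / (x ^ 2 * b ^ 2 * (1 - t) * n)) ^ p) :=
  (mom_Qg (gmE (n := n) hν h0 hA b cB cF κ) measurable_snd hn hh hC (Kset S BL FL) S p).trans
    (mul_le_mul_of_nonneg_left (mom_CCU hν h0 hA hx hn hb hxb hV hs ht S hg hg1 p)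
      (by positivity))

omit hν h0 hA in
/-- the shares of the three-level system with the same fields -/
lemma sh3U (hs : ShU κ cB cF BL FL VF t u) :
    ShU κ (cb3 t) cF ({0} : Finset (Fin 3)) FL VF t u := by
  obtain ⟨e0, -, -⟩ := cb3_sq hs.t0 hs.t1
  exact ⟨sum_cb3 hs.t0 hs.t1, hs.totF, by rw [Finset.sum_singleton, e0], hs.shF⟩

/-- the four point sums depend on the shares only -/
lemma q4_congrU (hV : ∀ k, 0 < VF k) (hs : ShU κ cB cF BL FL VF t u) (S : Finset (Fin n)) :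
    eG (muU ν n) (EU n b cB cF α κ) x (fun z => ∑ p ∈ prs S, ∑ q ∈ prs S,
        cG (muU ν n) (EU n b cB cF α κ) x (Kset S BL FL) (fun w => SkS p w.2 * SkS q w.2) z ^ 2) =
      eG (muU ν n) (EU n b (cb3 t) cF α κ) x (fun z => ∑ p ∈ prs S, ∑ q ∈ prs S,
        cG (muU ν n) (EU n b (cb3 t) cF α κ) x (Kset S {0} FL)
          (fun w => SkS p w.2 * SkS q w.2) z ^ 2) := by
  have hf : ∀ a : Pair n × Pair n, Bm fun w : Th × Xs n => SkS a.1 w.2 * SkS a.2 w.2 :=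
    fun a => (H347.U.bm_SkSU a.1).mul (H347.U.bm_SkSU a.2)
  have h2 := skU_congr (I := Pair n × Pair n) (b := b) hν h0 hA hV hs (sh3U hs) S x hf
    (Φ := fun v => ∑ p ∈ prs S, ∑ q ∈ prs S, v (p, q) ^ 2)
    (Finset.measurable_sum _ fun p _ => Finset.measurable_sum _ fun q _ =>
      (measurable_pi_apply (p, q)).pow_const 2)
    (fun C => ⟨∑ _p ∈ prs S, ∑ _q ∈ prs S, C ^ 2, fun v hv' => by
      rw [abs_of_nonneg (Finset.sum_nonneg fun _ _ => Finset.sum_nonneg fun _ _ => sq_nonneg _)]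
      refine Finset.sum_le_sum fun p _ => Finset.sum_le_sum fun q _ => ?_
      rw [← sq_abs]
      exact pow_le_pow_left₀ (abs_nonneg _) (hv' (p, q)) 2⟩)
  exact h2

/-- **The four point number, any level system.** -/
theorem q4_canU (hx : 0 < x) (hx1 : x ≤ 1) (hn : 0 < n) (hb : b ≠ 0)
    (hxb : x ^ 2 * b ^ 2 ≤ 4) (hV : ∀ k, 0 < VF k) (hs : ShU κ cB cF BL FL VF t u) (ht : t < 1)
    (S : Finset (Fin n)) {g : ℝ} (hg : gnU ν n b VF α x ≤ g) (hg1 : 1 ≤ g) :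
    eG (muU ν n) (EU n b cB cF α κ) x (Q4g (muU ν n) (EU n b cB cF α κ) x (Kset S BL FL)
      (sR Prod.snd) S) ≤
      (n : ℝ) ^ 4 * (43 * g / (x ^ 2 * b ^ 2 * (1 - t) * n)) ^ 2 := by
  have hG := gmE (n := n) hν h0 hA b cB cF κ
  have hw : Wt (gs (Co n LB LF)) (Zxm (muU ν n) 1 (EU n b cB cF α κ) x) := hG.wt 1 x
  have hG3 := gmE (n := n) hν h0 hA b (cb3 t) cF κ
  have hn0 : (0 : ℝ) < n := by exact_mod_cast hn
  have hb2 : 0 < b ^ 2 := by positivity
  have ht0 := hs.t0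
  have h1t : 0 < 1 - t := by linarith
  obtain ⟨e0, e1, e2⟩ := cb3_sq hs.t0 hs.t1
  have t1 : tB n b (cb3 t) (({0, 1} : Finset (Fin 3)) \ {0}) = b ^ 2 / n * ((1 - t) / 2) := by
    have : (({0, 1} : Finset (Fin 3)) \ {0}) = {1} := by decide
    rw [this]
    unfold tB
    rw [Finset.sum_singleton, e1]
  have t2 : tB n b (cb3 t) ({2} : Finset (Fin 3)) = b ^ 2 / n * ((1 - t) / 2) := by
    unfold tB
    rw [Finset.sum_singleton, e2]
  have hpos : 0 < b ^ 2 / n * ((1 - t) / 2) := by positivity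
  have hχ : ∀ p : Pair n, Bm fun w : Th × Xs n => SkS p w.2 := fun p => H347.U.bm_SkSU p
  have h3 := num4_g (BL := ({0} : Finset (Fin 3))) (BL' := ({0, 1} : Finset (Fin 3)))
    (BL1 := ({2} : Finset (Fin 3))) hG3 (bdsU b (cb3 t) cF α κ) hχ hx hx1
    (by decide) (by decide) S FL (by rw [t1]; exact hpos) (by rw [t2]; exact hpos)
  rw [t1, t2, gain_levelsU hν h0 hA hx hV (sh3U hs)] at h3
  rw [← q4_congrU hν h0 hA hV hs S] at h3
  have bsk : ∀ p : Pair n, H615.Bd fun w : Th × Xs n => SkS p w.2 := fun p =>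
    bd_of measurable_snd (SkS p) zero_le_one fun σ => (H347.abs_SkS p σ).le
  have bQ := bm_Q4g hG x (Kset S BL FL) (fun j => bd_sR (cf := Prod.snd) measurable_snd j) S
  have bP : BM (fun z => ∑ p ∈ prs S, ∑ q ∈ prs S, cG (muU ν n) (EU n b cB cF α κ) x
        (Kset S BL FL) (fun w => SkS p w.2 * SkS q w.2) z ^ 2) :=
    BM.sum _ fun p _ => BM.sum _ fun q _ => H615.bsq (hw.bm_cx _
      ((H615.av_gm hG 1).bm ((bsk p).mul (bsk q))))
  have h4 := H615.ex_mono hw bQ ((BM.const (2 * (S.card : ℝ) ^ 2)).add (H615.bcm 8 bP))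
    fun z => q4_prs hG measurable_snd _ S z
  rw [H615.ex_add hw (BM.const _) (H615.bcm _ bP), H615.ex_const hw, H615.ex_cmul] at h4
  refine h4.trans ?_
  have h5 : 8 * ex (g1 _) (Zxm (muU ν n) 1 (EU n b cB cF α κ) x) (fun z => ∑ p ∈ prs S,
      ∑ q ∈ prs S, cG (muU ν n) (EU n b cB cF α κ) x (Kset S BL FL)
        (fun w => SkS p w.2 * SkS q w.2) z ^ 2) ≤ 8 * _ :=
    mul_le_mul_of_nonneg_left h3 (by norm_num)
  refine (add_le_add_right h5 _).trans ?_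
  have hS : (S.card : ℝ) ≤ n := by
    have := Finset.card_le_univ S
    rw [Fintype.card_fin] at this
    exact_mod_cast this
  exact q4_arith hn0 (Nat.cast_nonneg _) hS h1t (by linarith) hx hb2 hxb rfl hg
    (gnU_nonneg hν h0 hA hx) hg1

end main

end Vale.Agent.P146.H463.U
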