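import Vale.Agent.P146.H463.NeIn
import Vale.Agent.P146.H412.K8
import Vale.Agent.P146.H347.ModU

/-!
The ensemble `U` (`H281.U1`, revealed sets `Kset S BL FL` of `H347.Mod3`): moments and tails of the
overlap. Port of `H412.MomSK` and of the literal part of `H412.K8`.

* `CCu` = the second moment of the overlap over `S` given the frozen coordinates, divided by `n²`;
* `mom4_u`, `pow_u`, `mom4_num`: fourth moment, powers, explicit;
* `exp_pr`, `exp_fd`, `tail_cc`, `mom_cc`, `amp_le`, `Qu_le`, `tail_Q`, `tail_fd`.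
-/

open MeasureTheory ProbabilityTheory

namespace Vale.Agent.P146.H463

section gm

variable {κ s : Type} [Fintype κ] [DecidableEq κ] [Fintype s] [DecidableEq s]
variable {Ω : Type} [MeasurableSpace Ω] {m : Measure Ω} {M0 : ℝ} {E : κ → Ω → ℝ}
variable {σ : s → Ω → ℝ} {h : Ω → ℝ}

open Vale.Agent.P146.H196 Vale.Agent.P146.H646 Vale.Agent.P146.H615

/-- the two point number of the plain spins bounds the squares of the weighted spins -/
theorem amp_le (hG : GM m E M0) (x : ℝ) (K : Finset κ) (hh : Bd h) {C : ℝ}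
    (hC : ∀ ω, |h ω| ≤ C) (hs : ∀ j, Bd (σ j)) (S : Finset s) (z : κ → ℝ) :
    ∑ j ∈ S, cx (H347.g1 κ) K (Zxm m 1 E x) (avm m 1 E fun ω => h ω * σ j ω) z ^ 2 ≤
      C ^ 2 * √(F2 m E x K σ S z) := by
  have e0 : ∑ j ∈ S, cx (H347.g1 κ) K (Zxm m 1 E x) (avm m 1 E fun ω => h ω * σ j ω) z ^ 2 =
      m2 S (Mg m E x K h σ) z := rfl
  rw [e0]
  set M := Mg m E x K h σ with hM
  set q := m2 S M z with hq
  have hq0 : 0 ≤ q := m2_nonneg z
  set L : Ω → ℝ := fun ω => ∑ j ∈ S, M j z * σ j ω with hL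
  have hLb : Bd L := Bd.sum S fun j _ => (hs j).cmul _
  have e1 : q = cx (H347.g1 κ) K (Zxm m 1 E x) (avm m 1 E fun ω => h ω * L ω) z :=
    m2_eq hG x K hh hs S z
  have h1 : q ^ 2 ≤ C ^ 2 *
      cx (H347.g1 κ) K (Zxm m 1 E x) (avm m 1 E fun ω => L ω ^ 2) z := by
    rw [e1, ← cxav_cmul hG]
    refine (cxav_sq_le hG x K (hh.mul hLb) z).trans ?_
    refine cxav_mono hG x K (hh.mul hLb).sq (hLb.sq.cmul _) (fun ω => ?_) z
    rw [mul_pow]
    refine mul_le_mul_of_nonneg_right ?_ (sq_nonneg _)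
    calc h ω ^ 2 = |h ω| ^ 2 := (sq_abs _).symm
      _ ≤ C ^ 2 := pow_le_pow_left₀ (abs_nonneg _) (hC ω) 2
  have h2 : cx (H347.g1 κ) K (Zxm m 1 E x) (avm m 1 E fun ω => L ω ^ 2) z ≤
      q * √(F2 m E x K σ S z) := quad_cs hG x K hs S (fun j => M j z) z
  have h4 : q * q ≤ q * (C ^ 2 * √(F2 m E x K σ S z)) := by
    calc q * q = q ^ 2 := by ring
      _ ≤ _ := h1
      _ ≤ C ^ 2 * (q * √(F2 m E x K σ S z)) := mul_le_mul_of_nonneg_left h2 (sq_nonneg _)
      _ = _ := by ring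
  rcases eq_or_lt_of_le hq0 with h5 | h5
  · rw [← h5]
    exact mul_nonneg (sq_nonneg _) (Real.sqrt_nonneg _)
  · exact le_of_mul_le_mul_left h4 h5

/-- the square of the two point number is at most the four point number -/
theorem F2_sq_le (hG : GM m E M0) (x : ℝ) (K : Finset κ) (hs : ∀ j, Bd (σ j)) (S : Finset s)
    (z : κ → ℝ) : F2 m E x K σ S z ^ 2 ≤ Q4g m E x K σ S z := by
  have h1 := amp_le hG x K (h := fun _ => 1) (Bd.const 1) (C := 1) (fun _ => by norm_num)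
    (σ := fun p : s × s => fun ω => σ p.1 ω * σ p.2 ω) (fun p => (hs p.1).mul (hs p.2))
    (S ×ˢ S) z
  have e1 : ∑ j ∈ S ×ˢ S, cx (H347.g1 κ) K (Zxm m 1 E x)
      (avm m 1 E fun ω => 1 * (σ j.1 ω * σ j.2 ω)) z ^ 2 = F2 m E x K σ S z := by
    rw [Finset.sum_product]
    unfold F2
    refine Finset.sum_congr rfl fun p _ => Finset.sum_congr rfl fun q _ => ?_
    have : (fun ω => 1 * (σ p ω * σ q ω)) = fun ω => σ p ω * σ q ω := by
      funext ω; rw [one_mul]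
    simp only [this]
  have e2 : F2 m E x K (fun p : s × s => fun ω => σ p.1 ω * σ p.2 ω) (S ×ˢ S) z =
      Q4g m E x K σ S z := rfl
  rw [e1, e2, one_pow, one_mul] at h1
  calc F2 m E x K σ S z ^ 2 ≤ (√(Q4g m E x K σ S z)) ^ 2 :=
        pow_le_pow_left₀ (F2_nonneg x K σ S z) h1 2
    _ = _ := Real.sq_sqrt (Q4g_nonneg x K S z)

end gm

end Vale.Agent.P146.H463

namespace Vale.Agent.P146.H463.U

open Vale.Agent.P157.Lv Vale.Agent.P146.H646 Vale.Agent.P146.H196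
  Vale.Agent.P146.H475 Vale.Agent.P146.H325 Vale.Agent.P146.H281.U Vale.Agent.P146.H317
open Vale.Agent.P146.H347 (Co Kset Xs bd fd gd g1 Pin)
open Vale.Agent.P146.H347.U (bm_spU measurable_spU)
open Vale.Agent.P146.H412 (gs prs mem_prs Bst Fst sum_Bst sum_Fst Kset_Bst disj_Bst disj_Fst tB
  tB_nonneg coef_sq mom4_cx pow_cx gain bm_sum_sq ex_ind_exp exp_sub bm_exp m2L m4L m2L_eq m4L_eq)

set_option linter.unusedSectionVars false

variable {Th : Type} [MeasurableSpace Th] {ν : Measure Th}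
variable {n : ℕ} {LB LF : Type} [Fintype LB] [DecidableEq LB] [Fintype LF] [DecidableEq LF]
variable {b x : ℝ} {cB : LB → ℝ} {cF : LF → ℝ} {a : LF → Th → ℝ} {η : ℝ}
  {BL BL' BL1 : Finset LB} {FL FL1 : Finset LF} {S : Finset (Fin n)}

/-! ### letters -/

/-- the weight `Z ^ x` -/
noncomputable abbrev wU (ν : Measure Th) (n : ℕ) (b : ℝ) (cB : LB → ℝ) (cF : LF → ℝ)
    (a : LF → Th → ℝ) (x : ℝ) : (Co n LB LF → ℝ) → ℝ := Zxm (muU ν n) 1 (SU b cB cF a) x

/-- the thermal average -/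
noncomputable abbrev avU (ν : Measure Th) (b : ℝ) (cB : LB → ℝ) (cF : LF → ℝ)
    (a : LF → Th → ℝ) (h : Th × Xs n → ℝ) : (Co n LB LF → ℝ) → ℝ :=
  avm (muU ν n) 1 (SU b cB cF a) h

/-- the mean -/
noncomputable abbrev exU (ν : Measure Th) (n : ℕ) (b : ℝ) (cB : LB → ℝ) (cF : LF → ℝ)
    (a : LF → Th → ℝ) (x : ℝ) (f : (Co n LB LF → ℝ) → ℝ) : ℝ :=
  ex (gs (Co n LB LF)) (wU ν n b cB cF a x) f

/-- the mean given the frozen coordinates `K` -/
noncomputable abbrev cxU (ν : Measure Th) (n : ℕ) (b : ℝ) (cB : LB → ℝ) (cF : LF → ℝ)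
    (a : LF → Th → ℝ) (x : ℝ) (K : Finset (Co n LB LF)) (f : (Co n LB LF → ℝ) → ℝ)
    (z : Co n LB LF → ℝ) : ℝ :=
  cx (gs (Co n LB LF)) K (wU ν n b cB cF a x) f z

/-- the thermal average of a pair of spins -/
noncomputable abbrev av2u (ν : Measure Th) (b : ℝ) (cB : LB → ℝ) (cF : LF → ℝ)
    (a : LF → Th → ℝ) (p : Pair n) :
    (Co n LB LF → ℝ) → ℝ := avU ν b cB cF a fun w => SkS p w.2

/-- the thermal average of two pairs of spins -/
noncomputable abbrev av4u (ν : Measure Th) (b : ℝ) (cB : LB → ℝ) (cF : LF → ℝ)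
    (a : LF → Th → ℝ) (p q : Pair n) :
    (Co n LB LF → ℝ) → ℝ := avU ν b cB cF a fun w => SkS p w.2 * SkS q w.2

/-- the thermal average of a spin -/
noncomputable abbrev av1u (ν : Measure Th) (b : ℝ) (cB : LB → ℝ) (cF : LF → ℝ)
    (a : LF → Th → ℝ) (i : Fin n) :
    (Co n LB LF → ℝ) → ℝ := avU ν b cB cF a fun w => sp w.2 i

/-- the functional of the spins given the frozen coordinates -/
noncomputable def LzU (ν : Measure Th) (b : ℝ) (cB : LB → ℝ) (cF : LF → ℝ)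
    (a : LF → Th → ℝ) (x : ℝ) (K : Finset (Co n LB LF)) (z : Co n LB LF → ℝ)
    (f : Xs n → ℝ) : ℝ :=
  cxU ν n b cB cF a x K (avU ν b cB cF a fun w => f w.2) z

/-- the second moment of the overlap over `S` at the block `K`, divided by `n²` -/
noncomputable def CCu (ν : Measure Th) (n : ℕ) (b : ℝ) (cB : LB → ℝ) (cF : LF → ℝ)
    (a : LF → Th → ℝ) (x : ℝ) (K : Finset (Co n LB LF)) (S : Finset (Fin n))
    (z : Co n LB LF → ℝ) : ℝ :=
  m2L S (LzU ν b cB cF a x K z) / (n : ℝ) ^ 2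

/-- the mean square over `S` of the magnetisations weighted with `h`, at the block `K` -/
noncomputable abbrev Qu (ν : Measure Th) (n : ℕ) (b : ℝ) (cB : LB → ℝ) (cF : LF → ℝ)
    (a : LF → Th → ℝ) (x : ℝ) (h : Th × Xs n → ℝ) (K : Finset (Co n LB LF))
    (S : Finset (Fin n)) (z : Co n LB LF → ℝ) : ℝ :=
  (∑ j ∈ S, cxU ν n b cB cF a x K (avU ν b cB cF a (fun w => h w * sp w.2 j)) z ^ 2) / n

lemma cx_bd (hw : Wt (gs (Co n LB LF)) (wU ν n b cB cF a x))
    (K : Finset (Co n LB LF)) (p : Pair n) (l : LB) (z : Co n LB LF → ℝ) :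
    cxU ν n b cB cF a x K (avU ν b cB cF a (SU b cB cF a (bd LF p l))) z =
      b / √n * cB l * cxU ν n b cB cF a x K (av2u ν b cB cF a p) z := by
  have e1 : avU ν b cB cF a (SU b cB cF a (bd LF p l)) =
      fun u => b / √n * cB l * av2u ν b cB cF a p u := by
    funext u
    exact av_mul (muU ν n) 1 (SU b cB cF a) (b / √n * cB l)
      (fun w => SkS p w.2) u
  rw [e1]
  exact cx_const_mul hw _ z

lemma cx_bd2 (hw : Wt (gs (Co n LB LF)) (wU ν n b cB cF a x))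
    (K : Finset (Co n LB LF)) (p q : Pair n) (l m : LB) (z : Co n LB LF → ℝ) :
    cxU ν n b cB cF a x K (avU ν b cB cF a (fun w =>
      SU b cB cF a (bd LF p l) w * SU b cB cF a (bd LF q m) w)) z =
      b / √n * cB l * (b / √n * cB m) *
        cxU ν n b cB cF a x K (av4u ν b cB cF a p q) z := by
  have e1 : avU ν b cB cF a (fun w =>
      SU b cB cF a (bd LF p l) w * SU b cB cF a (bd LF q m) w) =
      fun u => b / √n * cB l * (b / √n * cB m) * av4u ν b cB cF a p q u := by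
    have e2 : (fun w : Th × Xs n => SU b cB cF a (bd LF p l) w *
        SU b cB cF a (bd LF q m) w) =
        fun w => b / √n * cB l * (b / √n * cB m) * (SkS p w.2 * SkS q w.2) := by
      funext w
      show b / √n * cB l * SkS p w.2 * (b / √n * cB m * SkS q w.2) = _
      ring
    funext u
    rw [e2]
    exact av_mul (muU ν n) 1 (SU b cB cF a)
      (b / √n * cB l * (b / √n * cB m)) (fun w => SkS p w.2 * SkS q w.2) u
  rw [e1]
  exact cx_const_mul hw _ z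

lemma sum_B1 (hw : Wt (gs (Co n LB LF)) (wU ν n b cB cF a x))
    (K : Finset (Co n LB LF)) (z : Co n LB LF → ℝ) :
    ∑ e ∈ Bst LF S BL, cxU ν n b cB cF a x K
        (avU ν b cB cF a (SU b cB cF a e)) z ^ 2 =
      tB n b cB BL * ∑ p ∈ prs S,
        cxU ν n b cB cF a x K (av2u ν b cB cF a p) z ^ 2 := by
  rw [sum_Bst, Finset.mul_sum]
  refine Finset.sum_congr rfl fun p _ => ?_
  unfold tB
  rw [Finset.mul_sum, Finset.sum_mul]
  refine Finset.sum_congr rfl fun l _ => ?_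
  rw [cx_bd hw, mul_pow, coef_sq]

lemma sum_B2 (hw : Wt (gs (Co n LB LF)) (wU ν n b cB cF a x))
    (K : Finset (Co n LB LF)) (z : Co n LB LF → ℝ) :
    ∑ e ∈ Bst LF S BL, ∑ f ∈ Bst LF S BL, cxU ν n b cB cF a x K
        (avU ν b cB cF a (fun w => SU b cB cF a e w * SU b cB cF a f w)) z ^ 2 =
      tB n b cB BL ^ 2 * ∑ p ∈ prs S, ∑ q ∈ prs S,
        cxU ν n b cB cF a x K (av4u ν b cB cF a p q) z ^ 2 := by
  simp only [sum_Bst]
  have h1 : ∀ p ∈ prs S, ∑ l ∈ BL, ∑ q ∈ prs S, ∑ m ∈ BL, cxU ν n b cB cF a x K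
        (avU ν b cB cF a (fun w => SU b cB cF a (bd LF p l) w *
          SU b cB cF a (bd LF q m) w)) z ^ 2 =
      ∑ q ∈ prs S, tB n b cB BL ^ 2 *
        cxU ν n b cB cF a x K (av4u ν b cB cF a p q) z ^ 2 := by
    intro p _
    rw [Finset.sum_comm]
    refine Finset.sum_congr rfl fun q _ => ?_
    have h2 : tB n b cB BL ^ 2 = ∑ l ∈ BL, ∑ m ∈ BL, b ^ 2 / n * cB l ^ 2 *
        (b ^ 2 / n * cB m ^ 2) := by
      unfold tB
      rw [pow_two, Finset.mul_sum, Finset.sum_mul_sum]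
    rw [h2, Finset.sum_mul]
    refine Finset.sum_congr rfl fun l _ => ?_
    rw [Finset.sum_mul]
    refine Finset.sum_congr rfl fun m _ => ?_
    rw [cx_bd2 hw, mul_pow, mul_pow, coef_sq, coef_sq]
  rw [Finset.sum_congr rfl h1, Finset.mul_sum]
  exact Finset.sum_congr rfl fun p _ => (Finset.mul_sum _ _ _).symm

section main

variable (hν : IsFiniteMeasure ν) (h0 : ν ≠ 0) (hA : AmU a η)
include hν h0 hA

/-- **Fourth moment of the overlap over `S`**, from the block `Kset S BL FL` to the block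
`Kset S BL' FL` (bond levels `BL' \ BL`). -/
theorem mom4_u (b : ℝ) (cB : LB → ℝ) (cF : LF → ℝ) (hx : 0 ≤ x) (hx1 : x ≤ 1)
    (hBL : BL ⊆ BL') (S : Finset (Fin n)) (FL : Finset LF)
    {Q : (Co n LB LF → ℝ) → ℝ} (hQ : BM Q) (hQK : Dep (Kset S BL FL) Q)
    (hQ0 : ∀ z, 0 ≤ Q z) (ht : 0 < tB n b cB (BL' \ BL)) :
    x ^ 2 * (tB n b cB (BL' \ BL) * exU ν n b cB cF a x (fun z => Q z * ∑ p ∈ prs S,
        ∑ q ∈ prs S, cxU ν n b cB cF a x (Kset S BL FL)
          (av4u ν b cB cF a p q) z ^ 2)) ≤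
      2 * (exU ν n b cB cF a x (fun z => Q z * ∑ p ∈ prs S,
          cxU ν n b cB cF a x (Kset S BL' FL) (av2u ν b cB cF a p) z ^ 2) -
        exU ν n b cB cF a x (fun z => Q z * ∑ p ∈ prs S,
          cxU ν n b cB cF a x (Kset S BL FL) (av2u ν b cB cF a p) z ^ 2)) +
      2 * (x ^ 2 * (tB n b cB (BL' \ BL) * exU ν n b cB cF a x (fun z => Q z *
        (∑ p ∈ prs S, cxU ν n b cB cF a x (Kset S BL' FL)
          (av2u ν b cB cF a p) z ^ 2) ^ 2))) := by
  have hG := gmU (n := n) b cB cF η hν h0 hA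
  have hw : Wt (gs (Co n LB LF)) (wU ν n b cB cF a x) := hG.wt 1 x
  have h1 := mom4_cx (K := Kset S BL FL) (A0 := Bst LF S (BL' \ BL)) hG 1 hx hx1
    (disj_Bst Finset.disjoint_sdiff) hQ hQK hQ0
  rw [Kset_Bst hBL] at h1
  have e2 := fun z => sum_B2 (S := S) (BL := BL' \ BL) hw (Kset S BL FL) z
  have e1 := fun z => sum_B1 (S := S) (BL := BL' \ BL) hw (Kset S BL' FL) z
  have e0 := fun z => sum_B1 (S := S) (BL := BL' \ BL) hw (Kset S BL FL) z
  simp only [one_pow, one_mul] at h1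
  set t := tB n b cB (BL' \ BL) with htd
  have f2 : ex (gs (Co n LB LF)) (Zxm (muU ν n) 1 (SU b cB cF a) x)
      (fun z => Q z * ∑ e ∈ Bst LF S (BL' \ BL), ∑ f ∈ Bst LF S (BL' \ BL),
        cx (gs (Co n LB LF)) (Kset S BL FL)
          (Zxm (muU ν n) 1 (SU b cB cF a) x)
          (avm (muU ν n) 1 (SU b cB cF a) fun w =>
            SU b cB cF a e w * SU b cB cF a f w) z ^ 2) =
      t ^ 2 * exU ν n b cB cF a x (fun z => Q z * ∑ p ∈ prs S,
        ∑ q ∈ prs S, cxU ν n b cB cF a x (Kset S BL FL)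
          (av4u ν b cB cF a p q) z ^ 2) := by
    rw [← hw.ex_const_mul]
    congr 1
    funext z
    rw [e2 z]
    ring
  have f1 : ∀ (BX : Finset LB), (∀ z, ∑ e ∈ Bst LF S (BL' \ BL), cxU ν n b cB cF a x
        (Kset S BX FL) (avU ν b cB cF a (SU b cB cF a e)) z ^ 2 =
      t * ∑ p ∈ prs S, cxU ν n b cB cF a x (Kset S BX FL)
        (av2u ν b cB cF a p) z ^ 2) →
      ex (gs (Co n LB LF)) (Zxm (muU ν n) 1 (SU b cB cF a) x)
      (fun z => Q z * ∑ e ∈ Bst LF S (BL' \ BL), cx (gs (Co n LB LF)) (Kset S BX FL)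
          (Zxm (muU ν n) 1 (SU b cB cF a) x)
          (avm (muU ν n) 1 (SU b cB cF a)
            (SU b cB cF a e)) z ^ 2) =
      t * exU ν n b cB cF a x (fun z => Q z * ∑ p ∈ prs S,
        cxU ν n b cB cF a x (Kset S BX FL) (av2u ν b cB cF a p) z ^ 2) := by
    intro BX hBX
    rw [← hw.ex_const_mul]
    congr 1
    funext z
    rw [hBX z]
    ring
  have f3 : ex (gs (Co n LB LF)) (Zxm (muU ν n) 1 (SU b cB cF a) x)
      (fun z => Q z * (∑ e ∈ Bst LF S (BL' \ BL), cx (gs (Co n LB LF)) (Kset S BL' FL)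
          (Zxm (muU ν n) 1 (SU b cB cF a) x)
          (avm (muU ν n) 1 (SU b cB cF a)
            (SU b cB cF a e)) z ^ 2) ^ 2) =
      t ^ 2 * exU ν n b cB cF a x (fun z => Q z * (∑ p ∈ prs S,
        cxU ν n b cB cF a x (Kset S BL' FL)
          (av2u ν b cB cF a p) z ^ 2) ^ 2) := by
    rw [← hw.ex_const_mul]
    congr 1
    funext z
    rw [e1 z]
    ring
  rw [f2, f1 BL' e1, f1 BL e0, f3] at h1
  refine le_of_mul_le_mul_left ?_ ht
  refine le_trans (le_of_eq ?_) (h1.trans (le_of_eq ?_))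
  · ring
  · ring

/-- **Powers of the squared norm of the matrix of conditional two-point functions**, from the
hidden bond levels. -/
theorem pow_u (b : ℝ) (cB : LB → ℝ) (cF : LF → ℝ) (hx : 0 < x)
    (h1 : Disjoint BL BL1) (S : Finset (Fin n)) (FL : Finset LF) (p : ℕ) :
    exU ν n b cB cF a x (fun z => (x ^ 2 / 2 * (tB n b cB BL1 * ∑ q ∈ prs S,
        cxU ν n b cB cF a x (Kset S BL FL) (av2u ν b cB cF a q) z ^ 2)) ^ p) ≤
      2 ^ (p - 1) * (gain (muU ν n) 1 x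
        (SU (n := n) b cB cF a) ^ p + p.factorial) := by
  have hG := gmU (n := n) b cB cF η hν h0 hA
  have hw : Wt (gs (Co n LB LF)) (wU ν n b cB cF a x) := hG.wt 1 x
  have h2 := pow_cx hG 1 hx (Kset S BL FL) (Bst LF S BL1) (disj_Bst h1) p
  simp only [one_pow, one_mul] at h2
  refine le_trans (le_of_eq ?_) h2
  congr 1
  funext z
  rw [sum_B1 hw]

/-- **The fourth moment of the overlap over `S`, explicit**: `t` is the share of the bond levels
between the two blocks, `t1` the share of the levels which stay hidden. -/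
theorem mom4_num (b : ℝ) (cB : LB → ℝ) (cF : LF → ℝ) (hx : 0 < x) (hx1 : x ≤ 1)
    (hBL : BL ⊆ BL') (h1 : Disjoint BL' BL1) (S : Finset (Fin n)) (FL : Finset LF)
    (ht : 0 < tB n b cB (BL' \ BL)) (ht1 : 0 < tB n b cB BL1) :
    exU ν n b cB cF a x (fun z => ∑ p ∈ prs S,
        ∑ q ∈ prs S, cxU ν n b cB cF a x (Kset S BL FL)
          (av4u ν b cB cF a p q) z ^ 2) ≤
      4 * (gain (muU ν n) 1 x
        (SU (n := n) b cB cF a) + 1) /
          (x ^ 4 * (tB n b cB (BL' \ BL) * tB n b cB BL1)) +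
      16 * (gain (muU ν n) 1 x
        (SU (n := n) b cB cF a) ^ 2 + 2) / (x ^ 4 * tB n b cB BL1 ^ 2) := by
  have hG := gmU (n := n) b cB cF η hν h0 hA
  have hw : Wt (gs (Co n LB LF)) (wU ν n b cB cF a x) := hG.wt 1 x
  set g := gain (muU ν n) 1 x (SU (n := n) b cB cF a) with hg
  set t := tB n b cB (BL' \ BL) with htd
  set t1 := tB n b cB BL1 with ht1d
  set Y : (Co n LB LF → ℝ) → ℝ := fun z => ∑ q ∈ prs S,
    cxU ν n b cB cF a x (Kset S BL' FL) (av2u ν b cB cF a q) z ^ 2 with hY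
  have a1 := mom4_u hν h0 hA b cB cF hx.le hx1 hBL S FL (Q := fun _ => 1) (BM.const 1)
    (fun _ _ => rfl) (fun _ => zero_le_one) ht
  simp only [one_mul] at a1
  have a2 := pow_u hν h0 hA b cB cF hx h1 S FL 1
  have a3 := pow_u hν h0 hA b cB cF hx h1 S FL 2
  have b2 : exU ν n b cB cF a x (fun z => (x ^ 2 / 2 * (t1 * Y z)) ^ 1) =
      x ^ 2 / 2 * t1 * exU ν n b cB cF a x Y := by
    show ex _ _ _ = _ * ex _ _ _
    rw [← hw.ex_const_mul]
    congr 1
    funext z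
    ring
  have b3 : exU ν n b cB cF a x (fun z => (x ^ 2 / 2 * (t1 * Y z)) ^ 2) =
      (x ^ 2 / 2 * t1) ^ 2 * exU ν n b cB cF a x (fun z => Y z ^ 2) := by
    show ex _ _ _ = _ * ex _ _ _
    rw [← hw.ex_const_mul]
    congr 1
    funext z
    ring
  have a2' : x ^ 2 / 2 * t1 * exU ν n b cB cF a x Y ≤ g + 1 := by
    rw [← b2]
    refine a2.trans (le_of_eq ?_)
    norm_num
    rfl
  have a3' : (x ^ 2 / 2 * t1) ^ 2 * exU ν n b cB cF a x (fun z => Y z ^ 2) ≤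
      2 * (g ^ 2 + 2) := by
    rw [← b3]
    refine a3.trans (le_of_eq ?_)
    norm_num [Nat.factorial]
    rfl
  have bm2 : ∀ q : Pair n, BM (av2u (LB := LB) (LF := LF) ν b cB cF a q) := by
    intro q
    have := H347.dmx n
    refine hG.bm_avm 1 (Bm.of (C := 1) ?_ fun w => ?_)
    · exact (measurable_of_finite (fun σ : Xs n => SkS q σ)).comp measurable_snd
    · unfold SkS
      rw [abs_mul]
      have k1 := abs_sp_le w.2 q.1.1
      have k2 := abs_sp_le w.2 q.1.2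
      exact mul_le_one₀ k1 (abs_nonneg _) k2
  have hYK : 0 ≤ exU ν n b cB cF a x (fun z => ∑ p ∈ prs S,
      cxU ν n b cB cF a x (Kset S BL FL) (av2u ν b cB cF a p) z ^ 2) :=
    hw.ex_nonneg (bm_sum_sq _ fun p _ => hw.bm_cx _ (bm2 p)) fun z =>
      Finset.sum_nonneg fun _ _ => sq_nonneg _
  have hx2 : 0 < x ^ 2 := by positivity
  set E4 := exU ν n b cB cF a x (fun z => ∑ p ∈ prs S,
        ∑ q ∈ prs S, cxU ν n b cB cF a x (Kset S BL FL)
          (av4u ν b cB cF a p q) z ^ 2) with hE4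
  set E2 := exU ν n b cB cF a x Y with hE2
  set E22 := exU ν n b cB cF a x (fun z => Y z ^ 2) with hE22
  have k1 : E4 ≤ 2 / (x ^ 2 * t) * E2 + 2 * E22 := by
    have k2 : x ^ 2 * t * E4 ≤ x ^ 2 * t * (2 / (x ^ 2 * t) * E2 + 2 * E22) := by
      have k3 : x ^ 2 * t * (2 / (x ^ 2 * t) * E2 + 2 * E22) =
          2 * E2 + 2 * (x ^ 2 * (t * E22)) := by
        field_simp
      rw [k3]
      linarith
    exact le_of_mul_le_mul_left k2 (by positivity)
  have k4 : E2 ≤ 2 * (g + 1) / (x ^ 2 * t1) := by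
    rw [le_div_iff₀ (by positivity)]
    linarith
  have k5 : E22 ≤ 8 * (g ^ 2 + 2) / (x ^ 4 * t1 ^ 2) := by
    rw [le_div_iff₀ (by positivity)]
    have : (x ^ 2 / 2 * t1) ^ 2 * E22 = E22 * (x ^ 4 * t1 ^ 2) / 4 := by ring
    linarith
  calc E4 ≤ 2 / (x ^ 2 * t) * E2 + 2 * E22 := k1
    _ ≤ 2 / (x ^ 2 * t) * (2 * (g + 1) / (x ^ 2 * t1)) +
        2 * (8 * (g ^ 2 + 2) / (x ^ 4 * t1 ^ 2)) := by
        refine add_le_add (mul_le_mul_of_nonneg_left k4 (by positivity)) (by linarith)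
    _ = _ := by
        field_simp
        ring

end main

lemma cx_fd (hw : Wt (gs (Co n LB LF)) (wU ν n b cB cF a x))
    (K : Finset (Co n LB LF)) (i : Fin n) (l : LF) (z : Co n LB LF → ℝ) :
    cxU ν n b cB cF a x K (avU ν b cB cF a (SU b cB cF a (fd LB i l))) z =
      cF l * cxU ν n b cB cF a x K (avU ν b cB cF a fun w => a l w.1 * sp w.2 i) z := by
  have e1 : avU ν b cB cF a (SU b cB cF a (fd LB i l)) =
      fun u => cF l * avU ν b cB cF a (fun w => a l w.1 * sp w.2 i) u := by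
    have e2 : (SU b cB cF a (fd LB i l) : Th × Xs n → ℝ) =
        fun w => cF l * (a l w.1 * sp w.2 i) := by
      funext w
      show cF l * a l w.1 * sp w.2 i = _
      ring
    funext u
    rw [e2]
    exact av_mul (muU ν n) 1 (SU b cB cF a) (cF l) (fun w => a l w.1 * sp w.2 i) u
  rw [e1]
  exact cx_const_mul hw _ z

lemma sum_F1 (hw : Wt (gs (Co n LB LF)) (wU ν n b cB cF a x))
    (K : Finset (Co n LB LF)) (FL1 : Finset LF) {r : Th → ℝ} (hr : ∀ l ∈ FL1, a l = r)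
    (z : Co n LB LF → ℝ) :
    ∑ e ∈ Fst n LB FL1, cxU ν n b cB cF a x K
        (avU ν b cB cF a (SU b cB cF a e)) z ^ 2 =
      (∑ l ∈ FL1, cF l ^ 2) * ∑ i : Fin n,
        cxU ν n b cB cF a x K (avU ν b cB cF a fun w => r w.1 * sp w.2 i) z ^ 2 := by
  rw [sum_Fst, Finset.mul_sum]
  refine Finset.sum_congr rfl fun i _ => ?_
  rw [Finset.sum_mul]
  refine Finset.sum_congr rfl fun l hl => ?_
  rw [cx_fd hw, mul_pow, hr l hl]

section main

variable (hν : IsFiniteMeasure ν) (h0 : ν ≠ 0) (hA : AmU a η)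
include hν h0 hA

lemma LzU_one (x b : ℝ) (cB : LB → ℝ) (cF : LF → ℝ) (K : Finset (Co n LB LF))
    (z : Co n LB LF → ℝ) : LzU ν b cB cF a x K z (fun _ => 1) = 1 := by
  have hG := gmU (n := n) b cB cF η hν h0 hA
  have hw : Wt (gs (Co n LB LF)) (wU ν n b cB cF a x) := hG.wt 1 x
  have e : avU (n := n) (LB := LB) (LF := LF) ν b cB cF a (fun _ => (1 : ℝ)) =
      fun _ => 1 := by
    funext u
    exact hG.av_one 1 u
  unfold LzU
  rw [e]
  exact cx_one hw z

/-- **Exponential moment from the hidden bond levels `BL1`**, at the block `Kset S BL FL`. -/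
theorem exp_pr (b : ℝ) (cB : LB → ℝ) (cF : LF → ℝ) (hx : 0 < x)
    (h1 : Disjoint BL BL1) (S : Finset (Fin n)) (FL : Finset LF) :
    exU ν n b cB cF a x (fun z => Real.exp (x ^ 2 / 2 * (tB n b cB BL1 * ∑ q ∈ prs S,
        cxU ν n b cB cF a x (Kset S BL FL) (av2u ν b cB cF a q) z ^ 2))) ≤
      Real.exp (gain (muU ν n) 1 x
        (SU (n := n) b cB cF a)) := by
  have hG := gmU (n := n) b cB cF η hν h0 hA
  have hw : Wt (gs (Co n LB LF)) (wU ν n b cB cF a x) := hG.wt 1 x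
  have h2 := exp_sub hG 1 hx (Kset S BL FL) (Bst LF S BL1) (disj_Bst h1)
  simp only [one_pow, one_mul] at h2
  refine le_trans (le_of_eq ?_) h2
  congr 1
  funext z
  rw [sum_B1 hw]

/-- **Exponential moment from the hidden field levels `FL1`** (of the amplitude `r`), all
sites. -/
theorem exp_fd (b : ℝ) (cB : LB → ℝ) (cF : LF → ℝ) (hx : 0 < x)
    (h1 : Disjoint FL FL1) {r : Th → ℝ} (hr : ∀ l ∈ FL1, a l = r) (S : Finset (Fin n))
    (BL : Finset LB) :
    exU ν n b cB cF a x (fun z => Real.exp (x ^ 2 / 2 * ((∑ l ∈ FL1, cF l ^ 2) *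
        ∑ i : Fin n, cxU ν n b cB cF a x (Kset S BL FL)
          (avU ν b cB cF a fun w => r w.1 * sp w.2 i) z ^ 2))) ≤
      Real.exp (gain (muU ν n) 1 x (SU (n := n) b cB cF a)) := by
  have hG := gmU (n := n) b cB cF η hν h0 hA
  have hw : Wt (gs (Co n LB LF)) (wU ν n b cB cF a x) := hG.wt 1 x
  have h2 := exp_sub hG 1 hx (Kset S BL FL) (Fst n LB FL1) (disj_Fst h1)
  simp only [one_pow, one_mul] at h2
  refine le_trans (le_of_eq ?_) h2
  congr 1
  funext z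
  rw [sum_F1 hw _ _ hr]

omit hν h0 hA in
/-- the second moment of the overlap given the frozen coordinates, in terms of the pairs -/
lemma CCu_prs (hν : IsFiniteMeasure ν) (h0 : ν ≠ 0) (hA : AmU a η) (x b : ℝ) (cB : LB → ℝ)
    (cF : LF → ℝ) (K : Finset (Co n LB LF)) (S : Finset (Fin n)) (z : Co n LB LF → ℝ) :
    CCu ν n b cB cF a x K S z = (S.card + 2 * ∑ q ∈ prs S,
      cxU ν n b cB cF a x K (av2u ν b cB cF a q) z ^ 2) / (n : ℝ) ^ 2 := by
  unfold CCu
  congr 1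
  exact m2L_eq (S := S) (LzU_one hν h0 hA x b cB cF K z)

end main

section tails

variable (hν : IsFiniteMeasure ν) (h0 : ν ≠ 0) (hA : AmU a η)
include hν h0 hA

lemma bm_av2 (b : ℝ) (cB : LB → ℝ) (cF : LF → ℝ) (q : Pair n) :
    BM (av2u (LB := LB) (LF := LF) ν b cB cF a q) := by
  have hG := gmU (n := n) b cB cF η hν h0 hA
  have := H347.dmx n
  refine hG.bm_avm 1 (Bm.of (C := 1) ?_ fun w => ?_)
  · exact (measurable_of_finite (fun σ : Xs n => SkS q σ)).comp measurable_snd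
  · unfold SkS
    rw [abs_mul]
    have k1 := abs_sp_le w.2 q.1.1
    have k2 := abs_sp_le w.2 q.1.2
    exact mul_le_one₀ k1 (abs_nonneg _) k2

lemma CCu_nonneg (x b : ℝ) (cB : LB → ℝ) (cF : LF → ℝ)
    (K : Finset (Co n LB LF)) (S : Finset (Fin n)) (z : Co n LB LF → ℝ) :
    0 ≤ CCu ν n b cB cF a x K S z := by
  rw [CCu_prs hν h0 hA]
  have : 0 ≤ ∑ q ∈ prs S, cxU ν n b cB cF a x K (av2u ν b cB cF a q) z ^ 2 :=
    Finset.sum_nonneg fun _ _ => sq_nonneg _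
  positivity

lemma bm_CCu (x b : ℝ) (cB : LB → ℝ) (cF : LF → ℝ)
    (K : Finset (Co n LB LF)) (S : Finset (Fin n)) :
    BM (CCu ν n b cB cF a x K S) := by
  have hG := gmU (n := n) b cB cF η hν h0 hA
  have hw : Wt (gs (Co n LB LF)) (wU ν n b cB cF a x) := hG.wt 1 x
  have bm2 : ∀ q : Pair n, BM (av2u (LB := LB) (LF := LF) ν b cB cF a q) :=
    bm_av2 hν h0 hA b cB cF
  have e : CCu ν n b cB cF a x K S = fun z => 1 / (n : ℝ) ^ 2 * (S.card + 2 * ∑ q ∈ prs S,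
      cxU ν n b cB cF a x K (av2u ν b cB cF a q) z ^ 2) := by
    funext z
    rw [CCu_prs hν h0 hA]
    ring
  rw [e]
  exact H615.bcm _ ((BM.const _).add (H615.bcm _ (bm_sum_sq _ fun q _ => hw.bm_cx K (bm2 q))))

/-- **Tail of the second moment of the overlap**, from the hidden bond levels `BL1`. -/
theorem tail_cc (b : ℝ) (cB : LB → ℝ) (cF : LF → ℝ) (hx : 0 < x) (hn : 0 < n)
    (h1 : Disjoint BL BL1) (S : Finset (Fin n)) (FL : Finset LF) (r : ℝ) :
    exU ν n b cB cF a x (ind r (CCu ν n b cB cF a x (Kset S BL FL) S)) ≤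
      Real.exp (gain (muU ν n) 1 x
        (SU (n := n) b cB cF a) + x ^ 2 / 4 * (tB n b cB BL1 * S.card) -
        x ^ 2 / 4 * (tB n b cB BL1 * (n : ℝ) ^ 2) * r) := by
  have hG := gmU (n := n) b cB cF η hν h0 hA
  have hw : Wt (gs (Co n LB LF)) (wU ν n b cB cF a x) := hG.wt 1 x
  have hn0 : (0 : ℝ) < n := by exact_mod_cast hn
  have ht := tB_nonneg n b cB BL1
  refine ex_ind_exp hw (bm_CCu hν h0 hA x b cB cF _ S) (by positivity) ?_
  have h2 := exp_pr hν h0 hA b cB cF hx h1 S FL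
  have e : (fun z => Real.exp (x ^ 2 / 4 * (tB n b cB BL1 * (n : ℝ) ^ 2) *
      CCu ν n b cB cF a x (Kset S BL FL) S z)) =
      fun z => Real.exp (x ^ 2 / 4 * (tB n b cB BL1 * S.card)) *
        Real.exp (x ^ 2 / 2 * (tB n b cB BL1 * ∑ q ∈ prs S,
        cxU ν n b cB cF a x (Kset S BL FL) (av2u ν b cB cF a q) z ^ 2)) := by
    funext z
    rw [← Real.exp_add]
    congr 1
    rw [CCu_prs hν h0 hA]
    field_simp
    ring
  rw [e, H615.ex_cmul, add_comm, Real.exp_add]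
  exact mul_le_mul_of_nonneg_left h2 (Real.exp_pos _).le

/-- **Powers of the second moment of the overlap.** -/
theorem mom_cc (b : ℝ) (cB : LB → ℝ) (cF : LF → ℝ) (hx : 0 < x) (hn : 0 < n)
    (h1 : Disjoint BL BL1) (S : Finset (Fin n)) (FL : Finset LF) (ht : 0 < tB n b cB BL1)
    (p : ℕ) :
    exU ν n b cB cF a x
        (fun z => CCu ν n b cB cF a x (Kset S BL FL) S z ^ p) ≤
      2 ^ (p - 1) * ((S.card / (n : ℝ) ^ 2) ^ p +
        (4 / (x ^ 2 * (tB n b cB BL1 * (n : ℝ) ^ 2))) ^ p *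
        (2 ^ (p - 1) * (gain (muU ν n) 1 x
        (SU (n := n) b cB cF a) ^ p + p.factorial))) := by
  have hG := gmU (n := n) b cB cF η hν h0 hA
  have hw : Wt (gs (Co n LB LF)) (wU ν n b cB cF a x) := hG.wt 1 x
  have hn0 : (0 : ℝ) < n := by exact_mod_cast hn
  have bpow : ∀ {f : (Co n LB LF → ℝ) → ℝ}, BM f → ∀ q : ℕ, BM fun z => f z ^ q := by
    intro f hf q
    induction q with
    | zero => simpa using BM.const (κ := Co n LB LF) 1
    | succ q ih => simpa only [pow_succ] using ih.mul hf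
  have bm2 : ∀ q : Pair n, BM (av2u (LB := LB) (LF := LF) ν b cB cF a q) :=
    bm_av2 hν h0 hA b cB cF
  set Y : (Co n LB LF → ℝ) → ℝ := fun z => x ^ 2 / 2 * (tB n b cB BL1 * ∑ q ∈ prs S,
    cxU ν n b cB cF a x (Kset S BL FL) (av2u ν b cB cF a q) z ^ 2) with hY
  have bY : BM Y := H615.bcm _ (H615.bcm _ (bm_sum_sq _ fun q _ => hw.bm_cx _ (bm2 q)))
  have hY0 : ∀ z, 0 ≤ Y z := by
    intro z
    have : 0 ≤ ∑ q ∈ prs S,
      cxU ν n b cB cF a x (Kset S BL FL) (av2u ν b cB cF a q) z ^ 2 :=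
      Finset.sum_nonneg fun _ _ => sq_nonneg _
    rw [hY]
    positivity
  have h2 := pow_u hν h0 hA b cB cF hx h1 S FL p
  have key : ∀ z, CCu ν n b cB cF a x (Kset S BL FL) S z ^ p ≤
      2 ^ (p - 1) * (S.card / (n : ℝ) ^ 2) ^ p +
      2 ^ (p - 1) * (4 / (x ^ 2 * (tB n b cB BL1 * (n : ℝ) ^ 2))) ^ p * Y z ^ p := by
    intro z
    have e1 : CCu ν n b cB cF a x (Kset S BL FL) S z = S.card / (n : ℝ) ^ 2 +
        4 / (x ^ 2 * (tB n b cB BL1 * (n : ℝ) ^ 2)) * Y z := by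
      rw [CCu_prs hν h0 hA]
      simp only [hY]
      field_simp
      ring
    rw [e1]
    have h3 := add_pow_le (show (0 : ℝ) ≤ S.card / (n : ℝ) ^ 2 by positivity)
      (show 0 ≤ 4 / (x ^ 2 * (tB n b cB BL1 * (n : ℝ) ^ 2)) * Y z from
        mul_nonneg (by positivity) (hY0 z)) p
    refine h3.trans (le_of_eq ?_)
    rw [mul_pow (4 / (x ^ 2 * (tB n b cB BL1 * (n : ℝ) ^ 2)))]
    ring
  refine (H615.ex_mono hw (bpow (bm_CCu hν h0 hA x b cB cF _ S) p)
    ((BM.const _).add (H615.bcm _ (bpow bY p))) key).trans ?_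
  rw [H615.ex_add hw (BM.const _) (H615.bcm _ (bpow bY p)), H615.ex_const hw, H615.ex_cmul]
  have h4 := mul_le_mul_of_nonneg_left h2
    (show 0 ≤ 2 ^ (p - 1) * (4 / (x ^ 2 * (tB n b cB BL1 * (n : ℝ) ^ 2))) ^ p by positivity)
  refine (add_le_add_right h4 _).trans (le_of_eq ?_)
  ring

omit hν h0 hA in
lemma F2_CCu (x b : ℝ) (cB : LB → ℝ) (cF : LF → ℝ) (hn : 0 < n)
    (K : Finset (Co n LB LF)) (S : Finset (Fin n)) (z : Co n LB LF → ℝ) :
    F2 (muU ν n) (SU b cB cF a) x K (fun (j : Fin n) (w : Th × Xs n) => sp w.2 j) S z =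
      (n : ℝ) ^ 2 * CCu ν n b cB cF a x K S z := by
  have hn0 : (0 : ℝ) < n := by exact_mod_cast hn
  unfold CCu
  rw [mul_div_cancel₀ _ (by positivity : ((n : ℝ) ^ 2) ≠ 0)]
  rfl

/-- `Q ≤ C² √CC`, pointwise -/
lemma Qu_le {h : Th × Xs n → ℝ} (hh : Bm h) {C : ℝ} (hC : ∀ w, |h w| ≤ C)
    (x b : ℝ) (cB : LB → ℝ) (cF : LF → ℝ) (hn : 0 < n)
    (K : Finset (Co n LB LF)) (S : Finset (Fin n)) (z : Co n LB LF → ℝ) :
    Qu ν n b cB cF a x h K S z ≤ C ^ 2 * √(CCu ν n b cB cF a x K S z) := by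
  have hG := gmU (n := n) b cB cF η hν h0 hA
  have hn0 : (0 : ℝ) < n := by exact_mod_cast hn
  have h1 := amp_le (σ := fun (j : Fin n) (w : Th × Xs n) => sp w.2 j) hG x K
    (h := h) ⟨hh.meas, hh.bd⟩ hC (fun j => ⟨(bm_spU j).meas, (bm_spU j).bd⟩) S z
  rw [F2_CCu x b cB cF hn, Real.sqrt_mul (by positivity), Real.sqrt_sq hn0.le] at h1
  unfold Qu
  rw [div_le_iff₀ hn0]
  refine h1.trans (le_of_eq ?_)
  ring

/-- **Tail of `Q`**, from the tail of the second moment of the overlap. -/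
theorem tail_Q (b : ℝ) (cB : LB → ℝ) (cF : LF → ℝ) (hx : 0 < x) (hn : 0 < n)
    (h1 : Disjoint BL BL1) (S : Finset (Fin n)) (FL : Finset LF) {h : Th × Xs n → ℝ}
    (hh : Bm h) {C : ℝ} (hC : ∀ w, |h w| ≤ C) (hC0 : 0 < C) {r : ℝ} (hr : 0 ≤ r) :
    exU ν n b cB cF a x (ind (C ^ 2 * r)
        (Qu ν n b cB cF a x h (Kset S BL FL) S)) ≤
      Real.exp (gain (muU ν n) 1 x
        (SU (n := n) b cB cF a) + x ^ 2 / 4 * (tB n b cB BL1 * S.card) -
        x ^ 2 / 4 * (tB n b cB BL1 * (n : ℝ) ^ 2) * r ^ 2) := by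
  have hG := gmU (n := n) b cB cF η hν h0 hA
  have hw : Wt (gs (Co n LB LF)) (wU ν n b cB cF a x) := hG.wt 1 x
  refine le_trans ?_ (tail_cc hν h0 hA b cB cF hx hn h1 S FL (r ^ 2))
  have hQm : Measurable (Qu ν n b cB cF a x h (Kset S BL FL) S) := by
    have hm : ∀ j : Fin n, BM (avU (LB := LB) (LF := LF) ν b cB cF a
        (fun w => h w * sp w.2 j)) := fun j => hG.bm_avm 1 (hh.mul (bm_spU j))
    exact (bm_sum_sq S fun j _ => hw.bm_cx _ (hm j)).meas.div_const _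
  refine H615.ex_mono hw (bm_ind hQm _) (bm_ind (bm_CCu hν h0 hA x b cB cF _ S).meas _) fun z => ?_
  unfold ind
  have h2 := Qu_le hν h0 hA hh hC x b cB cF hn (Kset S BL FL) S z
  split_ifs with h3 h4 h4
  · exact le_rfl
  · exfalso
    have h5 : C ^ 2 * r < C ^ 2 * √(CCu ν n b cB cF a x (Kset S BL FL) S z) :=
      h3.trans_le h2
    have h6 := lt_of_mul_lt_mul_left h5 (by positivity)
    exact h4 ((Real.lt_sqrt hr).1 h6)
  · exact zero_le_one
  · exact le_rfl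

/-- **Tail of `Q` (of the amplitude `r`) over any set of sites**, from the hidden field levels
`FL1` of the amplitude `r`. -/
theorem tail_fd (b : ℝ) (cB : LB → ℝ) (cF : LF → ℝ) (hx : 0 < x) (hn : 0 < n)
    (h1 : Disjoint FL FL1) {r : Th → ℝ} (hr : ∀ l ∈ FL1, a l = r) (hrm : Measurable r)
    (hrb : ∀ θ, |r θ| ≤ 1 + η) (S S1 : Finset (Fin n)) (BL : Finset LB) (u : ℝ) :
    exU ν n b cB cF a x (ind u (fun z => (∑ i ∈ S1,
        cxU ν n b cB cF a x (Kset S BL FL)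
          (avU ν b cB cF a fun w => r w.1 * sp w.2 i) z ^ 2) / n)) ≤
      Real.exp (gain (muU ν n) 1 x (SU (n := n) b cB cF a) -
        x ^ 2 / 2 * ((∑ l ∈ FL1, cF l ^ 2) * n) * u) := by
  have hG := gmU (n := n) b cB cF η hν h0 hA
  have hw : Wt (gs (Co n LB LF)) (wU ν n b cB cF a x) := hG.wt 1 x
  have hn0 : (0 : ℝ) < n := by exact_mod_cast hn
  have hf : 0 ≤ ∑ l ∈ FL1, cF l ^ 2 := Finset.sum_nonneg fun _ _ => sq_nonneg _
  have hm : ∀ j : Fin n, BM (avU (LB := LB) (LF := LF) ν b cB cF a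
      fun w => r w.1 * sp w.2 j) := fun j =>
    hG.bm_avm 1 (H347.U.bm_fun_sp hrm hrb j)
  have hb : ∀ T : Finset (Fin n), BM fun z => (∑ i ∈ T,
        cxU ν n b cB cF a x (Kset S BL FL)
          (avU ν b cB cF a fun w => r w.1 * sp w.2 i) z ^ 2) / n := by
    intro T
    have e : (fun z => (∑ i ∈ T, cxU ν n b cB cF a x (Kset S BL FL)
        (avU ν b cB cF a fun w => r w.1 * sp w.2 i) z ^ 2) / (n : ℝ)) =
        fun z => 1 / (n : ℝ) * ∑ i ∈ T, cxU ν n b cB cF a x (Kset S BL FL)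
          (avU ν b cB cF a fun w => r w.1 * sp w.2 i) z ^ 2 := by
      funext z
      ring
    rw [e]
    exact H615.bcm _ (bm_sum_sq _ fun q _ => hw.bm_cx _ (hm q))
  have h2 := exp_fd hν h0 hA b cB cF hx h1 hr S BL
  refine ex_ind_exp hw (hb S1) (by positivity) (le_trans ?_ h2)
  have hbu : BM fun z => Real.exp (x ^ 2 / 2 * ((∑ l ∈ FL1, cF l ^ 2) *
      ∑ i : Fin n, cxU ν n b cB cF a x (Kset S BL FL)
        (avU ν b cB cF a fun w => r w.1 * sp w.2 i) z ^ 2)) :=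
    bm_exp (H615.bcm _ (bm_sum_sq _ fun q _ => hw.bm_cx _ (hm q))) _
  refine H615.ex_mono hw (bm_exp (hb S1) _) hbu fun z => Real.exp_le_exp.2 ?_
  have h3 : ∑ i ∈ S1, cxU ν n b cB cF a x (Kset S BL FL)
      (avU ν b cB cF a fun w => r w.1 * sp w.2 i) z ^ 2 ≤
      ∑ i : Fin n, cxU ν n b cB cF a x (Kset S BL FL)
      (avU ν b cB cF a fun w => r w.1 * sp w.2 i) z ^ 2 :=
    Finset.sum_le_sum_of_subset_of_nonneg (Finset.subset_univ _) fun _ _ _ => sq_nonneg _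
  have e : x ^ 2 / 2 * ((∑ l ∈ FL1, cF l ^ 2) * n) * ((∑ i ∈ S1,
      cxU ν n b cB cF a x (Kset S BL FL)
        (avU ν b cB cF a fun w => r w.1 * sp w.2 i) z ^ 2) / n) =
      x ^ 2 / 2 * ((∑ l ∈ FL1, cF l ^ 2) * ∑ i ∈ S1,
      cxU ν n b cB cF a x (Kset S BL FL)
        (avU ν b cB cF a fun w => r w.1 * sp w.2 i) z ^ 2) := by
    field_simp
  rw [e]
  exact mul_le_mul_of_nonneg_left (mul_le_mul_of_nonneg_left h3 hf) (by positivity)

end tails

/-! ### the four point number -/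

lemma q4_m4L (K : Finset (Co n LB LF)) (S : Finset (Fin n)) (z : Co n LB LF → ℝ) :
    Q4g (muU ν n) (SU b cB cF a) x K (fun (j : Fin n) (w : Th × Xs n) => sp w.2 j) S z =
      m4L S (LzU ν b cB cF a x K z) := by
  unfold Q4g F2 m4L
  simp only [Finset.sum_product]
  rfl

section four

variable (hν : IsFiniteMeasure ν) (h0 : ν ≠ 0) (hA : AmU a η)
include hν h0 hA

/-- the square of the second moment is at most the fourth moment -/
lemma m2L_sq_le (K : Finset (Co n LB LF)) (S : Finset (Fin n)) (z : Co n LB LF → ℝ) :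
    m2L S (LzU ν b cB cF a x K z) ^ 2 ≤ m4L S (LzU ν b cB cF a x K z) := by
  have hG := gmU (n := n) b cB cF η hν h0 hA
  have h1 := F2_sq_le (σ := fun (j : Fin n) (w : Th × Xs n) => sp w.2 j) hG x K
    (fun j => ⟨(bm_spU j).meas, (bm_spU j).bd⟩) S z
  rw [q4_m4L] at h1
  exact h1

/-- **the four point number in terms of the pairs**, pointwise in the frozen coordinates -/
theorem q4_pairs (K : Finset (Co n LB LF)) (S : Finset (Fin n)) (z : Co n LB LF → ℝ) :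
    Q4g (muU ν n) (SU b cB cF a) x K (fun (j : Fin n) (w : Th × Xs n) => sp w.2 j) S z ≤
      2 * (S.card : ℝ) ^ 2 +
      8 * ∑ p ∈ prs S, ∑ q ∈ prs S, cxU ν n b cB cF a x K (av4u ν b cB cF a p q) z ^ 2 := by
  have h1 := LzU_one (x := x) hν h0 hA b cB cF K z
  have h2 := m2L_sq_le (b := b) (cB := cB) (cF := cF) (x := x) hν h0 hA K S z
  rw [q4_m4L]
  rw [m2L_eq h1, m4L_eq h1] at h2
  rw [m4L_eq h1]
  have e : ∑ p ∈ Pin S, ∑ q ∈ Pin S, LzU ν b cB cF a x K z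
      (fun σ => SkS p σ * SkS q σ) ^ 2 = ∑ p ∈ prs S, ∑ q ∈ prs S,
        cxU ν n b cB cF a x K (av4u ν b cB cF a p q) z ^ 2 := rfl
  rw [← e]
  set X := ∑ p ∈ Pin S, LzU ν b cB cF a x K z (SkS p) ^ 2 with hX
  set Y := ∑ p ∈ Pin S, ∑ q ∈ Pin S, LzU ν b cB cF a x K z
      (fun σ => SkS p σ * SkS q σ) ^ 2 with hY
  have h3 : 0 ≤ ((S.card : ℝ) - 2 * X) ^ 2 := sq_nonneg _
  nlinarith

/-- **the mean of the four point number**, explicit -/
theorem ex_q4_le (b : ℝ) (cB : LB → ℝ) (cF : LF → ℝ) (hx : 0 < x) (hx1 : x ≤ 1)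
    (hBL : BL ⊆ BL') (h1 : Disjoint BL' BL1) (S : Finset (Fin n)) (FL : Finset LF)
    (ht : 0 < tB n b cB (BL' \ BL)) (ht1 : 0 < tB n b cB BL1) :
    exU ν n b cB cF a x
      (Q4g (muU ν n) (SU b cB cF a) x (Kset S BL FL)
        (fun (j : Fin n) (w : Th × Xs n) => sp w.2 j) S) ≤
      2 * (S.card : ℝ) ^ 2 +
      8 * (4 * (gain (muU ν n) 1 x (SU (n := n) b cB cF a) + 1) /
          (x ^ 4 * (tB n b cB (BL' \ BL) * tB n b cB BL1)) +
      16 * (gain (muU ν n) 1 x (SU (n := n) b cB cF a) ^ 2 + 2) /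
          (x ^ 4 * tB n b cB BL1 ^ 2)) := by
  have hG := gmU (n := n) b cB cF η hν h0 hA
  have hw : Wt (gs (Co n LB LF)) (wU ν n b cB cF a x) := hG.wt 1 x
  have h2 := mom4_num (n := n) hν h0 hA b cB cF hx hx1 hBL h1 S FL ht ht1
  have bQ := bm_Q4g hG x (Kset S BL FL) (σ := fun (j : Fin n) (w : Th × Xs n) => sp w.2 j)
    (fun j => ⟨(bm_spU j).meas, (bm_spU j).bd⟩) S
  have bP : BM (fun z => ∑ p ∈ prs S, ∑ q ∈ prs S, cxU ν n b cB cF a x (Kset S BL FL)
        (av4u ν b cB cF a p q) z ^ 2) := by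
    refine BM.sum _ fun p _ => BM.sum _ fun q _ => ?_
    have b4 : BM (cxU ν n b cB cF a x (Kset S BL FL) (av4u ν b cB cF a p q)) :=
      hw.bm_cx _ (hG.bm_avm 1 ((H347.U.bm_SkSU p).mul (H347.U.bm_SkSU q)))
    simpa only [sq] using b4.mul b4
  have h3 := H615.ex_mono hw bQ ((BM.const (2 * (S.card : ℝ) ^ 2)).add (H615.bcm 8 bP))
    fun z => q4_pairs (b := b) (cB := cB) (cF := cF) (x := x) hν h0 hA _ S z
  rw [H615.ex_add hw (BM.const _) (H615.bcm _ bP), H615.ex_const hw, H615.ex_cmul] at h3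
  refine h3.trans ?_
  have h4 := mul_le_mul_of_nonneg_left h2 (show (0 : ℝ) ≤ 8 by norm_num)
  linarith

end four

end Vale.Agent.P146.H463.U
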