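import Vale.Agent.P146.H463.UpB2
import Vale.Agent.P146.H698.SkelU

/-!
# P146: the literal `QRow` of the second regime (`s² = n^(-80q) V`)

The mean of the weighted overlap `L.fag / n` at the corners of the windows of the second regime:
the input of `H463.RowUp2F` (`H463/Reg2N.lean`).
-/

open Filter Set

namespace Vale.Agent.P146.H463

open Vale.Agent.P146.H418 Vale.Agent.P146.H122

/-- the mean of the weighted overlap at the corner, for `s² = n^(-80q) V` -/
def QRow (a0 b₁ q A b : ℝ) : Prop := ∀ᶠ n : ℕ in atTop, ∀ y V al s lam η a : ℝ,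
  KW a0 b₁ q A b n y V al s lam η → WA q A n y al a → s ^ 2 = (n : ℝ) ^ (-(80 * q)) * V →
    ∀ T, T2 q n y / 2 ≤ T → T ≤ 1 →
      (lawOf n b y V al s lam η).fag (Sn n (m1 q n y - 1)) (1 - T) (u1 q n)
        ((n : ℝ) ^ (-(80 * q))) ≤ n * ((n : ℝ) ^ (q / 4) * (V / T))

end Vale.Agent.P146.H463
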