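import Vale.Agent.P146.H463.Reg2B
import Vale.Agent.P146.H463.QRowD

/-!
The second regime of the second choice: `RowUp2F` from `QRow`.

* `tail_at` : the tail of the weighted overlap at all points of the window from `ApK`;
* `num_r2` : the numbers; `row2_pt` : one point;
* `rowUp2F_of` : `QRow → RowUp2F`.
-/

open MeasureTheory ProbabilityTheory Filter Topology Set

namespace Vale.Agent.P146.H463.R2

open Vale.Agent.P157.Lv hiding Dep
open Vale.Agent.P146.H646 Vale.Agent.P146.H196 Vale.Agent.P146.H246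
  Vale.Agent.P146.H475 Vale.Agent.P146.H325 Vale.Agent.P146.H281.U
open Vale.Agent.P146.H347 (Co Kset Xs bd fd gd g1)
open Vale.Agent.P146.H412 (gs)
open Vale.Agent.P146.H412.G (eG cG CCg Qg sR bm_Qg)
open Vale.Agent.P146.H698.Br (αb VFb ub)
open Vale.Agent.P146.H9.U (FLU cbU cfU canU)
open Vale.Agent.P146.H418 Vale.Agent.P146.H320 Vale.Agent.P146.H615 Vale.Agent.P146.H463.Ap
  Vale.Agent.P146.H470 Vale.Agent.P146.H529
open Vale.Agent.P146.H122 (u0 u1 WA)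

set_option linter.unusedSectionVars false

lemma Uq_anti {q : ℝ} {n : ℕ} {y T T' : ℝ} (hT : 0 < T) (h : T ≤ T') :
    Uq q n y T' ≤ Uq q n y T := by
  unfold Uq
  exact div_le_div_of_nonneg_left (by positivity) (Real.sqrt_pos.2 hT) (Real.sqrt_le_sqrt h)

section tail

variable {L : Law} {q D U : ℝ}

/-- the tail from the a-priori numbers -/
lemma tail_at {T u g : ℝ} (hA : Adm L) (hη1 : L.η ≤ 1) (hU : Uq q L.n L.x T ≤ U)
    (S : Finset (Fin L.n))
    (h : ApK q D L T (Prod.fst : Bool × Bool → Bool) (cbU (1 - T)) (L.cfg u g)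
      (Kset S {true} (FLU Bool)) S) :
    eG (muL L) (enC L (1 - T) u g) L.x (H317.ind U
      (Qg (muL L) (enC L (1 - T) u g) L.x Prod.snd (hL L) (KC S) S)) ≤ (L.n : ℝ) ^ (-D) := by
  have hM := gmC hA (1 - T) u g
  have hw : Wt (gs (Co L.n Bool (Bool × Bool))) (Zxm (muL L) 1 (enC L (1 - T) u g) L.x) :=
    hM.wt 1 L.x
  have hQb := bm_Qg (x := L.x) hM measurable_snd (bd_hL hA) (KC S) S
  have h1 := h.tQ (hL L) (bd_hL hA) fun w =>
    (H119.abs_al_le' hA.η0 _).trans (by linarith)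
  refine le_trans (ex_mono hw (H317.bm_ind hQb.meas _) (H317.bm_ind hQb.meas _) fun z => ?_) h1
  unfold H317.ind
  split_ifs with h3 h4 h4
  · exact le_rfl
  · exact absurd (hU.trans_lt h3) h4
  · exact zero_le_one
  · exact le_rfl

end tail

section num

variable {a0 b₁ q A b : ℝ} {n : ℕ} {y V al s lam η : ℝ}

section pieces

variable {T0 T' : ℝ}

/-- the main term -/
lemma num_a (h : NW a0 b₁ q A b n y V al s lam η) (hT0 : 0 < T0) (hT'0 : 0 < T')
    (hlT : Real.log T' ≤ 1 + Real.log T0) :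
    4 * (Uq q n y T0 * ((n : ℝ) ^ (q / 4) * (V / T0))) ≤
      ((n : ℝ) ^ (-(7 / 2 * q)) * y ^ 3 / T') * ((n : ℝ) ^ (-(37 / 2 * q)) * y ^ 2 / √T') := by
  obtain ⟨f1, f2, f3, f4, f5, f6, f7, f8, f9, f10, f11, f12, f13, f14⟩ := h.facts
  have hn := h.env.n0
  have hy := h.env.y0
  have hV := h.env.V0
  have c1 := log_c 4 (by norm_num)
  unfold Uq
  refine le_of_log (by positivity) (by positivity) ?_
  have hs1 : √T0 ≠ 0 := (Real.sqrt_pos.2 hT0).ne'
  have hs2 : √T' ≠ 0 := (Real.sqrt_pos.2 hT'0).ne'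
  simp (disch := positivity) only [Real.log_div, Real.log_mul, Real.log_rpow, Real.log_pow,
    Real.log_sqrt]
  push_cast
  linarith only [f1, f2, f10, hlT, c1]

lemma num_p (hn : (0 : ℝ) < n) (hT'0 : 0 < T') :
    ((n : ℝ) ^ (-(7 / 2 * q)) * y ^ 3 / T') ^ 2 = (n : ℝ) ^ (-(7 * q)) * y ^ 6 / T' ^ 2 ∧
    ((n : ℝ) ^ (-(37 / 2 * q)) * y ^ 2 / √T') ^ 2 = (n : ℝ) ^ (-(37 * q)) * y ^ 4 / T' := by
  constructor
  · rw [div_pow, mul_pow, ← Real.rpow_natCast ((n : ℝ) ^ (-(7 / 2 * q))), ← Real.rpow_mul hn.le,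
      ← pow_mul]
    congr 3
    push_cast
    ring
  · rw [div_pow, mul_pow, ← Real.rpow_natCast ((n : ℝ) ^ (-(37 / 2 * q))), ← Real.rpow_mul hn.le,
      ← pow_mul, Real.sq_sqrt hT'0.le]
    congr 3
    push_cast
    ring

/-- the tail -/
lemma num_b (h : NW a0 b₁ q A b n y V al s lam η) (hT'0 : 0 < T') (hlT1 : Real.log T' ≤ 0) :
    64 * (n : ℝ) ^ (-(10 : ℝ)) ≤ 1 / 8 * ((n : ℝ) ^ (-(37 * q)) * y ^ 4 / T') := by
  obtain ⟨f1, f2, f3, f4, f5, f6, f7, f8, f9, f10, f11, f12, f13, f14⟩ := h.facts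
  have hn := h.env.n0
  have hy := h.env.y0
  have hL := h.env.L1
  have c1 := log_c 64 (by norm_num)
  have c2 := log_c 8 (by norm_num)
  refine le_of_log (by positivity) (by positivity) ?_
  simp (disch := positivity) only [Real.log_div, Real.log_mul, Real.log_rpow, Real.log_pow,
    Real.log_one]
  push_cast
  linarith only [f1, f2, f7, hL, c1, c2, hlT1]

/-- rank one -/
lemma num_c (h : NW a0 b₁ q A b n y V al s lam η) (hT0 : 0 < T0) (hT'0 : 0 < T')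
    (hlT : Real.log T' ≤ 1 + Real.log T0) :
    4 * (13 * (n * ((n : ℝ) ^ (q / 4) * (V / T0))) /
        (y ^ 2 * ((n : ℝ) ^ (-(80 * q)) * V) * (n : ℝ) ^ (-(80 * q)))) / (n : ℝ) ^ 2 ≤
      1 / 8 * ((n : ℝ) ^ (-(37 * q)) * y ^ 4 / T') := by
  obtain ⟨f1, f2, f3, f4, f5, f6, f7, f8, f9, f10, f11, f12, f13, f14⟩ := h.facts
  have hn := h.env.n0
  have hy := h.env.y0
  have hV := h.env.V0
  have c1 := log_c 4 (by norm_num)
  have c2 := log_c 8 (by norm_num)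
  have c3 := log_c 13 (by norm_num)
  refine le_of_log (by positivity) (by positivity) ?_
  simp (disch := positivity) only [Real.log_div, Real.log_mul, Real.log_rpow, Real.log_pow,
    Real.log_one]
  push_cast
  linarith only [f1, f2, f7, hlT, c1, c2, c3]

end pieces

/-- the numbers of the second regime -/
lemma num_r2 (h : NW a0 b₁ q A b n y V al s lam η) (hs2 : s ^ 2 = (n : ℝ) ^ (-(80 * q)) * V)
    {T0 T' : ℝ} (hT0 : 0 < T0) (hT : T0 ≤ T') (hT2 : T' ≤ 2 * T0) (hT1 : T' ≤ 1) {R : ℝ}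
    (hR : (1 - η) ^ 4 * R ≤ 2 * (Uq q n y T0 * (n * ((n : ℝ) ^ (q / 4) * (V / T0)) / n) +
      16 * (n : ℝ) ^ (-(10 : ℝ))) + 2 * (13 * (n * ((n : ℝ) ^ (q / 4) * (V / T0))) /
        (y ^ 2 * s ^ 2 * (n : ℝ) ^ (-(80 * q)))) / (n : ℝ) ^ 2) :
    R ≤ (n : ℝ) ^ (-(7 * q)) * y ^ 6 / T' ^ 2 + (n : ℝ) ^ (-(37 * q)) * y ^ 4 / T' := by
  have k3 := h.bd.2.2.1
  have hn := h.env.n0
  have hy := h.env.y0
  have hV := h.env.V0
  have hη := h.kw.η0
  have hT'0 : 0 < T' := hT0.trans_le hT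
  have hlT : Real.log T' ≤ 1 + Real.log T0 := by
    have h1 := Real.log_le_log hT'0 hT2
    rw [Real.log_mul (by norm_num) hT0.ne'] at h1
    have h2 := Real.log_le_sub_one_of_pos (show (0 : ℝ) < 2 by norm_num)
    linarith
  have hlT1 : Real.log T' ≤ 0 := Real.log_nonpos hT'0.le hT1
  have e0 : n * ((n : ℝ) ^ (q / 4) * (V / T0)) / n = (n : ℝ) ^ (q / 4) * (V / T0) := by
    field_simp
  rw [e0, hs2] at hR
  have hA1 := num_a h hT0 hT'0 hlT
  obtain ⟨hA2, hA3⟩ := num_p (q := q) (y := y) hn hT'0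
  have hB := num_b h hT'0 hlT1
  have hC := num_c h hT0 hT'0 hlT
  set X := (n : ℝ) ^ (-(7 * q)) * y ^ 6 / T' ^ 2 with hX
  set Y := (n : ℝ) ^ (-(37 * q)) * y ^ 4 / T' with hY
  set p := (n : ℝ) ^ (-(7 / 2 * q)) * y ^ 3 / T' with hp
  set r := (n : ℝ) ^ (-(37 / 2 * q)) * y ^ 2 / √T' with hr
  set P := (n : ℝ) ^ (-(10 : ℝ)) with hP
  set M := Uq q n y T0 * ((n : ℝ) ^ (q / 4) * (V / T0)) with hM
  set W := 13 * (n * ((n : ℝ) ^ (q / 4) * (V / T0))) /
        (y ^ 2 * ((n : ℝ) ^ (-(80 * q)) * V) * (n : ℝ) ^ (-(80 * q))) with hW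
  have hY0 : 0 ≤ Y := by
    rw [hY]
    positivity
  have hX0 : 0 ≤ X := by
    rw [hX]
    positivity
  have hη4 : 1 / 2 ≤ (1 - η) ^ 4 := by
    have h1 : (999 / 1000 : ℝ) ≤ 1 - η := by linarith
    have h2 := pow_le_pow_left₀ (by norm_num) h1 4
    norm_num at h2 ⊢
    linarith
  by_cases hR0 : R ≤ 0
  · linarith
  push Not at hR0
  have h5 : 1 / 2 * R ≤ (1 - η) ^ 4 * R := mul_le_mul_of_nonneg_right hη4 hR0.le
  have h6 : 2 * (p * r) ≤ X + Y := by
    rw [← hA2, ← hA3]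
    nlinarith [sq_nonneg (p - r)]
  have h7 : 2 * W / (n : ℝ) ^ 2 = 1 / 2 * (4 * W / (n : ℝ) ^ 2) := by
    ring
  rw [h7] at hR
  linarith only [hR, h5, h6, hA1, hB, hC, hX0, hY0]

end num

/-- the a-priori numbers of the canonical systems of one law -/
def ApC (q D : ℝ) (L : Law) : Prop := ∀ T, 0 < T → T ≤ 1 → ∀ u ∈ Icc (0 : ℝ) 1,
  ∀ g ∈ Icc (0 : ℝ) 1, ∀ S : Finset (Fin L.n),
    ApK q D L T (Prod.fst : Bool × Bool → Bool) (cbU (1 - T)) (L.cfg u g)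
      (Kset S {true} (FLU Bool)) S

/-- the canonical systems from all level systems (the conclusion of `apU_ev`) -/
lemma apC_of {q D : ℝ} {L : Law} (hA : Adm L)
    (h : ∀ (LB LF : Type) [Fintype LB] [DecidableEq LB] [Fintype LF] [DecidableEq LF]
        (κ : LF → Bool) (cB : LB → ℝ) (cF : LF → ℝ) (BL : Finset LB), ∑ l, cB l ^ 2 = 1 →
        (∀ k, ∑ l with κ l = k, cF l ^ 2 = VFb L.vp L.s k) →
        ∀ T, 0 < T → T ≤ 1 → ∑ l ∈ BL, cB l ^ 2 = 1 - T → ∀ (FL : Finset LF)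
          (S1 S : Finset (Fin L.n)), ApK q D L T κ cB cF (Kset S1 BL FL) S) : ApC q D L := by
  intro T hT hT1 u hu g hg S
  have hsh := H698.can_sh L (t := 1 - T) (u := u) (g := g)
    hA.vp0.le (by linarith) (by linarith) hu.1 hu.2 hg.1 hg.2
  exact h Bool (Bool × Bool) Prod.fst (cbU (1 - T)) _ {true} hsh.totB hsh.totF T hT hT1 hsh.shB
    (FLU Bool) S S

/-- **The second regime at one point of the window** from the mean of the weighted overlap at the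
corners. -/
theorem row2_n {a0 b₁ q A b : ℝ} {n : ℕ} {y V al s lam η : ℝ} (hn1 : 1 < n)
    (hnw : NW a0 b₁ q A b n y V al s lam η) (hs2 : s ^ 2 = (n : ℝ) ^ (-(80 * q)) * V)
    (hap : ApC q 10 (lawOf n b y V al s lam η))
    (hF : ∀ T, H122.T2 q n y / 2 ≤ T → T ≤ 1 →
      (lawOf n b y V al s lam η).fag (Sn n (H122.m1 q n y - 1)) (1 - T) (u1 q n)
        ((n : ℝ) ^ (-(80 * q))) ≤ n * ((n : ℝ) ^ (q / 4) * (V / T))) :
    H122.RowUp2 q b n y V al s lam η := by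
  intro T hT
  have hkw := hnw.kw
  obtain ⟨f1, f2, -⟩ := hnw.facts
  have k3 := hnw.bd.2.2.1
  have hq := hnw.q0
  have hn := hnw.env.n0
  have hn1' : (1 : ℝ) < n := by exact_mod_cast hn1
  have hy := hnw.env.y0
  have hV := hnw.env.V0
  have hs0 := hkw.s0
  have hadm : Adm (lawOf n b y V al s lam η) := hnw.adm.1
  have hη1 : η ≤ 1 := by linarith
  have hh0 : 0 < H122.hh q n := Real.rpow_pos_of_pos hn _
  have hh1 : H122.hh q n ≤ 1 := Real.rpow_le_one_of_one_le_of_nonpos hn1'.le (by linarith)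
  have h80 : (n : ℝ) ^ (-(80 * q)) ≤ 1 / 4 := by
    have c1 := log_c 4 (by norm_num)
    refine le_of_log (by positivity) (by positivity) ?_
    simp (disch := positivity) only [Real.log_div, Real.log_rpow, Real.log_one]
    linarith only [f1, f2, c1]
  have h80' : 0 < (n : ℝ) ^ (-(80 * q)) := Real.rpow_pos_of_pos hn _
  have hT2 : 0 < H122.T2 q n y := by
    unfold H122.T2
    positivity
  have hTp : 0 < T := hT2.trans_le hT.1
  set T0 := T / (1 + H122.hh q n) with hT0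
  have hT0p : 0 < T0 := by positivity
  have hT0T : T0 ≤ T := by
    rw [hT0, div_le_iff₀ (by linarith)]
    nlinarith
  have hTT0 : T ≤ 2 * T0 := by
    rw [hT0, ← mul_div_assoc, le_div_iff₀ (by linarith)]
    nlinarith
  have hF' := hF T0 (by linarith [hT.1]) (by linarith [hT.2])
  have hm1 : 1 ≤ H122.m1 q n y := by
    unfold H122.m1
    exact Nat.one_le_iff_ne_zero.2 (Nat.ceil_pos.2 (by positivity)).ne'
  obtain ⟨T', hT', u, hu, m, hm, hR⟩ := pt_U (L := lawOf n b y V al s lam η) hadm hη1 hs0 hy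
    hm1 (T0 := T0) (T1 := T) (u0 := u0 q n) (u1 := u1 q n) (g1 := (n : ℝ) ^ (-(80 * q)))
    (U := Uq q n y T0) (P := (n : ℝ) ^ (-(10 : ℝ)))
    hT0p.le hT0T (by linarith [hT.2]) (by unfold u0; linarith) (by unfold u0 u1; linarith)
    (by unfold u1; linarith) h80' (by linarith) hF' (Uq_pos hn hy hT0p).le
    (fun T' hT' u hu g hg S => tail_at (L := lawOf n b y V al s lam η) (q := q) hadm hη1
      (Uq_anti hT0p hT'.1) S (hap T' (hT0p.trans_le hT'.1) (by linarith [hT'.2, hT.2]) u hu g hg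
        S))
  refine ⟨T', hT', u, hu, m, hm, ?_⟩
  exact num_r2 hnw hs2 hT0p hT'.1 (by linarith [hT'.2]) (by linarith [hT'.2, hT.2]) hR

/-- **The second regime from the mean of the weighted overlap.** -/
theorem rowUp2F_of {a0 b₁ q A b : ℝ} (hq : 0 < q) (hb : 0 < b) (hA : 1 ≤ A)
    (ha0 : a0 ≤ 1 / 6) (hb₁ : 100 * q < b₁) (h : QRow a0 b₁ q A b) : RowUp2F a0 b₁ q A b := by
  filter_upwards [h, apU_ev (q := q) (a0 := a0) (b₁ := b₁) 10 hq hb hA ha0 hb₁,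
    eventually_gt_atTop 1] with n h1 h2 hn1
  intro y V al s lam η a hkw hwa hs2
  obtain ⟨hnw, -, hap⟩ := h2 y V al s lam η hkw
  exact row2_n hn1 hnw hs2 (apC_of hnw.adm.1 fun LB LF _ _ _ _ κ cB cF BL hB hF T hT hT1 hBL FL
    S1 S => ((hap LB LF κ cB cF BL hB hF).2 T hT hT1 hBL FL S1 S).1)
    (h1 y V al s lam η a hkw hwa hs2)

/-- the mean of the weighted overlap at the corner under `al ≤ C y²` -/
def QRowC (a0 b₁ q A b C : ℝ) : Prop := ∀ᶠ n : ℕ in atTop, ∀ y V al s lam η : ℝ,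
  KW a0 b₁ q A b n y V al s lam η → al ≤ C * y ^ 2 → s ^ 2 = (n : ℝ) ^ (-(80 * q)) * V →
    ∀ T, H122.T2 q n y / 2 ≤ T → T ≤ 1 →
      (lawOf n b y V al s lam η).fag (Sn n (H122.m1 q n y - 1)) (1 - T) (u1 q n)
        ((n : ℝ) ^ (-(80 * q))) ≤ n * ((n : ℝ) ^ (q / 4) * (V / T))

/-- the second regime under `al ≤ C y²` -/
theorem rowFarC {a0 b₁ q A b C : ℝ} (hq : 0 < q) (hb : 0 < b) (hA : 1 ≤ A)
    (ha0 : a0 ≤ 1 / 6) (hb₁ : 100 * q < b₁) (h : QRowC a0 b₁ q A b C) :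
    ∀ᶠ n : ℕ in atTop, ∀ y V al s lam η : ℝ, KW a0 b₁ q A b n y V al s lam η →
      al ≤ C * y ^ 2 → s ^ 2 = (n : ℝ) ^ (-(80 * q)) * V →
        H122.RowUp2 q b n y V al s lam η := by
  filter_upwards [h, apU_ev (q := q) (a0 := a0) (b₁ := b₁) 10 hq hb hA ha0 hb₁,
    eventually_gt_atTop 1] with n h1 h2 hn1
  intro y V al s lam η hkw hal hs2
  obtain ⟨hnw, -, hap⟩ := h2 y V al s lam η hkw
  exact row2_n hn1 hnw hs2 (apC_of hnw.adm.1 fun LB LF _ _ _ _ κ cB cF BL hB hF T hT hT1 hBL FL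
    S1 S => ((hap LB LF κ cB cF BL hB hF).2 T hT hT1 hBL FL S1 S).1)
    (h1 y V al s lam η hkw hal hs2)

end Vale.Agent.P146.H463.R2
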