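import Vale.Agent.P146.H586.Bes6
import Vale.Agent.P146.H463.NeIn

/-!
P146: the distance of `N = cx K' ⟨a s⟩` from the line through `V = lc R c` is bounded below by the
fourth cumulant, for EVERY real coefficient `u` (`H586.bes` with `|u|` in the last term, and a
second moment argument for large `|u|`).

* `bes_all` : `H586.bes` for every real `u`;
* `v_sq_ge` : `1 ≤ cx K (V²)`;
* `low_all` : `κ² r ^ 6 / 160 ≤ cx K ((N - u V)²)` for every real `u`;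
* `low_pt` : the same in the letters of `H161.hstar_abs` (direction `cf z` of the row), with the
  smallness conditions in terms of `RKg`, `Q4g`, `Yf`.
-/

open MeasureTheory ProbabilityTheory Filter Topology

namespace Vale.Agent.P146.H463

open Vale.Agent.P157.Lv Vale.Agent.P146.H196 Vale.Agent.P146.H646 Vale.Agent.P146.H161
  Vale.Agent.P146.H586 Vale.Agent.P146.H615

section pt

variable {ι : Type} [Fintype ι] [DecidableEq ι] {Ω : Type} [MeasurableSpace Ω]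
  {m : Measure Ω} {S : ι → Ω → ℝ} {M0 : ℝ} {K K' R : Finset ι}

/-- `1 ≤ cx K (V²)` for a unit vector -/
theorem v_sq_ge (hG : GM m S M0) {x : ℝ} (hx0 : 0 ≤ x) (_hx1 : x ≤ 1) (hKR : Disjoint K R)
    {c : ι → ℝ} (hc : ∑ e ∈ R, c e ^ 2 = 1) (z : ι → ℝ) :
    1 ≤ cx (gg ι) K (Zxm m 1 S x) (fun y => lc R c y ^ 2) z := by
  have ew := hG.eg_Zx 1 x
  have hw0 : ∀ z, 0 < Zxm m 1 S x z := fun z => Zxm_pos x z
  have h1 := cx_lin_sq hG 1 x hKR c z
  rw [hc] at h1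
  have h2 : 0 ≤ cx (gg ι) K (Zxm m 1 S x) (qdg m 1 S x (YS R c S)) z := by
    refine cx_nonneg_eg ew hw0 (fun y => ?_) z
    unfold qdg
    have h3 := hG.av_sq_le 1 (bm_YS hG R c) y
    have h4 : (1 - x) * avm m 1 S (YS R c S) y ^ 2 ≤ 1 * avm m 1 S (YS R c S) y ^ 2 :=
      mul_le_mul_of_nonneg_right (by linarith) (sq_nonneg _)
    linarith
  rw [h1]
  have : 0 ≤ 1 ^ 2 * x * cx (gg ι) K (Zxm m 1 S x) (qdg m 1 S x (YS R c S)) z := by positivity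
  linarith

/-- **The Bessel lower bound of the third level**, every real coefficient. -/
theorem bes_all (hG : GM m S M0) {x η r t b0 : ℝ} (u : ℝ) (hx0 : 0 ≤ x) (hx1 : x ≤ 1)
    (hη : 0 ≤ η) (hη1 : η ≤ 1) (hr : 0 ≤ r) (ht : 0 < t) (hb0 : 0 ≤ b0)
    (hxb : x * b0 ≤ 1 / 4)
    (hKR : Disjoint K R) (hK : K ⊆ K') (hR : R ⊆ K') {c : ι → ℝ}
    (hc : ∑ e ∈ R, c e ^ 2 = 1) {a s X : Ω → ℝ} (ba : Bm a) (bs : Bm s) (bX : Bm X)
    (hs1 : ∀ ω, s ω ^ 2 = 1) (ha : ∀ ω, |a ω - 1| ≤ η)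
    (hY : ∀ ω, YS R c S ω = s ω * X ω) (hb : ∀ ω, |YS R c S ω| ≤ b0) (z : ι → ℝ) :
    r ^ 3 * |cx (gg ι) K (Zxm m 1 S x) (fun y => k0 (avm m 1 S s y)) z|
      ≤ √(40 * cx (gg ι) K (Zxm m 1 S x) (fun y => (cx (gg ι) K' (Zxm m 1 S x)
          (avm m 1 S fun ω => a ω * s ω) y - u * lc R c y) ^ 2) z)
        + 49 * t * cx (gg ι) K (Zxm m 1 S x) (avm m 1 S fun ω => (X ω - r) ^ 2) z
        + (19208 * cx (gg ι) K (Zxm m 1 S x) (avm m 1 S fun ω => X ω ^ 4) z + 162 * r ^ 4) / t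
        + (48 * η + 28 * x) * r ^ 3
        + |u| * (x * ((48 * b0 ^ 2 + 6) * (2 * cx (gg ι) K (Zxm m 1 S x)
          (avm m 1 S fun ω => (X ω - r) ^ 2) z + 2 * r ^ 2))) := by
  have ew := hG.eg_Zx 1 x
  have hw0 : ∀ z, 0 < Zxm m 1 S x z := fun z => Zxm_pos x z
  have eV : EG (lc R c) := eg_lc R c
  have bas : Bm fun ω => a ω * s ω := ba.mul bs
  obtain ⟨C, hC, hCb⟩ := bas.2
  have eN : EG (cx (gg ι) K' (Zxm m 1 S x) (avm m 1 S fun ω => a ω * s ω)) :=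
    eg_cx ew hw0 (hG.eg_av 1 bas) (hG.abs_av_le 1 bas.1 hCb)
  have eH : EG fun y => lc R c y ^ 3 - 3 * lc R c y := (eV.pow 3).sub (eV.const_mul 3)
  have n3 := n_h3 hG hx0 hx1 hη hη1 hr ht hKR hK hR hc ba bs bX hs1 ha hY z
  have v3 := v_h3 hG hx0 hx1 hb0 hKR hc hb z
  have cs := cs_eg (K := K) ew hw0 (eN.sub (eV.const_mul u)) eH z
  have h40 : cx (gg ι) K (Zxm m 1 S x) (fun y => (lc R c y ^ 3 - 3 * lc R c y) ^ 2) z ≤ 40 := by
    refine h3_sq_le (L := fun e z => x * (1 * avm m 1 S (S e) z)) hKR hc hw0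
      (fun e _ => pd_Zx hG 1 x e) ew
      (fun e _ => ((hG.eg_av 1 (hG.bS e)).const_mul 1).const_mul x) (fun y => ?_) z
    have h1 : ∑ e ∈ R, c e * (x * (1 * avm m 1 S (S e) y)) = x * avm m 1 S (YS R c S) y := by
      have h2 : avm m 1 S (YS R c S) y = ∑ e ∈ R, c e * avm m 1 S (S e) y := by
        unfold YS
        rw [hG.av_sum 1 R fun e _ => ((hG.bS e).const_mul (c e))]
        exact Finset.sum_congr rfl fun e _ => av_mul m 1 S (c e) (S e) y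
      rw [h2, Finset.mul_sum]
      exact Finset.sum_congr rfl fun e _ => by ring
    rw [h1, abs_mul, abs_of_nonneg hx0]
    exact (mul_le_mul_of_nonneg_left (hG.abs_av_le 1 (bm_YS hG R c).1 hb y) hx0).trans hxb
  -- the second moment of `Y`
  have bXr : Bm fun ω => (X ω - r) ^ 2 := (bX.sub (Bm.const r)).pow 2
  have ed : EG (avm m 1 S fun ω => (X ω - r) ^ 2) := hG.eg_av 1 bXr
  have bY : Bm (YS R c S) := bm_YS hG R c
  have eY2 : EG (avm m 1 S fun ω => YS R c S ω ^ 2) := hG.eg_av 1 (bY.pow 2)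
  have y2 : cx (gg ι) K (Zxm m 1 S x) (avm m 1 S fun ω => YS R c S ω ^ 2) z
      ≤ 2 * cx (gg ι) K (Zxm m 1 S x) (avm m 1 S fun ω => (X ω - r) ^ 2) z + 2 * r ^ 2 := by
    have h1 := cx_mono_eg (K := K) ew hw0 eY2 ((ed.const_mul 2).add (EG.const (2 * r ^ 2)))
      (fun y => by
        have h2 := hG.av_mono 1 (bY.pow 2) ((bXr.const_mul 2).add (Bm.const (2 * r ^ 2)))
          (fun ω => by
            rw [hY ω, mul_pow, hs1, one_mul]
            nlinarith [sq_nonneg (X ω - 2 * r)]) y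
        rw [hG.av_add 1 (bXr.const_mul 2) (Bm.const _), av_mul, hG.av_const] at h2
        exact h2) z
    rw [cx_add_eg ew (ed.const_mul 2) (EG.const _), cx_cmul] at h1
    have c2 : cx (gg ι) K (Zxm m 1 S x) (fun _ => 2 * r ^ 2) z = 2 * r ^ 2 := by
      have h5 := cx_cmul K (Zxm m 1 S x) (2 * r ^ 2) (fun _ => (1 : ℝ)) z
      rw [cx_one_eg ew hw0, mul_one] at h5
      simpa using h5
    rw [c2] at h1
    exact h1
  -- splitting
  have sp : cx (gg ι) K (Zxm m 1 S x) (fun y => (cx (gg ι) K' (Zxm m 1 S x)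
          (avm m 1 S fun ω => a ω * s ω) y - u * lc R c y)
            * (lc R c y ^ 3 - 3 * lc R c y)) z
      = cx (gg ι) K (Zxm m 1 S x) (fun y => cx (gg ι) K' (Zxm m 1 S x)
          (avm m 1 S fun ω => a ω * s ω) y * (lc R c y ^ 3 - 3 * lc R c y)) z
        - u * cx (gg ι) K (Zxm m 1 S x)
          (fun y => lc R c y * (lc R c y ^ 3 - 3 * lc R c y)) z := by
    have f1 : (fun y => (cx (gg ι) K' (Zxm m 1 S x)
          (avm m 1 S fun ω => a ω * s ω) y - u * lc R c y)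
            * (lc R c y ^ 3 - 3 * lc R c y))
        = fun y => cx (gg ι) K' (Zxm m 1 S x)
          (avm m 1 S fun ω => a ω * s ω) y * (lc R c y ^ 3 - 3 * lc R c y)
          + (-u) * (lc R c y * (lc R c y ^ 3 - 3 * lc R c y)) := by funext y; ring
    rw [f1, cx_add_eg ew (eN.mul eH) ((eV.mul eH).const_mul _), cx_cmul]
    ring
  rw [sp] at cs
  set c3 := cx (gg ι) K (Zxm m 1 S x) (fun y => (cx (gg ι) K' (Zxm m 1 S x)
          (avm m 1 S fun ω => a ω * s ω) y - u * lc R c y) ^ 2) z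
  set H2 := cx (gg ι) K (Zxm m 1 S x) (fun y => (lc R c y ^ 3 - 3 * lc R c y) ^ 2) z
  set NH := cx (gg ι) K (Zxm m 1 S x) (fun y => cx (gg ι) K' (Zxm m 1 S x)
          (avm m 1 S fun ω => a ω * s ω) y * (lc R c y ^ 3 - 3 * lc R c y)) z
  set VH := cx (gg ι) K (Zxm m 1 S x) (fun y => lc R c y * (lc R c y ^ 3 - 3 * lc R c y)) z
  set KK := cx (gg ι) K (Zxm m 1 S x) (fun y => k0 (avm m 1 S s y)) z
  set D1 := cx (gg ι) K (Zxm m 1 S x) (avm m 1 S fun ω => (X ω - r) ^ 2) z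
  set D2 := cx (gg ι) K (Zxm m 1 S x) (avm m 1 S fun ω => X ω ^ 4) z
  set Y2 := cx (gg ι) K (Zxm m 1 S x) (avm m 1 S fun ω => YS R c S ω ^ 2) z
  have c30 : 0 ≤ c3 := cx_nonneg_eg ew hw0 (fun y => sq_nonneg _) z
  have cs' : (NH - u * VH) ^ 2 ≤ 40 * c3 := cs.trans (by nlinarith)
  have cs2 : |NH - u * VH| ≤ √(40 * c3) := Real.abs_le_sqrt cs'
  have hr3 : 0 ≤ r ^ 3 := by positivity
  have g1 : r ^ 3 * |KK| = |r ^ 3 * KK| := by rw [abs_mul, abs_of_nonneg hr3]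
  have g2 : |r ^ 3 * KK| ≤ |NH - u * VH| + |u * VH| + |NH - r ^ 3 * KK| := by
    have h1 : r ^ 3 * KK = (NH - u * VH) + u * VH - (NH - r ^ 3 * KK) := by ring
    calc |r ^ 3 * KK| = |(NH - u * VH) + u * VH - (NH - r ^ 3 * KK)| := by rw [← h1]
      _ ≤ |(NH - u * VH) + u * VH| + |NH - r ^ 3 * KK| := abs_sub _ _
      _ ≤ _ := by
        have := abs_add_le (NH - u * VH) (u * VH)
        linarith
  have g3 : |u * VH| ≤ |u| * (x * ((48 * b0 ^ 2 + 6) * (2 * D1 + 2 * r ^ 2))) := by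
    rw [abs_mul]
    refine mul_le_mul_of_nonneg_left (v3.trans ?_) (abs_nonneg u)
    refine mul_le_mul_of_nonneg_left ?_ hx0
    exact mul_le_mul_of_nonneg_left y2 (by positivity)
  rw [g1]
  linarith

/-- a large coefficient is far from the line -/
theorem far_u (hG : GM m S M0) {x η : ℝ} (u : ℝ) (hx0 : 0 ≤ x) (hx1 : x ≤ 1)
    (_hη : 0 ≤ η) (hη1 : η ≤ 1) (hKR : Disjoint K R) {c : ι → ℝ}
    (hc : ∑ e ∈ R, c e ^ 2 = 1) {a s : Ω → ℝ} (ba : Bm a) (bs : Bm s)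
    (hs1 : ∀ ω, s ω ^ 2 = 1) (ha : ∀ ω, |a ω - 1| ≤ η) (z : ι → ℝ) :
    u ^ 2 / 2 - 4 ≤ cx (gg ι) K (Zxm m 1 S x) (fun y => (cx (gg ι) K' (Zxm m 1 S x)
          (avm m 1 S fun ω => a ω * s ω) y - u * lc R c y) ^ 2) z := by
  have ew := hG.eg_Zx 1 x
  have hw0 : ∀ z, 0 < Zxm m 1 S x z := fun z => Zxm_pos x z
  have hw : Wt (gg ι) (Zxm m 1 S x) := hG.wt 1 x
  have eV : EG (lc R c) := eg_lc R c
  have bas : Bm fun ω => a ω * s ω := ba.mul bs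
  have hab : ∀ ω, |a ω * s ω| ≤ 2 := by
    intro ω
    have h1 : |s ω| ≤ 1 := by
      have := hs1 ω
      rw [← sq_abs] at this
      nlinarith [abs_nonneg (s ω)]
    have h2 := abs_le.1 (ha ω)
    have h3 : |a ω| ≤ 2 := by
      rw [abs_le]; constructor <;> linarith [h2.1, h2.2]
    rw [abs_mul]
    calc |a ω| * |s ω| ≤ 2 * 1 := mul_le_mul h3 h1 (abs_nonneg _) (by norm_num)
      _ = 2 := by norm_num
  have eN : EG (cx (gg ι) K' (Zxm m 1 S x) (avm m 1 S fun ω => a ω * s ω)) :=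
    eg_cx ew hw0 (hG.eg_av 1 bas) (hG.abs_av_le 1 bas.1 hab)
  have hN : ∀ y, |cx (gg ι) K' (Zxm m 1 S x) (avm m 1 S fun ω => a ω * s ω) y| ≤ 2 := by
    intro y
    have h1 := abs_cx_le_eg (K := K') ew hw0 (hG.eg_av 1 bas) (EG.const (2 : ℝ))
      (fun y' => hG.abs_av_le 1 bas.1 hab y') y
    have h5 := cx_cmul K' (Zxm m 1 S x) (2 : ℝ) (fun _ => (1 : ℝ)) y
    rw [cx_one_eg ew hw0, mul_one] at h5
    have h6 : cx (gg ι) K' (Zxm m 1 S x) (fun _ => (2 : ℝ)) y = 2 := by simpa using h5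
    rwa [h6] at h1
  have h1 := cx_mono_eg (K := K) ew hw0
    (((eV.pow 2).const_mul (u ^ 2 / 2)).add (EG.const (-4)))
    ((eN.sub (eV.const_mul u)).pow 2) (fun y => by
      have h2 : cx (gg ι) K' (Zxm m 1 S x) (avm m 1 S fun ω => a ω * s ω) y ^ 2 ≤ 4 := by
        rw [← sq_abs]
        calc _ ≤ (2 : ℝ) ^ 2 := pow_le_pow_left₀ (abs_nonneg _) (hN y) 2
          _ = 4 := by norm_num
      nlinarith [sq_nonneg (2 * cx (gg ι) K' (Zxm m 1 S x) (avm m 1 S fun ω => a ω * s ω) y -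
        u * lc R c y)]) z
  rw [cx_add_eg ew ((eV.pow 2).const_mul _) (EG.const _), cx_cmul] at h1
  have c2 : cx (gg ι) K (Zxm m 1 S x) (fun _ => (-4 : ℝ)) z = -4 := by
    have h5 := cx_cmul K (Zxm m 1 S x) (-4) (fun _ => (1 : ℝ)) z
    rw [cx_one_eg ew hw0, mul_one] at h5
    simpa using h5
  rw [c2] at h1
  have h3 := mul_le_mul_of_nonneg_left (v_sq_ge hG hx0 hx1 hKR hc z)
    (show 0 ≤ u ^ 2 / 2 by positivity)
  linarith

/-- **The distance of `N` from the line**, for every real coefficient. -/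
theorem low_all (hG : GM m S M0) {x η r b0 κ D X4 U0 : ℝ} (hx0 : 0 ≤ x) (hx1 : x ≤ 1)
    (hη : 0 ≤ η) (hη1 : η ≤ 1) (hr : 0 ≤ r) (hb0 : 0 ≤ b0) (hxb : x * b0 ≤ 1 / 4)
    (hKR : Disjoint K R) (hK : K ⊆ K') (hR : R ⊆ K') {c : ι → ℝ}
    (hc : ∑ e ∈ R, c e ^ 2 = 1) {a s X : Ω → ℝ} (ba : Bm a) (bs : Bm s) (bX : Bm X)
    (hs1 : ∀ ω, s ω ^ 2 = 1) (ha : ∀ ω, |a ω - 1| ≤ η)
    (hY : ∀ ω, YS R c S ω = s ω * X ω) (hb : ∀ ω, |YS R c S ω| ≤ b0) (z : ι → ℝ)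
    (hD0 : 0 ≤ D) (hX0 : 0 ≤ X4)
    (hD : cx (gg ι) K (Zxm m 1 S x) (avm m 1 S fun ω => (X ω - r) ^ 2) z ≤ D)
    (hX : cx (gg ι) K (Zxm m 1 S x) (avm m 1 S fun ω => X ω ^ 4) z ≤ X4)
    (hκ0 : 0 ≤ κ)
    (hκ : κ ≤ |cx (gg ι) K (Zxm m 1 S x) (fun y => k0 (avm m 1 S s y)) z|)
    (hU0 : 0 ≤ U0) (hU : 8 + κ ^ 2 * r ^ 6 / 80 ≤ U0 ^ 2)
    (hE : 14 * √(D * (19208 * X4 + 162 * r ^ 4)) + (48 * η + 28 * x) * r ^ 3 +
      U0 * (x * ((48 * b0 ^ 2 + 6) * (2 * D + 2 * r ^ 2))) ≤ κ * r ^ 3 / 2) (u : ℝ) :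
    κ ^ 2 * r ^ 6 / 160 ≤ cx (gg ι) K (Zxm m 1 S x) (fun y => (cx (gg ι) K' (Zxm m 1 S x)
          (avm m 1 S fun ω => a ω * s ω) y - u * lc R c y) ^ 2) z := by
  rcases le_total U0 |u| with hu | hu
  · refine le_trans ?_ (far_u hG u hx0 hx1 hη hη1 hKR hc ba bs hs1 ha z)
    have h1 : U0 ^ 2 ≤ u ^ 2 := by
      rw [← sq_abs u]
      exact pow_le_pow_left₀ hU0 hu 2
    linarith
  · set c3 := cx (gg ι) K (Zxm m 1 S x) (fun y => (cx (gg ι) K' (Zxm m 1 S x)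
          (avm m 1 S fun ω => a ω * s ω) y - u * lc R c y) ^ 2) z with hc3
    have ew := hG.eg_Zx 1 x
    have hw0 : ∀ z, 0 < Zxm m 1 S x z := fun z => Zxm_pos x z
    have hc30 : 0 ≤ c3 := cx_nonneg_eg ew hw0 (fun y => sq_nonneg _) z
    set kb := cx (gg ι) K (Zxm m 1 S x) (fun y => k0 (avm m 1 S s y)) z with hkb
    have hr3 : 0 ≤ r ^ 3 := by positivity
    have key := opt_t (A := r ^ 3 * |kb|)
      (B := √(40 * c3) + (48 * η + 28 * x) * r ^ 3 +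
        U0 * (x * ((48 * b0 ^ 2 + 6) * (2 * D + 2 * r ^ 2)))) (D := D)
      (G := 19208 * X4 + 162 * r ^ 4) hD0 (by positivity) (fun t ht => by
        have h1 := bes_all hG u hx0 hx1 hη hη1 hr ht hb0 hxb hKR hK hR hc ba bs bX hs1 ha hY hb z
        refine h1.trans ?_
        have t1 : 49 * t * cx (gg ι) K (Zxm m 1 S x) (avm m 1 S fun ω => (X ω - r) ^ 2) z ≤
            49 * t * D := mul_le_mul_of_nonneg_left hD (by positivity)
        have t2 : (19208 * cx (gg ι) K (Zxm m 1 S x) (avm m 1 S fun ω => X ω ^ 4) z +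
            162 * r ^ 4) / t ≤ (19208 * X4 + 162 * r ^ 4) / t := by
          apply div_le_div_of_nonneg_right _ ht.le
          linarith
        have t3 : |u| * (x * ((48 * b0 ^ 2 + 6) *
            (2 * cx (gg ι) K (Zxm m 1 S x) (avm m 1 S fun ω => (X ω - r) ^ 2) z + 2 * r ^ 2))) ≤
            U0 * (x * ((48 * b0 ^ 2 + 6) * (2 * D + 2 * r ^ 2))) := by
          have h2 : x * ((48 * b0 ^ 2 + 6) *
            (2 * cx (gg ι) K (Zxm m 1 S x) (avm m 1 S fun ω => (X ω - r) ^ 2) z + 2 * r ^ 2)) ≤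
            x * ((48 * b0 ^ 2 + 6) * (2 * D + 2 * r ^ 2)) := by
            refine mul_le_mul_of_nonneg_left ?_ hx0
            exact mul_le_mul_of_nonneg_left (by linarith) (by positivity)
          have h3 : 0 ≤ x * ((48 * b0 ^ 2 + 6) * (2 * D + 2 * r ^ 2)) := by positivity
          calc _ ≤ |u| * (x * ((48 * b0 ^ 2 + 6) * (2 * D + 2 * r ^ 2))) :=
                mul_le_mul_of_nonneg_left h2 (abs_nonneg u)
            _ ≤ _ := mul_le_mul_of_nonneg_right hu h3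
        linarith)
    have h4 : r ^ 3 * κ ≤ r ^ 3 * |kb| := mul_le_mul_of_nonneg_left hκ hr3
    have h5 : κ * r ^ 3 / 2 ≤ √(40 * c3) := by linarith
    have h6 : (κ * r ^ 3 / 2) ^ 2 ≤ 40 * c3 := by
      have h7 := pow_le_pow_left₀ (show 0 ≤ κ * r ^ 3 / 2 by positivity) h5 2
      rwa [Real.sq_sqrt (by positivity)] at h7
    have e : (κ * r ^ 3 / 2) ^ 2 = κ ^ 2 * r ^ 6 / 4 := by ring
    rw [e] at h6
    linarith

end pt

section lit

variable {ι : Type} [Fintype ι] [DecidableEq ι] {I : Type} [Fintype I] [DecidableEq I]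
  {Ω : Type} [MeasurableSpace Ω]
  {m : Measure Ω} {S : ι → Ω → ℝ} {M0 : ℝ} {K K' R : Finset ι} {T : Finset I}
  {σ : I → Ω → ℝ} {s0 a : Ω → ℝ} {x τ v kp η b0 : ℝ}

/-- **The distance of `N` from the line through the row field**, in the letters of
`H161.hstar_abs`, with the smallness conditions in terms of `RKg`, `Q4g` and `Yf`. -/
theorem low_pt (hG : GM m S M0) {κ y0 U0 : ℝ} (hx0 : 0 ≤ x) (hx1 : x ≤ 1) (hη : 0 ≤ η)
    (hη1 : η ≤ 1 / 2) (hb0 : 0 ≤ b0) (hxb : x * b0 ≤ 1 / 4) (hkp : 0 < kp) (hτ : 0 ≤ τ)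
    (hv : 0 ≤ v) (hKR : Disjoint K R) (hK : K ⊆ K') (hR : R ⊆ K')
    (hs : ∀ j, Bd (σ j)) (hs0 : Bd s0) (hs1 : ∀ ω, s0 ω ^ 2 = 1) (ha : Bd a)
    (haη : ∀ ω, |a ω - 1| ≤ η) (cf : (ι → ℝ) → ι → ℝ)
    (hY : ∀ z ω, YS R (cf z) S ω = kp * (s0 ω * (τ * ms T (Mg m S x K a σ) σ z ω + v)))
    (hc : ∀ z, ∑ e ∈ R, cf z e ^ 2 = kp ^ 2 * Yf T (Mg m S x K a σ) τ v z)
    (hb : ∀ ω, ∑ e ∈ R, S e ω ^ 2 ≤ b0 ^ 2) (z : ι → ℝ)
    (hκ0 : 0 < κ)
    (hκ : κ ≤ |cx (gg ι) K (Zxm m 1 S x) (fun y => k0 (avm m 1 S s0 y)) z|)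
    (hy0 : 0 < y0) (hyz : y0 ≤ Yf T (Mg m S x K a σ) τ v z)
    (hP : 155446 * ((3 / 2 * (τ * √(RKg m S x K σ T z)) +
      4 * η ^ 2 * Yf T (Mg m S x K a σ) τ v z) * (τ ^ 2 * √(Q4g m S x K σ T z) + v ^ 2)) ≤
      (κ / 112) ^ 2 * Yf T (Mg m S x K a σ) τ v z ^ 3)
    (hηx : 48 * η + 28 * x ≤ κ / 8)
    (hU0 : 0 ≤ U0) (hU : 8 + κ ^ 2 * Yf T (Mg m S x K a σ) τ v z ^ 3 / 80 ≤ U0 ^ 2)
    (hxy : 32 * (U0 * (x * (48 * b0 ^ 2 + 6))) ≤ κ * √y0) (hκ4 : κ ≤ 4) (u : ℝ) :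
    κ ^ 2 * Yf T (Mg m S x K a σ) τ v z ^ 3 / 160 ≤
      cx (gg ι) K (Zxm m 1 S x) (fun y => (cx (gg ι) K' (Zxm m 1 S x)
          (avm m 1 S fun ω => a ω * s0 ω) y - u * lc R (cf z) y) ^ 2) z := by
  set Y := Yf T (Mg m S x K a σ) τ v z with hYdef
  have hYpos : 0 < Y := hy0.trans_le hyz
  set r := √Y with hr
  have hr0 : 0 < r := Real.sqrt_pos.2 hYpos
  have hr2 : r ^ 2 = Y := Real.sq_sqrt hYpos.le
  have hkr : 0 < kp * r := mul_pos hkp hr0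
  set c : ι → ℝ := fun e => cf z e / (kp * r) with hcdef
  set Xf : Ω → ℝ := fun ω => (τ * ms T (Mg m S x K a σ) σ z ω + v) / r with hXf
  have hc1 : ∑ e ∈ R, c e ^ 2 = 1 := by
    have e1 : ∀ e, c e ^ 2 = cf z e ^ 2 / (kp ^ 2 * Y) := fun e => by
      rw [hcdef]
      show (cf z e / (kp * r)) ^ 2 = _
      rw [div_pow, mul_pow, hr2]
    simp only [e1]
    rw [← Finset.sum_div, hc z]
    exact div_self (by positivity)
  have hYc : ∀ ω, YS R c S ω = s0 ω * Xf ω := by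
    intro ω
    have e1 : YS R c S ω = YS R (cf z) S ω / (kp * r) := by
      unfold YS
      rw [Finset.sum_div]
      exact Finset.sum_congr rfl fun e _ => by rw [hcdef]; ring
    rw [e1, hY z ω, hXf]
    show kp * (s0 ω * (τ * ms T (Mg m S x K a σ) σ z ω + v)) / (kp * r) =
      s0 ω * ((τ * ms T (Mg m S x K a σ) σ z ω + v) / r)
    rw [mul_div_mul_left _ _ hkp.ne', mul_div_assoc]
  have hbc : ∀ ω, |YS R c S ω| ≤ b0 := by
    intro ω
    have h1 : YS R c S ω ^ 2 ≤ (∑ e ∈ R, c e ^ 2) * ∑ e ∈ R, S e ω ^ 2 := by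
      unfold YS
      exact Finset.sum_mul_sq_le_sq_mul_sq R c fun e => S e ω
    rw [hc1, one_mul] at h1
    exact abs_le_of_sq_le_sq (h1.trans (hb ω)) hb0
  have bX : Bd Xf := bd_X (κ := ι) hs T (Mg m S x K a σ) τ v z
  have hlc : ∀ y, (u * (kp * r)) * lc R c y = u * lc R (cf z) y := by
    intro y
    unfold lc
    rw [Finset.mul_sum, Finset.mul_sum]
    refine Finset.sum_congr rfl fun e _ => ?_
    rw [hcdef]
    show u * (kp * r) * (cf z e / (kp * r) * y e) = u * (cf z e * y e)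
    field_simp
  -- the two moments
  set D := cx (gg ι) K (Zxm m 1 S x) (avm m 1 S fun ω => (Xf ω - r) ^ 2) z with hDd
  set X4 := cx (gg ι) K (Zxm m 1 S x) (avm m 1 S fun ω => Xf ω ^ 4) z with hXd
  have ew := hG.eg_Zx 1 x
  have hw0 : ∀ z, 0 < Zxm m 1 S x z := fun z => Zxm_pos x z
  have hA := av_gm hG 1
  have hD0 : 0 ≤ D := by
    refine cx_nonneg_eg ew hw0 (fun y => ?_) z
    exact hA.nonneg (bX.sub (Bd.const r)).sq (fun ω => sq_nonneg _) y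
  have hX0 : 0 ≤ X4 := by
    refine cx_nonneg_eg ew hw0 (fun y => ?_) z
    have e : (fun ω => Xf ω ^ 4) = fun ω => (Xf ω ^ 2) ^ 2 := by funext ω; ring
    rw [e]
    exact hA.nonneg bX.sq.sq (fun ω => sq_nonneg _) y
  have hpr := prod_le hG hη hη1 hτ hv x K ha hs haη T z
  have hpr2 : D * (19208 * X4 + 162 * Y ^ 2) ≤ (κ / 112) ^ 2 * Y ^ 3 := hpr.trans hP
  have hr4 : r ^ 4 = Y ^ 2 := by rw [← hr2]; ring
  have hr6 : r ^ 6 = Y ^ 3 := by rw [← hr2]; ring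
  -- `D ≤ Y`
  have hDY : D ≤ r ^ 2 := by
    rw [hr2]
    have h1 : D * (162 * Y ^ 2) ≤ (κ / 112) ^ 2 * Y ^ 3 := by
      refine le_trans (mul_le_mul_of_nonneg_left ?_ hD0) hpr2
      linarith
    have h2 : (κ / 112) ^ 2 ≤ 1 := by
      have : κ / 112 ≤ 1 := by linarith
      exact pow_le_one₀ (by positivity) this
    have h3 : (κ / 112) ^ 2 * Y ^ 3 ≤ 1 * Y ^ 3 := mul_le_mul_of_nonneg_right h2 (by positivity)
    have h4 : D * (162 * Y ^ 2) ≤ Y * (162 * Y ^ 2) := by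
      have : (0 : ℝ) ≤ Y ^ 3 := by positivity
      nlinarith
    exact le_of_mul_le_mul_right h4 (by positivity)
  have hyr : √y0 ≤ r := Real.sqrt_le_sqrt hyz
  have h := low_all (K := K) (K' := K') (R := R) hG (r := r) (κ := κ) (D := D) (X4 := X4)
    (U0 := U0) hx0 hx1 hη (by linarith) hr0.le hb0 hxb hKR hK hR (c := c) hc1 (a := a)
    (s := s0) (X := Xf) ha hs0 bX hs1 haη hYc hbc z hD0 hX0 le_rfl le_rfl hκ0.le hκ hU0
    (by rw [hr6]; exact hU) (by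
      have g1 : 14 * √(D * (19208 * X4 + 162 * r ^ 4)) ≤ κ * r ^ 3 / 8 := by
        rw [hr4]
        have h1 : √(D * (19208 * X4 + 162 * Y ^ 2)) ≤ κ / 112 * r ^ 3 := by
          refine Real.sqrt_le_iff.2 ⟨by positivity, ?_⟩
          rw [mul_pow, ← pow_mul, show 3 * 2 = 6 from rfl, hr6]
          exact hpr2
        linarith
      have g2 : (48 * η + 28 * x) * r ^ 3 ≤ κ / 8 * r ^ 3 :=
        mul_le_mul_of_nonneg_right hηx (by positivity)
      have g3 : U0 * (x * ((48 * b0 ^ 2 + 6) * (2 * D + 2 * r ^ 2))) ≤ κ * r ^ 3 / 8 := by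
        have h1 : U0 * (x * ((48 * b0 ^ 2 + 6) * (2 * D + 2 * r ^ 2))) ≤
            U0 * (x * ((48 * b0 ^ 2 + 6) * (4 * r ^ 2))) := by
          refine mul_le_mul_of_nonneg_left ?_ hU0
          refine mul_le_mul_of_nonneg_left ?_ hx0
          exact mul_le_mul_of_nonneg_left (by linarith) (by positivity)
        refine h1.trans ?_
        have h2 : U0 * (x * ((48 * b0 ^ 2 + 6) * (4 * r ^ 2))) =
            32 * (U0 * (x * (48 * b0 ^ 2 + 6))) * (r ^ 2 / 8) := by ring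
        rw [h2]
        have h3 := mul_le_mul_of_nonneg_right (hxy.trans
          (mul_le_mul_of_nonneg_left hyr hκ0.le)) (show 0 ≤ r ^ 2 / 8 by positivity)
        refine h3.trans (le_of_eq ?_)
        ring
      have g4 : 0 ≤ κ * r ^ 3 := by positivity
      linarith) (u * (kp * r))
  rw [hr6] at h
  refine h.trans (le_of_eq ?_)
  congr 1
  funext y
  rw [hlc]

end lit

end Vale.Agent.P146.H463
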