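import Vale.Agent.P146.H463.LowAll
import Vale.Agent.P146.H355.K3Fin
import Vale.Agent.P146.H317.C3Abs

/-!
P146: the good event of `LowAll`, with the mean of the bad one.

* `badP θ` : the indicator of `θ < P`, `P` = the product of the two moment inputs (`NeIn.prod_le`);
* `low_good` : if `kapF ≤ -c/2`, `badP = 0` and `y0 ≤ Y` then
  `(c/2)² Y³ / 160 ≤ cx K ((N - u V)²)` for every real `u`;
* `ex_badP_le` : the mean of `badP`, in numbers.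
-/

open MeasureTheory ProbabilityTheory Filter Topology

namespace Vale.Agent.P146.H463

open Vale.Agent.P157.Lv Vale.Agent.P146.H196 Vale.Agent.P146.H646 Vale.Agent.P146.H161
  Vale.Agent.P146.H586 Vale.Agent.P146.H615

set_option linter.unusedSectionVars false

variable {ι : Type} [Fintype ι] [DecidableEq ι] {I : Type} [Fintype I] [DecidableEq I]
  {Ω : Type} [MeasurableSpace Ω]
  {m : Measure Ω} {S : ι → Ω → ℝ} {M0 : ℝ} {K K' R : Finset ι} {T : Finset I}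
  {σ : I → Ω → ℝ} {s0 a : Ω → ℝ} {x τ v kp η b0 : ℝ}

/-- the product of the two moment inputs -/
noncomputable def Pz (m : Measure Ω) (S : ι → Ω → ℝ) (x : ℝ) (K : Finset ι) (a : Ω → ℝ)
    (σ : I → Ω → ℝ) (T : Finset I) (τ v η : ℝ) (z : ι → ℝ) : ℝ :=
  155446 * ((3 / 2 * (τ * √(RKg m S x K σ T z)) +
      4 * η ^ 2 * Yf T (Mg m S x K a σ) τ v z) * (τ ^ 2 * √(Q4g m S x K σ T z) + v ^ 2))

/-- the indicator of the bad event -/
noncomputable def badP (m : Measure Ω) (S : ι → Ω → ℝ) (x : ℝ) (K : Finset ι) (a : Ω → ℝ)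
    (σ : I → Ω → ℝ) (T : Finset I) (τ v η θ : ℝ) : (ι → ℝ) → ℝ :=
  H317.ind θ (Pz m S x K a σ T τ v η)

lemma bm_Pz (hG : GM m S M0) (x : ℝ) (K : Finset ι) (ha : Bd a) (hs : ∀ j, Bd (σ j))
    (T : Finset I) (τ v η : ℝ) : BM (Pz m S x K a σ T τ v η) := by
  have hA := av_gm hG 1
  have hM : ∀ j, BM (Mg m S x K a σ j) := bm_Mg hG x K ha hs
  have bY : BM (Yf T (Mg m S x K a σ) τ v) := bm_Y (S := T) hA hs hM τ v
  have bRs : BM fun z => √(RKg m S x K σ T z) := bm_sqrt (bm_RKg hG x K hs T)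
  have bQs : BM fun z => √(Q4g m S x K σ T z) := bm_sqrt (bm_Q4g hG x K hs T)
  exact bcm _ (((bcm _ (bcm _ bRs)).add (bcm _ bY)).mul ((bcm _ bQs).add (BM.const _)))

lemma Pz_nonneg (hτ : 0 ≤ τ) (hv : 0 ≤ v) (z : ι → ℝ) : 0 ≤ Pz m S x K a σ T τ v η z := by
  have hY0 : 0 ≤ Yf T (Mg m S x K a σ) τ v z := Y_nonneg hτ hv z
  unfold Pz
  positivity

lemma bm_badP (hG : GM m S M0) (x : ℝ) (K : Finset ι) (ha : Bd a) (hs : ∀ j, Bd (σ j))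
    (T : Finset I) (τ v η θ : ℝ) : BM (badP m S x K a σ T τ v η θ) :=
  H317.bm_ind (bm_Pz hG x K ha hs T τ v η).1 θ

lemma badP_nonneg (θ : ℝ) (z : ι → ℝ) : 0 ≤ badP m S x K a σ T τ v η θ z :=
  H317.ind_nonneg _ _ z

lemma badP_le (θ : ℝ) (z : ι → ℝ) : badP m S x K a σ T τ v η θ z ≤ 1 := H317.ind_le _ _ z

/-- **The good event.** -/
theorem low_good (hG : GM m S M0) {c y0 Ym U0 : ℝ} (hx0 : 0 ≤ x) (hx1 : x ≤ 1) (hη : 0 ≤ η)
    (hη1 : η ≤ 1 / 2) (hb0 : 0 ≤ b0) (hxb : x * b0 ≤ 1 / 4) (hkp : 0 < kp) (hτ : 0 ≤ τ)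
    (hv : 0 ≤ v) (hKR : Disjoint K R) (hK : K ⊆ K') (hR : R ⊆ K')
    (hs : ∀ j, Bd (σ j)) (hs0 : Bd s0) (hs1 : ∀ ω, s0 ω ^ 2 = 1) (ha : Bd a)
    (haη : ∀ ω, |a ω - 1| ≤ η) (cf : (ι → ℝ) → ι → ℝ)
    (hY : ∀ z ω, YS R (cf z) S ω = kp * (s0 ω * (τ * ms T (Mg m S x K a σ) σ z ω + v)))
    (hc : ∀ z, ∑ e ∈ R, cf z e ^ 2 = kp ^ 2 * Yf T (Mg m S x K a σ) τ v z)
    (hb : ∀ ω, ∑ e ∈ R, S e ω ^ 2 ≤ b0 ^ 2)
    (hc0 : 0 < c) (hc8 : c ≤ 8) (hy0 : 0 < y0)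
    (hYm : ∀ z, Yf T (Mg m S x K a σ) τ v z ≤ Ym) (hηx : 48 * η + 28 * x ≤ c / 16)
    (hU0 : 0 ≤ U0) (hU : 8 + c ^ 2 * Ym ^ 3 / 320 ≤ U0 ^ 2)
    (hxy : 64 * (U0 * (x * (48 * b0 ^ 2 + 6))) ≤ c * √y0) (z : ι → ℝ)
    (hk : H355.kapF m 1 S x K s0 z ≤ -c / 2)
    (hbad : badP m S x K a σ T τ v η ((c / 224) ^ 2 * y0 ^ 3) z = 0)
    (hyz : y0 ≤ Yf T (Mg m S x K a σ) τ v z) (u : ℝ) :
    c ^ 2 * Yf T (Mg m S x K a σ) τ v z ^ 3 / 640 ≤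
      cx (gg ι) K (Zxm m 1 S x) (fun y => (cx (gg ι) K' (Zxm m 1 S x)
          (avm m 1 S fun ω => a ω * s0 ω) y - u * lc R (cf z) y) ^ 2) z := by
  have hY0 : 0 ≤ Yf T (Mg m S x K a σ) τ v z := Y_nonneg hτ hv z
  have hκ : c / 2 ≤ |cx (gg ι) K (Zxm m 1 S x) (fun y => k0 (avm m 1 S s0 y)) z| := by
    have e : cx (gg ι) K (Zxm m 1 S x) (fun y => k0 (avm m 1 S s0 y)) z =
        H355.kapF m 1 S x K s0 z := rfl
    rw [e]
    have := neg_abs_le (H355.kapF m 1 S x K s0 z)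
    linarith
  have hPle : Pz m S x K a σ T τ v η z ≤ (c / 224) ^ 2 * y0 ^ 3 := by
    by_contra h
    rw [not_le] at h
    unfold badP H317.ind at hbad
    rw [if_pos h] at hbad
    exact one_ne_zero hbad
  have hcube : y0 ^ 3 ≤ Yf T (Mg m S x K a σ) τ v z ^ 3 := pow_le_pow_left₀ hy0.le hyz 3
  have h := low_pt (T := T) hG (κ := c / 2) (y0 := y0) (U0 := U0) hx0 hx1 hη hη1 hb0 hxb hkp hτ hv
    hKR hK hR hs hs0 hs1 ha haη cf hY hc hb z (by linarith) hκ hy0 hyz (by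
      refine (show Pz m S x K a σ T τ v η z ≤ _ from hPle).trans ?_
      have e : (c / 2 / 112) ^ 2 = (c / 224) ^ 2 := by ring
      rw [e]
      exact mul_le_mul_of_nonneg_left hcube (sq_nonneg _)) (by linarith) hU0 (by
      have h1 : Yf T (Mg m S x K a σ) τ v z ^ 3 ≤ Ym ^ 3 := pow_le_pow_left₀ hY0 (hYm z) 3
      have h2 : c ^ 2 * Yf T (Mg m S x K a σ) τ v z ^ 3 ≤ c ^ 2 * Ym ^ 3 :=
        mul_le_mul_of_nonneg_left h1 (sq_nonneg _)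
      have e : (c / 2) ^ 2 * Yf T (Mg m S x K a σ) τ v z ^ 3 / 80 =
          c ^ 2 * Yf T (Mg m S x K a σ) τ v z ^ 3 / 320 := by ring
      rw [e]
      linarith) (by linarith) (by linarith) u
  refine le_trans (le_of_eq ?_) h
  ring

/-- **The mean of the bad event.** -/
theorem ex_badP_le (hG : GM m S M0) (hτ : 0 ≤ τ) (hv : 0 ≤ v) (x : ℝ) (K : Finset ι)
    (ha : Bd a) (hs : ∀ j, Bd (σ j)) (T : Finset I) {θ : ℝ} (hθ : 0 < θ) :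
    ex (gg ι) (Zxm m 1 S x) (badP m S x K a σ T τ v η θ) ≤
      155446 * ((3 / 2 * (τ * √(ex (gg ι) (Zxm m 1 S x) (RKg m S x K σ T))) +
        4 * η ^ 2 * √(ex (gg ι) (Zxm m 1 S x) (fun z => Yf T (Mg m S x K a σ) τ v z ^ 2))) *
      √(2 * τ ^ 4 * ex (gg ι) (Zxm m 1 S x) (Q4g m S x K σ T) + 2 * v ^ 4)) / θ := by
  have hw : Wt (gg ι) (Zxm m 1 S x) := hG.wt 1 x
  have bP := bm_Pz hG x K ha hs T τ v η
  have h1 : θ * ex (gg ι) (Zxm m 1 S x) (badP m S x K a σ T τ v η θ) ≤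
      ex (gg ι) (Zxm m 1 S x) (Pz m S x K a σ T τ v η) := by
    rw [← ex_cmul]
    refine ex_mono hw (bcm θ (bm_badP hG x K ha hs T τ v η θ)) bP fun z => ?_
    unfold badP H317.ind
    split_ifs with h
    · linarith
    · have := Pz_nonneg (m := m) (S := S) (x := x) (K := K) (a := a) (σ := σ) (T := T)
        (η := η) hτ hv z
      linarith
  have h2 := ex_prod_le (η := η) (v := v) hG hτ x K ha hs T (φ := fun _ => 1) (BM.const 1)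
    (fun _ => zero_le_one)
  have e0 : ex (H347.g1 ι) (Zxm m 1 S x) (fun _ : ι → ℝ => (1 : ℝ)) = 1 := ex_const hw 1
  simp only [one_mul] at h2
  rw [e0, mul_one] at h2
  have h3 : ex (gg ι) (Zxm m 1 S x) (Pz m S x K a σ T τ v η) = 155446 *
      ex (gg ι) (Zxm m 1 S x) (fun z => (3 / 2 * (τ * √(RKg m S x K σ T z)) +
        4 * η ^ 2 * Yf T (Mg m S x K a σ) τ v z) * (τ ^ 2 * √(Q4g m S x K σ T z) + v ^ 2)) :=
    ex_cmul _ _
  rw [le_div_iff₀ hθ, mul_comm]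
  refine h1.trans ?_
  rw [h3]
  exact mul_le_mul_of_nonneg_left h2 (by norm_num)

end Vale.Agent.P146.H463
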