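import Vale.Agent.P146.H463.NeIn
import Vale.Agent.P146.H412.K4
import Vale.Agent.P146.H412.MomSK

/-!
P146, the near end: the four point number `Q4g` of the modulated SK law, in terms of the pairs
inside `S`, and its mean by `H412.mom4_num`.
-/

open MeasureTheory ProbabilityTheory

namespace Vale.Agent.P146.H463

open Vale.Agent.P157.Lv Vale.Agent.P146.H196 Vale.Agent.P146.H475 Vale.Agent.P146.H646
  Vale.Agent.P146.H615 Vale.Agent.P146.H325 Vale.Agent.P146.H347 Vale.Agent.P146.H412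

set_option linter.unusedSectionVars false

variable {n : ℕ} {LB LF : Type} [Fintype LB] [DecidableEq LB] [Fintype LF] [DecidableEq LF]
variable {s η lam c x b : ℝ} {cB : LB → ℝ} {cF : LF → ℝ}

/-- the spins on the thermal space -/
def spR (n : ℕ) (j : Fin n) (w : ℝ × Xs n) : ℝ := sp w.2 j

/-- the conditional mean as a functional of the spins -/
noncomputable def LzA (b : ℝ) (cB : LB → ℝ) (cF : LF → ℝ) (s η lam c x : ℝ)
    (K : Finset (Co n LB LF)) (z : Co n LB LF → ℝ) (f : Xs n → ℝ) : ℝ :=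
  cx (g1 _) K (Zxm (muA (Xs n) lam η c) 1 (Sm b cB cF s η) x)
    (avm (muA (Xs n) lam η c) 1 (Sm b cB cF s η) (fun w => f w.2)) z

lemma q4_m4L (K : Finset (Co n LB LF)) (S : Finset (Fin n)) (z : Co n LB LF → ℝ) :
    Q4g (muA (Xs n) lam η c) (Sm b cB cF s η) x K (spR n) S z =
      m4L S (LzA b cB cF s η lam c x K z) := by
  unfold Q4g F2 m4L
  simp only [Finset.sum_product]
  rfl

variable (hl : 0 < lam) (hη : 0 ≤ η)
include hl hη

lemma LzA_one (K : Finset (Co n LB LF)) (z : Co n LB LF → ℝ) :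
    LzA b cB cF s η lam c x K z (fun _ => 1) = 1 := by
  unfold LzA
  rw [cx_rA b cB cF s hl hη c x K (fun _ => 1) z]
  simp only [mul_one]
  exact rA_sum b cB cF s hl hη c x K z

/-- the square of the second moment is at most the fourth moment -/
lemma m2L_sq_le (K : Finset (Co n LB LF)) (S : Finset (Fin n)) (z : Co n LB LF → ℝ) :
    m2L S (LzA b cB cF s η lam c x K z) ^ 2 ≤ m4L S (LzA b cB cF s η lam c x K z) := by
  have h1 := mo_two_cx b cB cF s hl hη c x K S z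
  have h2 := mo_four_cx b cB cF s hl hη c x K S z
  have h3 := mo_two_sq_le (S := S) (rA_nonneg b cB cF s hl hη c x K z)
    (rA_sum b cB cF s hl hη c x K z)
  rw [← h1, ← h2] at h3
  have e2 : m4L S (LzA b cB cF s η lam c x K z) = ∑ i ∈ S, ∑ j ∈ S, ∑ k ∈ S, ∑ l ∈ S,
      cx (g1 _) K (Zxm (muA (Xs n) lam η c) 1 (Sm b cB cF s η) x)
      (avm (muA (Xs n) lam η c) 1 (Sm b cB cF s η)
        (fun w => sp w.2 i * sp w.2 j * sp w.2 k * sp w.2 l)) z ^ 2 := by
    unfold m4L LzA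
    refine Finset.sum_congr rfl fun i _ => Finset.sum_congr rfl fun j _ =>
      Finset.sum_congr rfl fun k _ => Finset.sum_congr rfl fun l _ => ?_
    have : (fun w : ℝ × Xs n => sp w.2 i * sp w.2 j * (sp w.2 k * sp w.2 l)) =
        fun w => sp w.2 i * sp w.2 j * sp w.2 k * sp w.2 l := by
      funext w; ring
    rw [this]
  rw [e2]
  exact h3

/-- **the four point number in terms of the pairs**, pointwise in the frozen coordinates -/
theorem q4_pairs (K : Finset (Co n LB LF)) (S : Finset (Fin n)) (z : Co n LB LF → ℝ) :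
    Q4g (muA (Xs n) lam η c) (Sm b cB cF s η) x K (spR n) S z ≤ 2 * (S.card : ℝ) ^ 2 +
      8 * ∑ p ∈ prs S, ∑ q ∈ prs S, cxS n b cB cF s η lam c x K
        (av4 b cB cF s η lam c p q) z ^ 2 := by
  have h1 := LzA_one (b := b) (cB := cB) (cF := cF) (s := s) (c := c) (x := x) hl hη K z
  have h2 := m2L_sq_le (b := b) (cB := cB) (cF := cF) (s := s) (c := c) (x := x) hl hη K S z
  rw [q4_m4L]
  rw [m2L_eq h1, m4L_eq h1] at h2
  rw [m4L_eq h1]
  have e : ∑ p ∈ Pin S, ∑ q ∈ Pin S, LzA b cB cF s η lam c x K z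
      (fun σ => SkS p σ * SkS q σ) ^ 2 = ∑ p ∈ prs S, ∑ q ∈ prs S,
        cxS n b cB cF s η lam c x K (av4 b cB cF s η lam c p q) z ^ 2 := rfl
  rw [← e]
  set X := ∑ p ∈ Pin S, LzA b cB cF s η lam c x K z (SkS p) ^ 2 with hX
  set Y := ∑ p ∈ Pin S, ∑ q ∈ Pin S, LzA b cB cF s η lam c x K z
      (fun σ => SkS p σ * SkS q σ) ^ 2 with hY
  have h3 : 0 ≤ ((S.card : ℝ) - 2 * X) ^ 2 := sq_nonneg _
  nlinarith

/-- **the mean of the four point number**, explicit -/
theorem ex_q4_le (hx : 0 < x) (hx1 : x ≤ 1) {BL BL' BL1 : Finset LB} {FL : Finset LF}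
    (hBL : BL ⊆ BL') (h1 : Disjoint BL' BL1) (S : Finset (Fin n))
    (ht : 0 < tB n b cB (BL' \ BL)) (ht1 : 0 < tB n b cB BL1) :
    ex (g1 _) (Zxm (muA (Xs n) lam η c) 1 (Sm b cB cF s η) x)
      (Q4g (muA (Xs n) lam η c) (Sm b cB cF s η) x (Kset S BL FL) (spR n) S) ≤
      2 * (S.card : ℝ) ^ 2 +
      8 * (4 * (gain (muA (Xs n) lam η c) 1 x
        (Sm (LB := LB) (LF := LF) b cB cF s η) + 1) /
          (x ^ 4 * (tB n b cB (BL' \ BL) * tB n b cB BL1)) +
      16 * (gain (muA (Xs n) lam η c) 1 x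
        (Sm (LB := LB) (LF := LF) b cB cF s η) ^ 2 + 2) / (x ^ 4 * tB n b cB BL1 ^ 2)) := by
  have hG := gmA (n := n) b cB cF s hl hη c
  have hw := wtA (n := n) b cB cF s hl hη c x
  have h2 := mom4_num (n := n) hl hη c b cB cF s hx hx1 hBL h1 S FL ht ht1
  have bsp : ∀ j : Fin n, Bd (spR n j) := by
    intro j
    have := dmx n
    refine ⟨(measurable_of_finite (fun σ : Xs n => sp σ j)).comp measurable_snd, 1,
      zero_le_one, fun w => abs_sp_le w.2 j⟩
  have bQ := bm_Q4g hG x (Kset S BL FL) bsp S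
  have bP : BM (fun z => ∑ p ∈ prs S, ∑ q ∈ prs S, cxS n b cB cF s η lam c x (Kset S BL FL)
        (av4 b cB cF s η lam c p q) z ^ 2) := by
    refine BM.sum _ fun p _ => BM.sum _ fun q _ => bsq (hw.bm_cx _ ?_)
    have b2 : Bd fun w : ℝ × Xs n => SkS p w.2 * SkS q w.2 :=
      (((bsp p.1.1).mul (bsp p.1.2))).mul ((bsp q.1.1).mul (bsp q.1.2))
    exact (av_gm hG 1).bm b2
  have h3 : ex (g1 _) (Zxm (muA (Xs n) lam η c) 1 (Sm b cB cF s η) x)
      (Q4g (muA (Xs n) lam η c) (Sm b cB cF s η) x (Kset S BL FL) (spR n) S) ≤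
      ex (g1 _) (Zxm (muA (Xs n) lam η c) 1 (Sm b cB cF s η) x) (fun z => 2 * (S.card : ℝ) ^ 2 +
      8 * ∑ p ∈ prs S, ∑ q ∈ prs S, cxS n b cB cF s η lam c x (Kset S BL FL)
        (av4 b cB cF s η lam c p q) z ^ 2) :=
    ex_mono hw bQ ((BM.const _).add (bcm _ bP)) fun z => q4_pairs hl hη _ S z
  rw [H615.ex_add hw (BM.const _) (bcm _ bP), ex_const hw, ex_cmul] at h3
  refine h3.trans ?_
  have h4 := mul_le_mul_of_nonneg_left h2 (show (0 : ℝ) ≤ 8 by norm_num)
  linarith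

end Vale.Agent.P146.H463
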