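import Vale.Agent.P146.H463.ApU
import Vale.Agent.P146.H118.CCaa
import Vale.Agent.P146.H320.TypU

/-!
The second regime of the second choice, n-level: from the magnetisations to the overlap at a
typical point of the ensemble `U`.

* `fag_eq`, `rrg_le_CC` : the numbers of the law in the letters of the ensemble;
* `rrg_le_q` : `rrg` from the mean of the weighted overlap, a tail and the rank number;
* `pt_U` : a typical point of one law; `rrg_pt` : `rrg` at the point from the corner of the window.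
-/

open MeasureTheory ProbabilityTheory Filter Topology Set

namespace Vale.Agent.P146.H463.R2

open Vale.Agent.P157.Lv hiding Dep
open Vale.Agent.P146.H646 Vale.Agent.P146.H196 Vale.Agent.P146.H246
  Vale.Agent.P146.H475 Vale.Agent.P146.H325 Vale.Agent.P146.H281.U
open Vale.Agent.P146.H347 (Co Kset Xs bd fd gd g1)
open Vale.Agent.P146.H412 (gs prs Bst disj_Bst tB tB_nonneg gain gain_lm Cp)
open Vale.Agent.P146.H412.G (eG cG CCg Qg sR Bds CCg_nonneg F2_prs bm_CCg bm_Qg Qg_nonneg bd_sR)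
open Vale.Agent.P146.H698 (nuL_fin nuL_ne amU_L)
open Vale.Agent.P146.H698.Br (αb VFb ub)
open Vale.Agent.P146.H9.U (FLU cbU cfU canU)
open Vale.Agent.P146.H418 Vale.Agent.P146.H320 Vale.Agent.P146.H615 Vale.Agent.P146.H463.Ap
open Vale.Agent.P146.H118 (wf2 ex_cc_up bm_m2 bm_RKaa bd_wf2)
open Vale.Agent.P146.H463 (F2)

set_option linter.unusedSectionVars false

/-- the canonical energies -/
noncomputable abbrev enC (L : Law) (t u g : ℝ) :
    Co L.n Bool (Bool × Bool) → (Unit → ℝ) × Xs L.n → ℝ :=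
  enL L (cbU t) (L.cfg u g) (Prod.fst : Bool × Bool → Bool)

/-- the canonical block -/
noncomputable abbrev KC {n : ℕ} (S : Finset (Fin n)) : Finset (Co n Bool (Bool × Bool)) :=
  Kset S {true} (FLU Bool)

/-- the weight -/
noncomputable abbrev hL (L : Law) (w : (Unit → ℝ) × Xs L.n) : ℝ := al L.η (w.1 ())

variable {L : Law} {t u g : ℝ}

lemma bd_hL (hA : Adm L) : H615.Bd (hL L) :=
  ⟨(measurable_al L.η).comp ((measurable_pi_apply ()).comp measurable_fst), 1 + L.η,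
    by linarith [hA.η0], fun w => H119.abs_al_le' hA.η0 _⟩

lemma bd_spL (j : Fin L.n) : H615.Bd fun w : (Unit → ℝ) × Xs L.n => sp w.2 j :=
  bd_sR (cf := Prod.snd) measurable_snd j

lemma gmC (hA : Adm L) (t u g : ℝ) : GM (muL L) (enC L t u g)
    (MU L.n L.b (cbU t) (L.cfg u g) L.η) := gmL hA _ _ _

lemma fag_eq (hA : Adm L) (S : Finset (Fin L.n)) : L.fag S t u g =
    L.n * eG (muL L) (enC L t u g) L.x
      (Qg (muL L) (enC L t u g) L.x Prod.snd (hL L) (KC S) S) := by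
  have hn : (L.n : ℝ) ≠ 0 := by
    have : (0 : ℝ) < L.n := by exact_mod_cast hA.n0
    exact this.ne'
  rw [← H615.ex_cmul]
  show ex _ _ _ = ex _ _ _
  congr 1
  funext z
  unfold Qg
  rw [mul_div_cancel₀ _ hn]
  rfl

lemma rrg_le_CC (hA : Adm L) (S : Finset (Fin L.n)) : L.rrg S t u g ≤
    eG (muL L) (enC L t u g) L.x (CCg (muL L) (enC L t u g) L.x Prod.snd (KC S) S) := by
  have hM := gmC hA t u g
  have hw : Wt (gs (Co L.n Bool (Bool × Bool))) (Zxm (muL L) 1 (enC L t u g) L.x) := hM.wt 1 L.x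
  have hb1 : BM fun z => ∑ p ∈ prs S, cG (muL L) (enC L t u g) L.x (KC S)
      (fun w => SkS p w.2) z ^ 2 :=
    BM.sum _ fun p _ => H615.bsq (hw.bm_cx _ ((H615.av_gm hM 1).bm (H347.U.bm_SkSU p)))
  have e1 : L.rrg S t u g = eG (muL L) (enC L t u g) L.x
      fun z => 2 / (L.n : ℝ) ^ 2 * ∑ p ∈ prs S, cG (muL L) (enC L t u g) L.x (KC S)
        (fun w => SkS p w.2) z ^ 2 := by
    unfold Law.rrg
    rw [mul_div_right_comm]
    exact (H615.ex_cmul _ _).symm
  rw [e1]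
  refine ex_mono hw (bcm _ hb1) (bm_CCg hM measurable_snd _ S) fun z => ?_
  unfold CCg
  rw [F2_prs hM]
  rw [div_mul_eq_mul_div]
  gcongr
  have : (0 : ℝ) ≤ S.card := Nat.cast_nonneg _
  linarith

/-- `Q ≤ 4` -/
lemma Qg_le4 (hA : Adm L) (hη1 : L.η ≤ 1) (S : Finset (Fin L.n))
    (z : Co L.n Bool (Bool × Bool) → ℝ) :
    Qg (muL L) (enC L t u g) L.x Prod.snd (hL L) (KC S) S z ≤ 4 := by
  have hM := gmC hA t u g
  have hw : Wt (gs (Co L.n Bool (Bool × Bool))) (Zxm (muL L) 1 (enC L t u g) L.x) := hM.wt 1 L.x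
  have hn : (0 : ℝ) < L.n := by exact_mod_cast hA.n0
  have hb : ∀ j : Fin L.n, Bd fun w : (Unit → ℝ) × Xs L.n => hL L w * sR Prod.snd j w :=
    fun j => (bd_hL hA).mul (bd_sR measurable_snd j)
  have h1 : ∀ j, cG (muL L) (enC L t u g) L.x (KC S)
      (fun w => hL L w * sR Prod.snd j w) z ^ 2 ≤ 4 := by
    intro j
    have h2 : |cG (muL L) (enC L t u g) L.x (KC S)
        (fun w => hL L w * sR Prod.snd j w) z| ≤ 2 := by
      refine hw.abs_cx_le _ ((H615.av_gm hM 1).bm (hb j)) (fun y => ?_) z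
      refine hM.abs_av_le 1 (hb j).1 (fun w => ?_) y
      rw [abs_mul]
      have h3 : |hL L w| ≤ 1 + L.η := H119.abs_al_le' hA.η0 _
      have h4 : |sR Prod.snd j w| ≤ 1 := H281.U.abs_sp w.2 j
      nlinarith [abs_nonneg (hL L w), abs_nonneg (sR Prod.snd j w)]
    rw [← sq_abs]
    nlinarith [abs_nonneg (cG (muL L) (enC L t u g) L.x (KC S)
        (fun w => hL L w * sR Prod.snd j w) z)]
  unfold Qg
  rw [div_le_iff₀ hn]
  have h5 := Finset.sum_le_sum fun j (_ : j ∈ S) => h1 j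
  refine h5.trans ?_
  rw [Finset.sum_const, nsmul_eq_mul]
  have h6 : (S.card : ℝ) ≤ L.n := by
    have h7 := Finset.card_le_univ S
    rw [Fintype.card_fin] at h7
    exact_mod_cast h7
  linarith

/-- **From the mean of the weighted overlap to the two point number.** -/
theorem rrg_le_q (hA : Adm L) (hη1 : L.η ≤ 1) (S : Finset (Fin L.n)) {U P R : ℝ} (hU : 0 ≤ U)
    (hP : eG (muL L) (enC L t u g) L.x (H317.ind U
      (Qg (muL L) (enC L t u g) L.x Prod.snd (hL L) (KC S) S)) ≤ P)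
    (hR : ex (g1 _) (Zxm (muL L) 1 (enC L t u g) L.x)
      (RKg (muL L) (enC L t u g) L.x (KC S)
        (wf2 (hL L) fun (j : Fin L.n) w => sp w.2 j) S) ≤ R) :
    (1 - L.η) ^ 4 * L.rrg S t u g ≤
      2 * (U * (L.fag S t u g / L.n) + 16 * P) + 2 * R / (L.n : ℝ) ^ 2 := by
  have hM := gmC hA t u g
  have hw : Wt (gs (Co L.n Bool (Bool × Bool))) (Zxm (muL L) 1 (enC L t u g) L.x) := hM.wt 1 L.x
  have hn : (0 : ℝ) < L.n := by exact_mod_cast hA.n0
  have haη : ∀ w : (Unit → ℝ) × Xs L.n, |hL L w - 1| ≤ L.η := fun w => abs_al_sub hA.η0 _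
  have h1 := ex_cc_up hM L.x (KC S) (bd_hL hA) (bd_spL (L := L)) hη1 haη one_pos S
  have hQb := bm_Qg (x := L.x) hM measurable_snd (bd_hL hA) (KC S) S
  have hind : BM (H317.ind U (Qg (muL L) (enC L t u g) L.x Prod.snd (hL L) (KC S) S)) :=
    H317.bm_ind hQb.meas _
  -- the second moment of the overlap
  have h2 : ex (g1 _) (Zxm (muL L) 1 (enC L t u g) L.x) (fun z => m2 S
      (Mg (muL L) (enC L t u g) L.x (KC S) (hL L) fun (j : Fin L.n) w => sp w.2 j) z ^ 2) ≤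
      (L.n : ℝ) ^ 2 * (U * (L.fag S t u g / L.n) + 16 * P) := by
    have e1 : (fun z => m2 S
      (Mg (muL L) (enC L t u g) L.x (KC S) (hL L) fun (j : Fin L.n) w => sp w.2 j) z ^ 2) =
        fun z => (L.n : ℝ) ^ 2 *
          (Qg (muL L) (enC L t u g) L.x Prod.snd (hL L) (KC S) S z ^ 2) := by
      funext z
      unfold Qg
      rw [div_pow, mul_div_cancel₀ _ (by positivity)]
      rfl
    rw [e1, H615.ex_cmul]
    refine mul_le_mul_of_nonneg_left ?_ (by positivity)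
    have h3 : ∀ z, Qg (muL L) (enC L t u g) L.x Prod.snd (hL L) (KC S) S z ^ 2 ≤
        U * Qg (muL L) (enC L t u g) L.x Prod.snd (hL L) (KC S) S z + 16 *
          H317.ind U (Qg (muL L) (enC L t u g) L.x Prod.snd (hL L) (KC S) S) z := by
      intro z
      have q0 := Qg_nonneg (μ := muL L) (E := enC L t u g) (x := L.x) (cf := Prod.snd)
        (hL L) (KC S) S z
      have q4 := Qg_le4 (t := t) (u := u) (g := g) hA hη1 S z
      set Q := Qg (muL L) (enC L t u g) L.x Prod.snd (hL L) (KC S) S z with hQ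
      unfold H317.ind
      split_ifs with h4
      · nlinarith [mul_nonneg hU q0]
      · push Not at h4
        nlinarith
    have c1 := bcm U hQb
    have c2 := bcm 16 hind
    have h5 := ex_mono hw (hQb.sq) (c1.add c2) h3
    rw [hw.ex_add c1 c2, H615.ex_cmul, H615.ex_cmul] at h5
    refine h5.trans ?_
    have h6 : L.fag S t u g / L.n = eG (muL L) (enC L t u g) L.x
        (Qg (muL L) (enC L t u g) L.x Prod.snd (hL L) (KC S) S) := by
      rw [fag_eq hA S, mul_div_cancel_left₀ _ hn.ne']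
    rw [h6]
    have h7 : 16 * ex (g1 _) (Zxm (muL L) 1 (enC L t u g) L.x)
        (H317.ind U (Qg (muL L) (enC L t u g) L.x Prod.snd (hL L) (KC S) S)) ≤ 16 * P :=
      mul_le_mul_of_nonneg_left hP (by norm_num)
    linarith
  have h8 : L.rrg S t u g ≤ ex (g1 _) (Zxm (muL L) 1 (enC L t u g) L.x)
      (F2 (muL L) (enC L t u g) L.x (KC S) (fun (j : Fin L.n) w => sp w.2 j) S) /
        (L.n : ℝ) ^ 2 := by
    refine (rrg_le_CC hA S).trans (le_of_eq ?_)
    have e2 : CCg (muL L) (enC L t u g) L.x Prod.snd (KC S) S = fun z => 1 / (L.n : ℝ) ^ 2 *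
        F2 (muL L) (enC L t u g) L.x (KC S) (fun (j : Fin L.n) w => sp w.2 j) S z := by
      funext z
      unfold CCg
      rw [one_div, inv_mul_eq_div]
      rfl
    rw [e2]
    refine Eq.trans (H615.ex_cmul _ _) ?_
    rw [one_div, inv_mul_eq_div]
  have h9 : 0 ≤ (1 - L.η) ^ 4 := by positivity
  have h10 := mul_le_mul_of_nonneg_left h8 h9
  refine h10.trans ?_
  rw [← mul_div_assoc, div_le_iff₀ (by positivity), add_mul, div_mul_cancel₀ _ (by positivity)]
  refine h1.trans ?_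
  have h11 : (1 + 1 / (1 : ℝ)) = 2 := by norm_num
  rw [h11]
  linarith

lemma ub_eta (u : Bool → ℝ) : ub (u false) (u true) = u := by
  funext k
  cases k <;> rfl

lemma fag_ffU (S : Finset (Fin L.n)) (t : ℝ) (u g : ℝ) :
    ffU L.n L.nuL L.b (VFb L.vp L.s) (alL L) L.x true S t (ub u g) = L.fag S t u g := rfl

/-- **A typical point**: the two point number from the mean of the weighted overlap at the corner
of the window. -/
theorem pt_U (hA : Adm L) (hη1 : L.η ≤ 1) (hs : 0 < L.s) (hx : 0 < L.x) {m1 : ℕ} (h1 : 1 ≤ m1)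
    {T0 T1 u0 u1 g1 F U P : ℝ} (hT0 : 0 ≤ T0) (hT : T0 ≤ T1) (hT1 : T1 ≤ 1) (hu0 : 0 ≤ u0)
    (hu : u0 ≤ u1) (hu1 : u1 ≤ 1) (hg0 : 0 < g1) (hg1 : g1 ≤ 1)
    (hF : L.fag (Sn L.n (m1 - 1)) (1 - T0) u1 g1 ≤ F) (hU : 0 ≤ U)
    (hP : ∀ T ∈ Icc T0 T1, ∀ u ∈ Icc (0 : ℝ) 1, ∀ g ∈ Icc (0 : ℝ) 1, ∀ S : Finset (Fin L.n),
      eG (muL L) (enC L (1 - T) u g) L.x (H317.ind U
        (Qg (muL L) (enC L (1 - T) u g) L.x Prod.snd (hL L) (KC S) S)) ≤ P) :
    ∃ T ∈ Icc T0 T1, ∃ u ∈ Icc u0 u1, ∃ m ≤ 2 * m1,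
      (1 - L.η) ^ 4 * L.rr (Sn L.n m) (1 - T) u ≤
        2 * (U * (F / L.n) + 16 * P) +
          2 * (13 * F / (L.x ^ 2 * L.s ^ 2 * g1)) / (L.n : ℝ) ^ 2 := by
  have hn : (0 : ℝ) < L.n := by exact_mod_cast hA.n0
  have hF0 : 0 ≤ F := (H698.fag_nonneg L hA.lam0 hA.η0 _ _ _ _).trans hF
  obtain ⟨t, ht, u, hub, m, hm, hT⟩ := typU1 (n := L.n) (b := L.b) (x := L.x)
    (VF := VFb L.vp L.s) (α := alL L) (ν := L.nuL) (nuL_fin L hA.lam0 hA.η0)
    (nuL_ne L hA.lam0 hA.η0) (amU_L L hA.η0 id) hA.n0 hA.b0 (VFb_pos hA.vp0 hs) hA.x0 hA.x1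
    (m1 := m1) (m2 := 2 * m1) h1 (by omega) (t0 := 1 - T1) (t1 := 1 - T0) (u0 := ub u0 0)
    (u1 := ub u1 g1) (by linarith) (by linarith) (by linarith)
    (H698.ub_nonneg hu0 le_rfl) (H698.ub_mono hu hg0.le) (H698.ub_le_one hu1 hg1)
  have hf := hub false
  have hg := hub true
  have f0 : u0 ≤ u false := hf.1
  have f1 : u false ≤ u1 := hf.2
  have g0 : 0 ≤ u true := hg.1
  have g1' : u true ≤ g1 := hg.2
  have t0 : 0 ≤ t := le_trans (by linarith) ht.1
  have t1 : t ≤ 1 := ht.2.trans (by linarith)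
  have hsh := H698.can_sh L (t := t) (u := u false) (g := u true) hA.vp0.le t0 t1 (hu0.trans f0)
    (f1.trans hu1) g0 (g1'.trans hg1)
  rw [ub_eta] at hsh
  have hrk := (hT Bool (Bool × Bool) Prod.fst (cbU t) (cfU (VFb L.vp L.s) u) {true} (FLU Bool)
    (by
      have := hsh
      unfold Law.cfg at this
      rwa [ub_eta] at this)).rk true (SN L.n m) (Or.inl rfl)
  have hm' := Finset.mem_Icc.1 hm
  have hT01 : 1 - t ∈ Icc T0 T1 := ⟨by linarith [ht.2], by linarith [ht.1]⟩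
  refine ⟨1 - t, hT01, u false, ⟨f0, f1⟩, m, hm'.2, ?_⟩
  have e1 : 1 - (1 - t) = t := by ring
  rw [e1]
  have hRK : ex (H347.g1 _) (Zxm (muL L) 1 (enC L t (u false) (u true)) L.x)
      (RKg (muL L) (enC L t (u false) (u true)) L.x (KC (Sn L.n m))
        (wf2 (hL L) fun (j : Fin L.n) w => sp w.2 j) (Sn L.n m)) ≤
      13 * F / (L.x ^ 2 * L.s ^ 2 * g1) := by
    rw [le_div_iff₀ (by positivity)]
    have h2 : rkT L.n L.nuL L.b (alL L) L.x (cbU t) (cfU (VFb L.vp L.s) u)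
        (fun l : Bool × Bool => alL L l.1) true (SN L.n m) (Kset (SN L.n m) {true} (FLU Bool)) =
        ex (H347.g1 _) (Zxm (muL L) 1 (enC L t (u false) (u true)) L.x)
      (RKg (muL L) (enC L t (u false) (u true)) L.x (KC (Sn L.n m))
        (wf2 (hL L) fun (j : Fin L.n) w => sp w.2 j) (Sn L.n m)) := by
      unfold enC Law.cfg
      rw [ub_eta]
      rfl
    rw [← h2]
    have h3 : ffU L.n L.nuL L.b (VFb L.vp L.s) (alL L) L.x true (SN L.n (m1 - 1)) (1 - T0)
        (ub u1 g1) ≤ F := hF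
    have h4 : L.x ^ 2 * VFb L.vp L.s true * (ub u1 g1 true - ub u0 0 true) =
        L.x ^ 2 * L.s ^ 2 * g1 := by
      show L.x ^ 2 * L.s ^ 2 * (g1 - 0) = _
      ring
    have h5 : (5 * (Fintype.card Bool : ℝ) + 3) = 13 := by
      rw [Fintype.card_bool]
      norm_num
    rw [h4, h5] at hrk
    nlinarith
  have h6 : L.rr (Sn L.n m) t (u false) ≤ L.rrg (Sn L.n m) t (u false) (u true) := by
    have h7 : L.rr (Sn L.n m) t (u false) = L.rrg (Sn L.n m) t (u false) 0 := by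
      unfold Law.rr Law.rrg
      rw [H698.ppg_zero L hA.lam0 hA.η0 hA.vp0 hs t0 t1 (hu0.trans f0) (f1.trans hu1)]
    rw [h7]
    exact H698.rrg_mono L hA.lam0 hA.η0 hA.vp0.le (Finset.Subset.refl _) t0 le_rfl t1
      (hu0.trans f0) le_rfl (f1.trans hu1) le_rfl g0 (g1'.trans hg1)
  have h8 : L.fag (Sn L.n m) t (u false) (u true) ≤ F := by
    refine le_trans ?_ hF
    refine H698.fag_mono L hA.lam0 hA.η0 hA.vp0.le ?_ t0 ht.2 (by linarith) (hu0.trans f0) f1 hu1
      g0 g1' hg1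
    have h9 : SN L.n m ⊆ SN L.n (m1 - 1) := SN_anti (by omega)
    exact h9
  have hP' := hP (1 - t) hT01 (u false) ⟨hu0.trans f0, f1.trans hu1⟩ (u true)
    ⟨g0, g1'.trans hg1⟩ (Sn L.n m)
  rw [e1] at hP'
  have h10 := rrg_le_q (t := t) (u := u false) (g := u true) hA hη1 (Sn L.n m) hU hP' hRK
  have h11 : 0 ≤ (1 - L.η) ^ 4 := by positivity
  refine (mul_le_mul_of_nonneg_left h6 h11).trans (h10.trans ?_)
  have h12 : U * (L.fag (Sn L.n m) t (u false) (u true) / L.n) ≤ U * (F / L.n) :=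
    mul_le_mul_of_nonneg_left (div_le_div_of_nonneg_right h8 hn.le) hU
  linarith

end Vale.Agent.P146.H463.R2
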