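import Vale.Agent.P146.H122.S3Defs
import Vale.Agent.P146.H176.S3ApU
import Vale.Agent.P146.H442.QRow
import Vale.Agent.P146.H463.Reg2N

/-!
# P146: the second regime, `s² = n^(-80q) V`, eventually in the size and the unit

Port of `H463.R2.rowUp2F_of`, `H463.R2.rowFarC`, `H442.qrow_al` and `H442.qrow_ev`; no open
hypothesis.
-/

open MeasureTheory ProbabilityTheory Filter Set

namespace Vale.Agent.P146.S3

open Vale.Agent.P146.H418 Vale.Agent.P146.H529 Vale.Agent.P146.H615 Vale.Agent.P146.H122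
  Vale.Agent.P146.H463.R2

/-- the a-priori numbers of the canonical systems -/
theorem apQ_ev {b₁ A b : ℝ} (hb : 0 < b) (hA : 1 ≤ A) (hb₁ : 0 < b₁) :
    EV fun n q => ∀ y V al s lam η : ℝ, KW (1 / 6) b₁ q A b n y V al s lam η →
      NW (1 / 6) b₁ q A b n y V al s lam η ∧ ApC q 10 (lawOf n b y V al s lam η) ∧
        H442.ApQ q 20 (lawOf n b y V al s lam η) := by
  filter_upwards [apU_ev (b₁ := b₁) 10 hb hA hb₁,
    apU_ev (b₁ := b₁) 20 hb hA hb₁] with ⟨n, q⟩ h1 h2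
  dsimp only at h1 h2 ⊢
  intro y V al s lam η hkw
  obtain ⟨hnw, -, hap⟩ := h1 y V al s lam η hkw
  obtain ⟨-, -, hap2⟩ := h2 y V al s lam η hkw
  exact ⟨hnw, apC_of hnw.adm.1 fun LB LF _ _ _ _ κ cB cF BL hB hF T hT hT1 hBL FL
    S1 S => ((hap LB LF κ cB cF BL hB hF).2 T hT hT1 hBL FL S1 S).1,
    H442.apQ_of hnw.adm.1 hap2⟩

/-- **The second regime**, the field is not above a multiple of `y²`. -/
theorem rowFar_al {b₁ A b : ℝ} (hb : 1 ≤ b) (hA : 1 ≤ A) (hb₁ : 0 < b₁) :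
    EV fun n q => ∀ y V al s lam η : ℝ, KW (1 / 6) b₁ q A b n y V al s lam η →
      12 * al ≤ (n : ℝ) ^ (30 * q) * y ^ 2 → s ^ 2 = (n : ℝ) ^ (-(80 * q)) * V →
        RowUp2 q b n y V al s lam η := by
  filter_upwards [apQ_ev (b₁ := b₁) (A := A) (b := b) (by linarith) hA hb₁, ev_ge 2]
    with ⟨n, q⟩ h2 hn1
  dsimp only at h2 hn1 ⊢
  intro y V al s lam η hkw hal hs2
  obtain ⟨hnw, hap, hapq⟩ := h2 y V al s lam η hkw
  exact row2_n (by omega) hnw hs2 hap fun T hT hT1 => H442.q_at hnw hb hal hs2 hapq (by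
    unfold T2 at hT
    exact hT) hT1

/-- **The second regime under `al ≤ C y²`.** -/
theorem rowFarCS {b₁ A b : ℝ} (C : ℝ) (hb : 1 ≤ b) (hA : 1 ≤ A) (hb₁ : 0 < b₁) :
    EV fun n q => ∀ y V al s lam η : ℝ, KW (1 / 6) b₁ q A b n y V al s lam η →
      al ≤ C * y ^ 2 → s ^ 2 = (n : ℝ) ^ (-(80 * q)) * V → RowUp2 q b n y V al s lam η := by
  filter_upwards [rowFar_al (b₁ := b₁) (A := A) (b := b) hb hA hb₁,
    ev_rpow (show (0 : ℝ) < 30 by norm_num) (12 * C)] with ⟨n, q⟩ h1 h2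
  dsimp only at h1 h2 ⊢
  intro y V al s lam η hkw hal hs2
  refine h1 y V al s lam η hkw ?_ hs2
  have e4 := mul_le_mul_of_nonneg_right h2 (sq_nonneg y)
  linarith

/-- **The second regime of the second choice.** -/
theorem rowUp2S {b₁ A b : ℝ} (hb : 1 ≤ b) (hA : 1 ≤ A) (hb₁ : 0 < b₁) : RowUp2S b₁ A b := by
  filter_upwards [rowFar_al (b₁ := b₁) (A := A) (b := b) hb hA hb₁,
    ev_rpow (show (0 : ℝ) < 40 by norm_num) (12 * A)] with ⟨n, q⟩ h1 h2
  dsimp only at h1 h2 ⊢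
  intro y V al s lam η a hkw hwa hs2
  have hn0 : (0 : ℝ) < n := by exact_mod_cast (zero_lt_one.trans hkw.n1)
  refine h1 y V al s lam η hkw ?_ hs2
  have e1 : al ≤ A * ((n : ℝ) ^ (-(10 * q)) * y ^ 2) := hwa.le.trans hwa.up
  have e2 : (n : ℝ) ^ (30 * q) = (n : ℝ) ^ (40 * q) * (n : ℝ) ^ (-(10 * q)) := by
    rw [← Real.rpow_add hn0]
    ring_nf
  rw [e2]
  have e3 : 0 ≤ (n : ℝ) ^ (-(10 * q)) * y ^ 2 := by positivity
  have e4 := mul_le_mul_of_nonneg_right h2 e3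
  linarith

end Vale.Agent.P146.S3
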